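import Crest.Agent.H7.HadP

/-! Row 326, fast Hadamard transform: the stages of the recursion. -/

set_option autoImplicit false
set_option linter.unusedVariables false

namespace Crest.Agent.H7.Had
open Crest.Agent.H9.IM Crest.Agent.H3.Ptime Finset Filter

structure Ok (q : HQ) (N Λ : ℕ) : Prop where
  u1 : 1 ≤ q.1.length
  hp : HP q.2.1 q.2.2.1 q.2.2.2.length N
  hD : q.2.2.1 ≤ 2 ^ Λ
  hw : 2 * q.1.length + 1 ≤ Λ
  hK : q.2.2.2.length ≤ Λ
  hN : N ≤ 2 ^ Λ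

noncomputable def WW (q : HQ) : ℝ := (2 * q.1.length + 2 : ℝ) ^ (1 + gam)
noncomputable def own (k : ℕ) (q : HQ) (N V Λ : ℕ) : ℝ :=
  (N + 1) * (V * WW q * (XX q + 1) + (Λ : ℝ) ^ k)

lemma WW_ge (q : HQ) : (2 * q.1.length + 2 : ℝ) ≤ WW q := by
  have : (0 : ℝ) ≤ q.1.length := by positivity
  calc _ = (2 * q.1.length + 2 : ℝ) ^ (1 : ℝ) := (Real.rpow_one _).symm
    _ ≤ _ := Real.rpow_le_rpow_of_exponent_le (by linarith) (by have := gam_pos; linarith)

lemma WW_nonneg (q : HQ) : 0 ≤ WW q := by unfold WW; positivity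

variable {q : HQ} {N Λ : ℕ}

lemma Ok.three (h : Ok q N Λ) : 3 ≤ Λ := by have := h.u1; have := h.hw; omega
lemma Ok.pos (h : Ok q N Λ) : 0 < N := by obtain ⟨b, B, -, -, -, -, -, h, -⟩ := h.hp; exact h
lemma Ok.K1 (h : Ok q N Λ) : 1 ≤ q.2.2.2.length := by obtain ⟨b, B, -, -, -, h, -⟩ := h.hp; exact h

lemma Ok.szq (h : Ok q N Λ) : sz q ≤ Λ ^ 4 := by
  have h3 := h.three
  obtain ⟨u, lo, D, K⟩ := q
  obtain ⟨h1, ⟨b, B, -, hB, hD', -, hd, hN, -⟩, h2, h4, h5, h6⟩ := h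
  dsimp only at *
  have hlo : lo ≤ N := Nat.le_of_dvd hN (((dvd_mul_right _ _).mul_right _).trans hd)
  have e1 : lo.size ≤ Λ + 1 := Nat.size_le.2 (by rw [pow_succ]; have : 0 < 2 ^ Λ := by positivity
                                                 omega)
  have e2 : D.size ≤ Λ + 1 := Nat.size_le.2 (by rw [pow_succ]; have : 0 < 2 ^ Λ := by positivity
                                                omega)
  have := sz_nat_le lo
  have := sz_nat_le D
  rw [sz_pair, sz_pair, sz_pair, sz_units, sz_units]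
  have : 27 * Λ ≤ Λ ^ 4 := by
    calc 27 * Λ = 3 ^ 3 * Λ := by norm_num
      _ ≤ Λ ^ 3 * Λ := by gcongr
      _ = _ := by ring
  omega

lemma Ok.one (h : Ok q N Λ) : (1 : ℝ) ≤ Λ := by have := h.three; exact_mod_cast (by omega : 1 ≤ Λ)

lemma Ok.XX1 (h : Ok q N Λ) : 1 ≤ XX q := by
  unfold XX
  have h1 : (1 : ℝ) ≤ (q.2.2.2.length : ℝ) ^ th :=
    Real.one_le_rpow (by exact_mod_cast h.K1) th_pos.le
  have : (0 : ℝ) ≤ Nat.log 2 q.2.2.1 := by positivity
  nlinarith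

lemma Ok.WX (h : Ok q N Λ) {k : ℕ} (hk : 7 ≤ k) : WW q * (XX q + 1) ≤ (Λ : ℝ) ^ k := by
  have h3 : (3 : ℝ) ≤ Λ := by exact_mod_cast h.three
  have h1 : WW q ≤ (Λ : ℝ) ^ 4 := by
    have hw : (2 * q.1.length + 1 : ℝ) ≤ Λ := by exact_mod_cast h.hw
    have : (0 : ℝ) ≤ q.1.length := by positivity
    calc WW q ≤ (2 * q.1.length + 2 : ℝ) ^ ((2 : ℕ) : ℝ) :=
          Real.rpow_le_rpow_of_exponent_le (by linarith) (by have := gam_le; push_cast; linarith)
      _ = (2 * q.1.length + 2 : ℝ) ^ 2 := Real.rpow_natCast _ _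
      _ ≤ ((Λ : ℝ) ^ 2) ^ 2 := by gcongr; nlinarith
      _ = _ := by ring
  have h2 : XX q + 1 ≤ (Λ : ℝ) ^ 3 := by
    have e1 : (Nat.log 2 q.2.2.1 : ℝ) ≤ Λ := by
      have := Nat.log_mono_right (b := 2) h.hD
      rw [Nat.log_pow (by norm_num)] at this
      exact_mod_cast this
    have e2 : (q.2.2.2.length : ℝ) ^ th ≤ Λ := by
      calc _ ≤ (q.2.2.2.length : ℝ) ^ (1 : ℝ) :=
            Real.rpow_le_rpow_of_exponent_le (by exact_mod_cast h.K1) th_le
        _ ≤ _ := by rw [Real.rpow_one]; exact_mod_cast h.hK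
    have : XX q ≤ (Λ + 1) * Λ := by unfold XX; gcongr
    nlinarith [mul_nonneg (mul_nonneg (by linarith : (0 : ℝ) ≤ Λ) (by linarith : (0 : ℝ) ≤ Λ))
      (by linarith : (0 : ℝ) ≤ Λ - 3)]
  have := XX_nonneg q
  calc _ ≤ (Λ : ℝ) ^ 4 * (Λ : ℝ) ^ 3 := by gcongr
    _ = (Λ : ℝ) ^ 7 := by ring
    _ ≤ _ := pow_le_pow_right₀ h.one hk

lemma own_ge (k : ℕ) (q : HQ) (N V Λ : ℕ) : (Λ : ℝ) ^ k ≤ own k q N V Λ := by
  unfold own
  have := WW_nonneg q
  have := XX_nonneg q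
  have h1 : 0 ≤ V * WW q * (XX q + 1) := by positivity
  have h2 : (0 : ℝ) ≤ (Λ : ℝ) ^ k := by positivity
  have : (0 : ℝ) ≤ N := by positivity
  nlinarith

lemma own_mono (k : ℕ) (q : HQ) (N Λ : ℕ) {V V' : ℕ} (h : V ≤ V') :
    own k q N V Λ ≤ own k q N V' Λ := by
  unfold own
  have := WW_nonneg q
  have := XX_nonneg q
  gcongr

lemma sz_sh (h : Ok q N Λ) {V : ℕ} {A : Arr} (hA : Sh q.1.length N V A) (k : ℕ) :
    (sz A : ℝ) ≤ 5 * own k q N V Λ := by
  have h1 : sz A ≤ N * (V * (8 * q.1.length + 8 + 1) + 1 + 1) + 1 := by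
    rw [← hA.1]
    refine sz_le_mul _ _ fun c hc => ?_
    rw [← (hA.bd c hc).1]
    refine sz_le_mul _ _ fun x hx => ?_
    have := Nat.size_le.2 ((hA.bd c hc).2 x hx)
    have := sz_nat_le x
    omega
  have h2 : sz A ≤ 5 * ((N + 1) * (V * (2 * q.1.length + 2) * 1 + 1)) := by
    have e : V * (8 * q.1.length + 8 + 1) + 1 + 1 ≤ 5 * (V * (2 * q.1.length + 2) * 1 + 1) := by
      nlinarith [Nat.zero_le (V * q.1.length)]
    have e2 := Nat.mul_le_mul_left N e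
    nlinarith [Nat.zero_le (V * (2 * q.1.length + 2))]
  have h3 : (sz A : ℝ) ≤ 5 * ((N + 1) * (V * (2 * q.1.length + 2) * 1 + 1)) := by exact_mod_cast h2
  refine h3.trans ?_
  unfold own
  have := XX_nonneg q
  have := WW_nonneg q
  gcongr
  · exact WW_ge q
  · linarith
  · exact one_le_pow₀ h.one

def B1 (P : HQ → ℕ → Arr → Prop) (k : ℕ) (x : HQ × Arr) (T : ℕ) : Prop :=
  ∃ V Λ, Ok x.1 x.2.length Λ ∧ Sh x.1.1.length x.2.length V x.2 ∧ P x.1 (2 * x.1.1.length + 1) x.2 ∧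
    own k x.1 x.2.length V Λ ≤ T

lemma acE {f : HQ → Arr → Arr} {P : HQ → ℕ → Arr → Prop} (h : AC f P XX) :
    ∀ᶠ k in atTop, CC (fun x : HQ × Arr => f x.1 x.2) (B1 P k) := by
  obtain ⟨k0, h, -⟩ := h
  filter_upwards [eventually_ge_atTop (4 * k0)] with k hk
  refine h.mono ?_
  rintro x T ⟨V, Λ, h1, h2, h3, h4⟩
  have h5 : Λ ≤ Λ ^ 4 := Nat.le_self_pow (by norm_num) _
  refine ⟨V, _, Λ ^ 4, h3, h2.bd, h1.szq, h1.hw.trans h5,
    h1.hN.trans (Nat.pow_le_pow_right (by norm_num) h5), by have := h1.three; omega, XX_nonneg _,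
    le_trans ?_ h4⟩
  unfold own WW
  push_cast
  rw [← pow_mul, add_assoc (2 * (x.1.1.length : ℝ)), one_add_one_eq_two]
  gcongr
  exact h1.one

lemma ptE {β : Type} [Enc β] {g : HQ → β} (h : PT g) :
    ∀ᶠ k in atTop, CC g (fun q T => ∃ N Λ, Ok q N Λ ∧ (Λ : ℝ) ^ k ≤ T) := by
  obtain ⟨k0, h⟩ := CC.ofPT h
  filter_upwards [eventually_ge_atTop (4 * k0)] with k hk
  refine h.mono ?_
  rintro q T ⟨N, Λ, h1, h2⟩
  have : Λ ^ k ≤ T := by exact_mod_cast h2
  calc sz q ^ k0 ≤ (Λ ^ 4) ^ k0 := by have := h1.szq; gcongr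
    _ = Λ ^ (4 * k0) := by rw [pow_mul]
    _ ≤ Λ ^ k := Nat.pow_le_pow_right (by have := h1.three; omega) hk
    _ ≤ T := this

lemma cc_getD {α β : Type} [Enc α] [Enc β] {S : α → ℕ → Prop} (r : ℕ) (d : β) {l : α → List β}
    (hl : CC l S) : CC (fun a => (l a).getD r d) S := by
  induction r generalizing l with
  | zero => exact (hl.headD (CC.const d)).of_eq fun a => by cases l a <;> rfl
  | succ r ih => exact (ih hl.tail).of_eq fun a => by cases l a <;> simp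

abbrev St := (HQ × Arr) × List Arr

def RS (m k : ℕ) (s : St) (T : ℕ) : Prop :=
  ∃ V Λ, Ok s.1.1 s.1.2.length Λ ∧ 256 < s.1.1.2.2.2.length ∧ s.2.length = m ∧
    (∀ R ∈ s.2, Sh s.1.1.1.length s.1.2.length V R) ∧ own k s.1.1 s.1.2.length V Λ ≤ T

lemma getD_mem' {α : Type} {l : List α} {r : ℕ} (h : r < l.length) (d : α) : l.getD r d ∈ l := by
  rw [List.getD_eq_getElem _ _ h]; exact List.getElem_mem h

lemma cc_pt {β : Type} [Enc β] {g : HQ → β} (h : PT g) (m : ℕ) :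
    ∀ᶠ k in atTop, CC (fun s : St => g s.1.1) (RS m k) := by
  filter_upwards [ptE h] with k hk
  refine hk.comp2 (by fun_prop) ?_
  rintro s T ⟨V, Λ, h1, -, -, -, h5⟩
  exact ⟨_, Λ, h1, (own_ge _ _ _ _ _).trans h5⟩

lemma cc_lin (hL : LinStmt) {c1 c2 : ℕ → ℕ} (h1 : PT (fun q : HQ => c1 q.1.length))
    (h2 : PT (fun q : HQ => c2 q.1.length)) (b1 : ∀ u, 1 ≤ u → c1 u < MM u)
    (b2 : ∀ u, 1 ≤ u → c2 u < MM u) {m r r' : ℕ} (hr : r < m) (hr' : r' < m) :
    ∀ᶠ k in atTop, CC (fun s : St => lin s.1.1.1.length (c1 s.1.1.1.length) (c2 s.1.1.1.length)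
      (s.2.getD r []) (s.2.getD r' [])) (RS m k) := by
  filter_upwards [cc_pt h1 m, cc_pt h2 m, eventually_ge_atTop 7] with k k1 k2 hk
  refine CC.comp2 hL (f := fun s : St => ((s.1.1.1, c1 s.1.1.1.length, c2 s.1.1.1.length),
    s.2.getD r [], s.2.getD r' [])) (((show CC (fun s : St => s.1.1.1) _ by fun_prop).pair
      (k1.pair k2)).pair ((cc_getD r [] (by fun_prop)).pair (cc_getD r' [] (by fun_prop)))) ?_
  rintro s T ⟨V, Λ, e1, e2, e3, e4, e5⟩
  refine ⟨_, V, e1.u1, b1 _ e1.u1, b2 _ e1.u1, e4 _ (getD_mem' (by omega) _),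
    e4 _ (getD_mem' (by omega) _), le_trans ?_ e5⟩
  have := e1.WX hk
  have := XX_nonneg s.1.1
  have := WW_nonneg s.1.1
  show _ * (_ * WW s.1.1) ≤ _
  unfold own
  gcongr
  have : (0 : ℝ) ≤ V := by positivity
  nlinarith [mul_nonneg (mul_nonneg this (WW_nonneg s.1.1)) (XX_nonneg s.1.1),
    mul_nonneg (WW_nonneg s.1.1) (XX_nonneg s.1.1)]

lemma cc_pull {π : HQ → ℕ → ℕ} (h : PC π Big XX) {m r : ℕ} (hr : r < m) :
    ∀ᶠ k in atTop, CC (fun s : St => pullN (s.2.getD r []).length (π s.1.1) (s.2.getD r []))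
      (RS m k) := by
  filter_upwards [acE h.1] with k hk
  refine hk.comp2 (f := fun s : St => (s.1.1, s.2.getD r []))
    ((show CC (fun s : St => s.1.1) _ by fun_prop).pair (cc_getD r [] (by fun_prop))) ?_
  rintro s T ⟨V, Λ, e1, e2, e3, e4, e5⟩
  have := e4 _ (getD_mem' (show r < s.2.length by omega) [])
  refine ⟨V, Λ, ?_⟩
  dsimp only
  rw [this.1]
  exact ⟨e1, this, ⟨e1.hp, e2⟩, e5⟩

lemma lin_toArr {u N V : ℕ} (hN : 0 < N) (c1 c2 : ℕ) (x y : ℕ → ℕ → ZMod (MM u)) :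
    lin u c1 c2 (toArr N V x) (toArr N V y) =
      toArr N V (fun e i => (c1 : ZMod (MM u)) * x e i + (c2 : ZMod (MM u)) * y e i) := by
  unfold lin
  rw [(sh_toArr u N V x).1, (sh_toArr u N V x).head hN]
  exact toArr_congr fun e he i hi => by rw [ofArr_toArr _ he hi, ofArr_toArr _ he hi]

def regs {u : ℕ} (N V m : ℕ) (x : ℕ → List (ℕ → ZMod (MM u))) : List Arr :=
  (List.range m).map fun r => toArr N V (fun e => (x e).getD r 0)

lemma regs_getD {u : ℕ} (N V : ℕ) {m r : ℕ} (x : ℕ → List (ℕ → ZMod (MM u))) (hr : r < m) :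
    (regs N V m x).getD r [] = toArr N V (fun e => (x e).getD r 0) := by
  simp [regs, List.getD_eq_getElem?_getD, hr]

lemma regs_sh {u : ℕ} (N V m : ℕ) (x : ℕ → List (ℕ → ZMod (MM u))) :
    ∀ R ∈ regs N V m x, Sh u N V R := by
  intro R h
  obtain ⟨r, -, rfl⟩ := List.mem_map.1 h
  exact sh_toArr _ _ _ _

lemma regs_snoc {u : ℕ} (N V m : ℕ) (x : ℕ → List (ℕ → ZMod (MM u))) (hx : ∀ e, (x e).length = m)
    (v : ℕ → ℕ → ZMod (MM u)) :
    regs N V (m + 1) (fun e => x e ++ [v e]) = regs N V m x ++ [toArr N V v] := by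
  unfold regs
  rw [List.range_succ, List.map_append, List.map_singleton]
  congr 1
  · refine List.map_congr_left fun r hr => ?_
    congr 1
    funext e
    rw [List.getD_append _ _ _ _ (by rw [hx]; simpa using hr)]
  · congr 2
    funext e
    rw [List.getD_append_right _ _ _ _ (by rw [hx]), hx]; simp

noncomputable def opq (q : HQ) (m : Bool × HH) (v : ℕ → ZMod (MM q.1.length)) :
    ℕ → ZMod (MM q.1.length) :=
  rho q.2.1 q.2.2.1 (JJ q) (bif m.1 then gel (eta _) (II _) m.2 else AddMonoidAlgebra.single m.2 1) v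

def triv : HQ × Arr := (([], 0, 0, []), [])

def Good (I : Ins (Bool × HH)) (m : ℕ) : Prop :=
  ∃ (arg : St → HQ × Arr) (val : St × Arr → Arr) (Sp : ℕ → St × Arr → ℕ → Prop),
    (∀ᶠ k in atTop, CC arg (RS m k) ∧ CC val (Sp k)) ∧
    ∀ (q : HQ) (A : Arr) (V Λ : ℕ) (x : ℕ → List (ℕ → ZMod (MM q.1.length))) (s : St),
      Ok q A.length Λ → 256 < q.2.2.2.length → s = ((q, A), regs A.length V m x) →
      (∀ k T : ℕ, own k q A.length V Λ ≤ T → Sp k (s, FF (arg s).1 (arg s).2) T) ∧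
      val (s, FF (arg s).1 (arg s).2) =
        toArr A.length V (fun e => I.val (eta q.1.length) (opq q) (x e)) ∧
      (arg s = triv ∨ (I.cost (fun m => m.1) = 1 ∧ ∃ lo' A', arg s =
        ((q.1, lo', q.2.2.1, List.replicate (JJ q) ()), A') ∧
        Ok (q.1, lo', q.2.2.1, List.replicate (JJ q) ()) A.length Λ ∧ Sh q.1.length A.length V A'))

lemma rs_regs {q : HQ} {A : Arr} {V Λ m k T : ℕ} (x : ℕ → List (ℕ → ZMod (MM q.1.length)))
    (h : Ok q A.length Λ) (hK : 256 < q.2.2.2.length) (hT : own k q A.length V Λ ≤ T) :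
    RS m k ((q, A), regs A.length V m x) T :=
  ⟨V, Λ, h, hK, by simp [regs], regs_sh _ _ _ _, hT⟩

lemma good_triv {I : Ins (Bool × HH)} {m : ℕ} (h : St → Arr) (hc : ∀ᶠ k in atTop, CC h (RS m k))
    (he : ∀ (q : HQ) (A : Arr) (V Λ : ℕ) (x : ℕ → List (ℕ → ZMod (MM q.1.length))),
      Ok q A.length Λ → 256 < q.2.2.2.length → h ((q, A), regs A.length V m x) =
        toArr A.length V (fun e => I.val (eta q.1.length) (opq q) (x e))) : Good I m := by
  refine ⟨fun _ => triv, fun p => h p.1, fun k p T => RS m k p.1 T, ?_, ?_⟩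
  · filter_upwards [hc] with k hk
    exact ⟨CC.const _, hk.comp2 (by fun_prop) (fun _ _ h => h)⟩
  · rintro q A V Λ x s h1 h2 rfl
    exact ⟨fun k T hT => rs_regs x h1 h2 hT, he q A V Λ x h1 h2, Or.inl rfl⟩

lemma pt_MM : PT (fun q : HQ => MM q.1.length) := by
  unfold MM
  exact (PT.pow (PT.const 2) (by fun_prop) ((PB.const 2).mul (PB.length (by fun_prop)))).add
    (PT.const 1)

lemma MM_ge {u : ℕ} (hu : 1 ≤ u) : 5 ≤ MM u := by
  have : 2 ^ 2 ≤ 2 ^ (2 * u) := Nat.pow_le_pow_right (by norm_num) (by omega)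
  unfold MM; omega

lemma ok_sub {q : HQ} {N Λ : ℕ} (h : Ok q N Λ) (hK : 256 < q.2.2.2.length) (μ : Fin 256) :
    Ok (q.1, blk q.2.1 q.2.2.1 (JJ q) μ, q.2.2.1, List.replicate (JJ q) ()) N Λ := by
  obtain ⟨h1, ⟨b, B, e1, hB, e2, e3, hd, hN, hl⟩, h2, h4, h5, h6⟩ := h
  have hJ : 1 ≤ JJ q ∧ JJ q ≤ q.2.2.2.length := by unfold JJ; omega
  refine ⟨h1, ?_, h2, h4, by simp only [List.length_replicate]; omega, h6⟩
  simp only [List.length_replicate]
  refine ⟨b + B * (JJ q * μ), B, by rw [e1, e2, blk_eq], hB, e2, hJ.1, ?_, hN,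
    le_trans (by gcongr; exact hJ.2) hl⟩
  refine Dvd.dvd.trans ?_ (blk_dvd_N hd μ.2)
  rw [mul_assoc]
  refine mul_dvd_mul_left _ ?_
  show _ ∣ q.2.2.1 ^ JJ q
  obtain ⟨j, hj⟩ := Nat.exists_eq_add_of_le' hJ.1
  rw [hj, Nat.add_sub_cancel, pow_succ]
  exact mul_dvd_mul_left _ (by rw [e2]; exact dvd_pow_self 2 (by omega))

lemma FF_toArr {q : HQ} {N Λ : ℕ} (h : Ok q N Λ) (V : ℕ) (v : ℕ → ℕ → ZMod (MM q.1.length)) :
    FF q (toArr N V v) = toArr N V (fun e =>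
      act (GG (eta _) (II _) q.2.1 q.2.2.1 q.2.2.2.length) (v e)) := by
  obtain ⟨b, B, e1, hB, e2, e3, hd, hN, hl⟩ := h.hp
  refine app_toArr hN ?_ v
  rw [e1, e2] at hd ⊢
  exact loc_GG _ _ (Or.inr hd)

lemma good (hA : ArrStmt) (hX : XorStmt) (hL : LinStmt) (I : Ins (Bool × HH)) {m : ℕ} (hm : 0 < m)
    (hI : I.ok m) : Good I m := by
  have b0 : ∀ u, 1 ≤ u → 0 < MM u := fun u hu => by have := MM_ge hu; omega
  have b1 : ∀ u, 1 ≤ u → 1 < MM u := fun u hu => by have := MM_ge hu; omega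
  rcases I with _ | ⟨r, r'⟩ | r | r | ⟨⟨_ | _, w⟩, r⟩
  · refine good_triv _ (cc_lin hL (c1 := fun _ => 0) (c2 := fun _ => 0) (PT.const _) (PT.const _)
      b0 b0 hm hm) fun q A V Λ x h1 h2 => ?_
    dsimp only
    rw [regs_getD _ _ _ hm, lin_toArr h1.pos]
    exact toArr_congr fun e _ i _ => by simp [Ins.val]
  · refine good_triv _ (cc_lin hL (c1 := fun _ => 1) (c2 := fun _ => 1) (PT.const _) (PT.const _)
      b1 b1 hI.1 hI.2) fun q A V Λ x h1 h2 => ?_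
    dsimp only
    rw [regs_getD _ _ _ hI.1, regs_getD _ _ _ hI.2, lin_toArr h1.pos]
    exact toArr_congr fun e _ i _ => by simp [Ins.val]
  · refine good_triv _ (cc_lin hL (c1 := fun u => MM u - 1) (c2 := fun _ => 0)
      (pt_MM.sub (PT.const _)) (PT.const _) (fun u hu => by have := MM_ge hu; omega) b0 hI hI)
      fun q A V Λ x h1 h2 => ?_
    dsimp only
    rw [regs_getD _ _ _ hI, lin_toArr h1.pos]
    exact toArr_congr fun e _ i _ => by simp [Ins.val, Nat.cast_pred (b0 _ h1.u1)]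
  · refine good_triv _ (cc_lin hL (c1 := fun u => (MM u + 1) / 2) (c2 := fun _ => 0)
      ((pt_MM.add (PT.const _)).div (PT.const _)) (PT.const _)
      (fun u hu => by have := MM_ge hu; omega) b0 hI hI) fun q A V Λ x h1 h2 => ?_
    dsimp only
    rw [regs_getD _ _ _ hI, lin_toArr h1.pos]
    exact toArr_congr fun e _ i _ => by simp [Ins.val, eta]
  · refine good_triv _ (cc_pull (pc_F hA hX (supL w)) hI) fun q A V Λ x h1 h2 => ?_
    dsimp only
    rw [regs_getD _ _ _ hI, pullN_toArr _ ((pc_F hA hX (supL w)).2 q _ ⟨h1.hp, h2⟩)]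
    obtain ⟨b, B, e1, hB, e2, -⟩ := h1.hp
    simp only [Ins.val, opq, cond_false]
    rw [e1, e2, rho_single hB]
  · by_cases hw : w = 0
    · refine good_triv (fun s => s.2.getD r []) (Eventually.of_forall fun k =>
        cc_getD r [] (by fun_prop)) fun q A V Λ x h1 h2 => ?_
      dsimp only
      rw [regs_getD _ _ _ hI]
      simp only [Ins.val, opq, cond_true, hw, rho_gel_zero (two_eta h1.u1), Module.End.one_apply]
    · obtain ⟨μ, hμ⟩ : ∃ μ, w μ = 1 := by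
        by_contra hc
        refine hw (funext fun μ => ?_)
        have h : ∀ s : ZMod 2, s = 0 ∨ s = 1 := by decide
        exact (h (w μ)).resolve_right fun h => hc ⟨μ, h⟩
      have hp := pc_T hA hX μ (supL' w μ) (fun ν h => (mem_erase.1 (mem_toList.1 h)).1)
      have hq : PT (fun q : HQ => ((q.1, blk q.2.1 q.2.2.1 (JJ q) μ, q.2.2.1,
          List.replicate (JJ q) ()) : HQ)) :=
        PT.pair (by fun_prop) ((pt_blk μ).pair (PT.pair (by fun_prop)
          ((PT.map (f := fun _ _ => ()) (pt_JJ.range pb_JJ) (PT.const _)).of_eq fun q => by simp)))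
      refine ⟨fun s => ((s.1.1.1, blk s.1.1.2.1 s.1.1.2.2.1 (JJ s.1.1) μ, s.1.1.2.2.1,
        List.replicate (JJ s.1.1) ()), pullN (s.2.getD r []).length
          (piT s.1.1.2.1 s.1.1.2.2.1 (JJ s.1.1) μ (supL' w μ)) (s.2.getD r [])),
        fun p => pullN p.2.length (piT p.1.1.1.2.1 p.1.1.1.2.2.1 (JJ p.1.1.1) μ (supL' w μ)) p.2,
        fun k p T => B1 (fun q _ A => Big q A.length) k (p.1.1.1, p.2) T, ?_, ?_⟩
      · filter_upwards [cc_pt hq m, cc_pull hp hI, acE hp.1] with k k1 k2 k3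
        exact ⟨k1.pair k2, k3.comp2 (f := fun p : St × Arr => (p.1.1.1, p.2)) (by fun_prop)
          (fun _ _ h => h)⟩
      · rintro q A V Λ x s h1 h2 rfl
        have hπ := hp.2 q _ ⟨h1.hp, h2⟩
        have ho := ok_sub h1 h2 μ
        dsimp only
        rw [regs_getD _ _ _ hI, pullN_toArr _ hπ, FF_toArr ho]
        refine ⟨fun k T hT => ⟨V, Λ, ?_⟩, ?_, Or.inr ⟨rfl, _, _, rfl, ho, sh_toArr _ _ _ _⟩⟩
        · dsimp only
          rw [(sh_toArr _ _ _ _).1]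
          exact ⟨h1, sh_toArr _ _ _ _, ⟨h1.hp, h2⟩, hT⟩
        · rw [pullN_toArr _ hπ]
          obtain ⟨b, B, e1, hB, e2, -⟩ := h1.hp
          simp only [Ins.val, opq, cond_true, List.length_replicate]
          rw [e1, e2, rho_gel _ _ hB _ w μ hμ]
          rfl

end Crest.Agent.H7.Had
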