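import Crest.Agent.H7.HadN
import Crest.Agent.H6.IMCore
import Crest.Agent.H3.IMFld

/-! Row 326, fast Hadamard transform: interface of the machine part. -/

set_option autoImplicit false
set_option linter.unusedVariables false

namespace Crest.Agent.H7.Had
open Crest.Agent.H9.IM Crest.Agent.H3.Ptime Finset

/-- `(u, lo, D, K)` -/
abbrev HQ := List Unit × ℕ × ℕ × List Unit

instance (u : ℕ) : NeZero (MM u) := ⟨by unfold MM; positivity⟩

def toArr {M : ℕ} (N V : ℕ) (v : ℕ → ℕ → ZMod M) : Arr :=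
  (List.range N).map fun i => (List.range V).map fun e => (v e i).val

def ofArr (M : ℕ) (A : Arr) (e i : ℕ) : ZMod M := (((A.getD i []).getD e 0 : ℕ) : ZMod M)

def II (u : ℕ) : ZMod (MM u) := ((2 ^ u : ℕ) : ZMod (MM u))
def eta (u : ℕ) : ZMod (MM u) := (((MM u + 1) / 2 : ℕ) : ZMod (MM u))

lemma II_sq (u : ℕ) : II u * II u = -1 := by
  have h : ((MM u : ℕ) : ZMod (MM u)) = 0 := ZMod.natCast_self _
  have h2 : ((MM u : ℕ) : ZMod (MM u)) = II u * II u + 1 := by
    unfold II; conv_lhs => arg 1; unfold MM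
    push_cast; ring
  rw [h2] at h; linear_combination h

lemma two_eta {u : ℕ} (hu : 1 ≤ u) : 2 * eta u = 1 := by
  have h : ((MM u : ℕ) : ZMod (MM u)) = 0 := ZMod.natCast_self _
  have h1 : 2 * ((MM u + 1) / 2) = MM u + 1 := by
    obtain ⟨v, rfl⟩ := Nat.exists_eq_add_of_le hu
    have : MM (1 + v) = 2 * (2 * 2 ^ (2 * v)) + 1 := by unfold MM; ring
    omega
  have h2 := congrArg (Nat.cast : ℕ → ZMod (MM u)) h1
  push_cast at h2
  rw [h] at h2
  unfold eta; rw [h2]; ring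

/-- shape of an array of residues -/
def Sh (u N V : ℕ) (A : Arr) : Prop := A.length = N ∧ ∀ c ∈ A, c.length = V ∧ ∀ x ∈ c, x < MM u

lemma sh_toArr (u N V : ℕ) (v : ℕ → ℕ → ZMod (MM u)) : Sh u N V (toArr N V v) := by
  refine ⟨by simp [toArr], fun c hc => ?_⟩
  obtain ⟨i, _, rfl⟩ := List.mem_map.1 hc
  refine ⟨by simp, fun x hx => ?_⟩
  obtain ⟨e, _, rfl⟩ := List.mem_map.1 hx
  exact ZMod.val_lt _

lemma toArr_congr {M N V : ℕ} {v v' : ℕ → ℕ → ZMod M} (h : ∀ e < V, ∀ i < N, v e i = v' e i) :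
    toArr N V v = toArr N V v' :=
  List.map_congr_left fun i hi => List.map_congr_left fun e he => by
    rw [h e (by simpa using he) i (by simpa using hi)]

lemma ofArr_toArr {M N V : ℕ} [NeZero M] (v : ℕ → ℕ → ZMod M) {e i : ℕ} (he : e < V) (hi : i < N) :
    ofArr M (toArr N V v) e i = v e i := by
  simp [ofArr, toArr, List.getD_eq_getElem?_getD, he, hi]

lemma ofArr_ge {u N V : ℕ} {A : Arr} (h : Sh u N V A) {e : ℕ} (he : V ≤ e) (i : ℕ) :
    ofArr (MM u) A e i = 0 := by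
  unfold ofArr
  by_cases hi : i < A.length
  · rw [List.getD_eq_getElem _ _ hi, List.getD_eq_default _ _ (by
      rw [(h.2 _ (List.getElem_mem hi)).1]; exact he)]; simp
  · rw [List.getD_eq_default A _ (by omega)]; simp

lemma toArr_ofArr {u N V : ℕ} {A : Arr} (h : Sh u N V A) : toArr N V (ofArr (MM u) A) = A := by
  refine List.ext_getElem (by simp [toArr, h.1]) fun i h1 h2 => ?_
  have hc := h.2 _ (List.getElem_mem h2)
  refine List.ext_getElem (by simp [toArr, hc.1]) fun e h3 h4 => ?_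
  simp only [toArr, List.getElem_map, List.getElem_range, ofArr]
  rw [List.getD_eq_getElem _ _ h2, List.getD_eq_getElem _ _ h4, ZMod.val_natCast,
    Nat.mod_eq_of_lt (hc.2 _ (List.getElem_mem h4))]

lemma Sh.head {u N V : ℕ} {A : Arr} (h : Sh u N V A) (hN : 0 < N) : (A.headD []).length = V := by
  obtain _ | ⟨c, A⟩ := A
  · have := h.1; simp at this; omega
  · exact (h.2 c (by simp)).1

lemma Sh.bd {u N V : ℕ} {A : Arr} (h : Sh u N V A) : Bd V (2 * u + 1) A := fun c hc =>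
  ⟨(h.2 c hc).1, fun x hx => ((h.2 c hc).2 x hx).trans_le (by
    have : 0 < 2 ^ (2 * u) := by positivity
    unfold MM; rw [pow_succ]; omega)⟩

/-- an operator applied to every column -/
noncomputable def app (u : ℕ) (φ : Module.End (ZMod (MM u)) (ℕ → ZMod (MM u))) (A : Arr) : Arr :=
  toArr A.length (A.headD []).length (fun e => φ (ofArr (MM u) A e))

lemma app_toArr {u N V : ℕ} (hN : 0 < N) {φ : Module.End (ZMod (MM u)) (ℕ → ZMod (MM u))}
    (hφ : Loc N φ) (v : ℕ → ℕ → ZMod (MM u)) :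
    app u φ (toArr N V v) = toArr N V (fun e => φ (v e)) := by
  unfold app
  rw [(sh_toArr u N V v).1, (sh_toArr u N V v).head hN]
  exact toArr_congr fun e he i hi => hφ _ _ (fun j hj => ofArr_toArr v he hj) i hi

noncomputable def FF (q : HQ) (A : Arr) : Arr :=
  app q.1.length (act (GG (eta _) (II _) q.2.1 q.2.2.1 q.2.2.2.length)) A

def lin (u c1 c2 : ℕ) (A B : Arr) : Arr :=
  toArr A.length (A.headD []).length
    (fun e i => (c1 : ZMod (MM u)) * ofArr (MM u) A e i + (c2 : ZMod (MM u)) * ofArr (MM u) B e i)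

/-- entrywise linear combinations -/
def LinStmt : Prop :=
  CC (fun x : (List Unit × ℕ × ℕ) × Arr × Arr => lin x.1.1.length x.1.2.1 x.1.2.2 x.2.1 x.2.2)
    (fun x T => ∃ N V : ℕ, 1 ≤ x.1.1.length ∧ x.1.2.1 < MM x.1.1.length ∧ x.1.2.2 < MM x.1.1.length ∧
      Sh x.1.1.length N V x.2.1 ∧ Sh x.1.1.length N V x.2.2 ∧
      (N + 1 : ℝ) * ((V + 1) * (2 * x.1.1.length + 2 : ℝ) ^ (1 + gam)) ≤ T)

/-- layer by layer -/
def SlowStmt : Prop :=
  AC FF (fun q w A => w = 2 * q.1.length + 1 ∧ 1 ≤ q.1.length ∧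
      (∀ c ∈ A, ∀ x ∈ c, x < MM q.1.length) ∧ ∃ b B : ℕ, q.2.1 = 2 ^ b ∧ q.2.2.1 = 2 ^ B ∧
      0 < A.length ∧ q.2.1 * q.2.2.1 ^ (q.2.2.2.length - 1) * 2 ∣ A.length)
    (fun q => q.2.2.2.length)

/-- the fast version -/
def GStmt : Prop :=
  AC FF (fun q w A => w = 2 * q.1.length + 1 ∧ 1 ≤ q.1.length ∧
      (∀ c ∈ A, ∀ x ∈ c, x < MM q.1.length) ∧ HP q.2.1 q.2.2.1 q.2.2.2.length A.length)
    (fun q => (q.2.2.2.length + 1 : ℝ) ^ th * (Nat.log 2 q.2.2.1 + 1))

end Crest.Agent.H7.Had
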