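import Crest.Agent.H9.IMI

/-! Row 326, fast Hadamard transform: bit lemmas and the algebra of xor operators. -/

set_option autoImplicit false
set_option linter.unusedVariables false

namespace Crest.Agent.H7.Had
open Crest.Agent.H9.IM Finset

/-! ### bits -/

lemma fld_lt (a l i : ℕ) : fld (2 ^ a) (2 ^ l) i < 2 ^ l := Nat.mod_lt _ (by positivity)

lemma decomp (a l i : ℕ) :
    i = 2 ^ a * (2 ^ l * (i / 2 ^ a / 2 ^ l) + fld (2 ^ a) (2 ^ l) i) + i % 2 ^ a := by
  unfold fld; rw [Nat.div_add_mod, Nat.div_add_mod]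

lemma setf_eq (a l i v : ℕ) :
    setf (2 ^ a) (2 ^ l) i v = 2 ^ a * (2 ^ l * (i / 2 ^ a / 2 ^ l) + v) + i % 2 ^ a := by
  have h := decomp a l i
  unfold setf
  rw [mul_add] at h ⊢
  rw [mul_comm (fld _ _ _), mul_comm v]
  omega

lemma setf_xor (a l i v : ℕ) (hv : v < 2 ^ l) :
    setf (2 ^ a) (2 ^ l) i (fld (2 ^ a) (2 ^ l) i ^^^ v) = i ^^^ (v * 2 ^ a) := by
  rw [setf_eq]
  apply Nat.eq_of_testBit_eq
  intro j
  have hr : i % 2 ^ a < 2 ^ a := Nat.mod_lt _ (by positivity)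
  conv_rhs => rw [decomp a l i]
  rw [Nat.testBit_xor, Nat.testBit_two_pow_mul_add _ hr, Nat.testBit_two_pow_mul_add _ hr,
    Nat.testBit_two_pow_mul_add _ (Nat.xor_lt_two_pow (fld_lt a l i) hv),
    Nat.testBit_two_pow_mul_add _ (fld_lt a l i), Nat.testBit_mul_two_pow]
  by_cases h1 : j < a
  · simp [h1, show ¬ a ≤ j by omega]
  · by_cases h2 : j - a < l
    · simp [h1, h2, show a ≤ j by omega]
    · have : v.testBit (j - a) = false :=
        Nat.testBit_lt_two_pow (hv.trans_le (Nat.pow_le_pow_right (by norm_num) (by omega)))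
      simp [h1, h2, this]

lemma xor_two_pow (b i : ℕ) :
    i ^^^ 2 ^ b = if i / 2 ^ b % 2 = 0 then i + 2 ^ b else i - 2 ^ b := by
  have h := setf_xor b 1 i 1 (by norm_num)
  rw [one_mul] at h
  rw [← h]
  unfold setf fld
  rw [pow_one]
  rcases Nat.mod_two_eq_zero_or_one (i / 2 ^ b) with h0 | h0 <;> simp [h0]

lemma xor_two_pow_lt {b i N : ℕ} (hN : 2 ^ b * 2 ∣ N) (hi : i < N) : i ^^^ 2 ^ b < N := by
  rw [xor_two_pow]
  split_ifs with h
  · obtain ⟨c, rfl⟩ := hN
    have hp : 0 < 2 ^ b := by positivity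
    have h1 : i / 2 ^ b < 2 * c := by
      rw [Nat.div_lt_iff_lt_mul hp]; nlinarith
    have h2 : (i + 2 ^ b) / 2 ^ b < 2 * c := by
      rw [Nat.add_div_right _ hp]; omega
    rw [Nat.div_lt_iff_lt_mul hp] at h2; nlinarith
  · exact lt_of_le_of_lt (Nat.sub_le _ _) hi

lemma xor_mul_two_pow (x y a : ℕ) : (x ^^^ y) * 2 ^ a = x * 2 ^ a ^^^ y * 2 ^ a := by
  simp only [← Nat.shiftLeft_eq, Nat.shiftLeft_xor_distrib]

lemma fld_xor (a l x y : ℕ) :
    fld (2 ^ a) (2 ^ l) (x ^^^ y) = fld (2 ^ a) (2 ^ l) x ^^^ fld (2 ^ a) (2 ^ l) y := by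
  simp only [fld, Nat.xor_div_two_pow, Nat.xor_mod_two_pow]

lemma fld_mul_same (a l y : ℕ) (hy : y < 2 ^ l) : fld (2 ^ a) (2 ^ l) (y * 2 ^ a) = y := by
  unfold fld; rw [Nat.mul_div_cancel _ (by positivity), Nat.mod_eq_of_lt hy]

lemma fld_mul_other (a c l y : ℕ) (hy : y < 2 ^ l) (h : a + l ≤ c ∨ c + l ≤ a) :
    fld (2 ^ a) (2 ^ l) (y * 2 ^ c) = 0 := by
  unfold fld
  rcases h with h | h
  · obtain ⟨d, rfl⟩ := Nat.exists_eq_add_of_le h
    have : y * 2 ^ (a + l + d) = 2 ^ l * (y * 2 ^ d) * 2 ^ a := by ring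
    rw [this, Nat.mul_div_cancel _ (by positivity), Nat.mul_mod_right]
  · have : y * 2 ^ c < 2 ^ a := by
      calc y * 2 ^ c < 2 ^ l * 2 ^ c := Nat.mul_lt_mul_of_pos_right hy (by positivity)
        _ = 2 ^ (c + l) := by ring
        _ ≤ 2 ^ a := Nat.pow_le_pow_right (by norm_num) h
    rw [Nat.div_eq_of_lt this, Nat.zero_mod]

/-- the mask of the low bits of the digits -/
def msk (B J : ℕ) : ℕ := ∑ j ∈ range J, 2 ^ (B * j)

lemma msk_eq {B : ℕ} (hB : 1 ≤ B) (J : ℕ) : ((2 ^ B) ^ J - 1) / (2 ^ B - 1) = msk B J := by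
  rw [← Nat.geomSum_eq (show 2 ≤ 2 ^ B from Nat.le_self_pow (by omega) 2 |>.trans' le_rfl)]
  simp [msk, pow_mul]

lemma msk_lt {B : ℕ} (hB : 1 ≤ B) (J : ℕ) : msk B J < 2 ^ (B * J) := by
  induction J with
  | zero => simp [msk]
  | succ J ih =>
    unfold msk at *
    rw [sum_range_succ]
    calc _ < 2 ^ (B * J) + 2 ^ (B * J) := by omega
      _ = 2 ^ (B * J + 1) := by ring
      _ ≤ _ := Nat.pow_le_pow_right (by norm_num) (by nlinarith)

lemma msk_succ {B : ℕ} (hB : 1 ≤ B) (J : ℕ) : msk B (J + 1) = msk B J ^^^ 2 ^ (B * J) := by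
  rw [xor_two_pow, Nat.div_eq_of_lt (msk_lt hB J)]
  simp [msk, sum_range_succ]

lemma pow_and_msk {B : ℕ} (hB : 1 ≤ B) {j J : ℕ} (hj : j < J) :
    2 ^ (B * j) &&& msk B J = 2 ^ (B * j) := by
  have : (msk B J).testBit (B * j) = true := by
    induction J with
    | zero => omega
    | succ J ih =>
      rw [msk_succ hB, Nat.testBit_xor]
      by_cases h : j = J
      · subst h; simp [Nat.testBit_lt_two_pow (msk_lt hB j)]
      · have : B * J ≠ B * j := by
          intro h'; exact h (Nat.eq_of_mul_eq_mul_left (by omega) h').symm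
        simp [ih (by omega), Nat.testBit_two_pow_of_ne this]
  rw [Nat.two_pow_and, this]; simp

/-! ### the group of naturals under xor -/

@[ext] structure XN where
  v : ℕ

instance : Zero XN := ⟨⟨0⟩⟩
instance : Add XN := ⟨fun a b => ⟨a.v ^^^ b.v⟩⟩
instance : Neg XN := ⟨fun a => a⟩
@[simp] lemma XN.add_v (a b : XN) : (a + b).v = a.v ^^^ b.v := rfl
@[simp] lemma XN.zero_v : (0 : XN).v = 0 := rfl

instance : AddCommGroup XN where
  add_assoc a b c := by ext; simp [Nat.xor_assoc]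
  zero_add a := by ext; simp
  add_zero a := by ext; simp
  add_comm a b := by ext; simp [Nat.xor_comm]
  neg_add_cancel a := by ext; exact Nat.xor_self _
  nsmul := nsmulRec
  zsmul := zsmulRec

lemma XN.add_self (a : XN) : a + a = 0 := by ext; simp

lemma XN.sum_msk {B : ℕ} (hB : 1 ≤ B) (a J : ℕ) :
    ∑ j ∈ range J, (⟨2 ^ (B * j) * 2 ^ a⟩ : XN) = ⟨msk B J * 2 ^ a⟩ := by
  induction J with
  | zero => ext; simp [msk]
  | succ J ih => rw [sum_range_succ, ih, msk_succ hB, xor_mul_two_pow]; rfl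

variable {S : Type} [CommRing S]

/-- precomposition with an index map -/
def pre (π : ℕ → ℕ) : Module.End S (ℕ → S) := LinearMap.funLeft S S π

@[simp] lemma pre_apply (π : ℕ → ℕ) (v : ℕ → S) (i : ℕ) : pre π v i = v (π i) := rfl

noncomputable def act : AddMonoidAlgebra S XN →ₐ[S] Module.End S (ℕ → S) :=
  AddMonoidAlgebra.lift S (Module.End S (ℕ → S)) XN
    { toFun := fun m => pre (fun i => i ^^^ m.toAdd.v)
      map_one' := by ext v i; simp
      map_mul' := fun a b => by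
        refine LinearMap.ext fun v => funext fun i => ?_
        simp [Nat.xor_assoc] }

lemma act_single (m : XN) (c : S) (v : ℕ → S) (i : ℕ) :
    act (AddMonoidAlgebra.single m c) v i = c * v (i ^^^ m.v) := by
  simp [act]

/-- the elementary operator along the mask `m` -/
noncomputable def gX (η I : S) (m : XN) : AddMonoidAlgebra S XN :=
  AddMonoidAlgebra.single 0 ((1 + I) * η) + AddMonoidAlgebra.single m ((1 - I) * η)

lemma act_gX (η I : S) (m : XN) (v : ℕ → S) (i : ℕ) :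
    act (gX η I m) v i = (1 + I) * η * v i + (1 - I) * η * v (i ^^^ m.v) := by
  simp [gX, act_single]

/-- the product of the elementary operators at `lo * D ^ j`, `j < K` -/
noncomputable def GG (η I : S) (lo D K : ℕ) : AddMonoidAlgebra S XN :=
  ∏ j ∈ range K, gX η I ⟨lo * D ^ j⟩

lemma pre_act (π : XN →+ XN) (hπ : ∀ x, π (π x) = x) (c : AddMonoidAlgebra S XN) :
    pre (fun i => (π ⟨i⟩).v) * act c =
      act (AddMonoidAlgebra.mapDomainRingHom S π c) * pre (fun i => (π ⟨i⟩).v) := by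
  induction c using AddMonoidAlgebra.induction_linear with
  | zero => simp
  | add a b ha hb => rw [map_add, map_add, map_add, mul_add, add_mul, ha, hb]
  | single m c =>
    refine LinearMap.ext fun v => funext fun i => ?_
    have : (π ⟨i ^^^ (π m).v⟩).v = (π ⟨i⟩).v ^^^ m.v := by
      have := π.map_add ⟨i⟩ (π m)
      rw [hπ] at this
      exact congrArg XN.v this
    simp [act_single, this]

lemma map_gX (η I : S) (π : XN →+ XN) (m : XN) :
    AddMonoidAlgebra.mapDomainRingHom S π (gX η I m) = gX η I (π m) := by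
  simp [gX, AddMonoidAlgebra.mapDomain_add]

/-! ### locality -/

def Loc (N : ℕ) (φ : Module.End S (ℕ → S)) : Prop :=
  ∀ v v' : ℕ → S, (∀ i < N, v i = v' i) → ∀ i < N, φ v i = φ v' i

lemma Loc.mul {N : ℕ} {φ ψ : Module.End S (ℕ → S)} (h : Loc N φ) (h' : Loc N ψ) : Loc N (φ * ψ) :=
  fun v v' e => h _ _ (h' v v' e)

lemma loc_GG (η I : S) {b B K N : ℕ} (h : K = 0 ∨ 2 ^ b * (2 ^ B) ^ (K - 1) * 2 ∣ N) :
    Loc N (act (GG η I (2 ^ b) (2 ^ B) K)) := by
  induction K with
  | zero => intro v v' e i hi; simpa [GG] using e i hi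
  | succ K ih =>
    have h1 : 2 ^ b * (2 ^ B) ^ K * 2 ∣ N := by simpa using h
    rw [GG, prod_range_succ, map_mul]
    refine Loc.mul (ih ?_) ?_
    · refine Or.inr (Dvd.dvd.trans ?_ h1)
      exact mul_dvd_mul_right (mul_dvd_mul_left _ (pow_dvd_pow _ (by omega))) _
    · intro v v' e i hi
      rw [act_gX, act_gX, e i hi, e]
      rw [← pow_mul, ← pow_add] at h1 ⊢
      exact xor_two_pow_lt h1 hi

/-! ### the Hadamard transform through the elementary operators -/

/-- the diagonal factor at one position -/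
def dg1 (I : S) (m i : ℕ) : S := if i / m % 2 = 0 then 1 else I

def dg (I : S) (lo D K i : ℕ) : S := ∏ j ∈ range K, dg1 I (lo * D ^ j) i

lemma dg1_xor (I : S) {a c : ℕ} (h : a ≠ c) (i : ℕ) : dg1 I (2 ^ a) (i ^^^ 2 ^ c) = dg1 I (2 ^ a) i := by
  have h1 := fld_xor a 1 i (2 ^ c)
  have h2 := fld_mul_other a c 1 1 (by norm_num) (by omega)
  rw [one_mul] at h2
  rw [h2, Nat.xor_zero] at h1
  simp only [fld, pow_one] at h1
  simp only [dg1, h1]

lemma act_GG_mul (η I : S) (lo D K : ℕ) (d : ℕ → S) (hd : ∀ j < K, ∀ i, d (i ^^^ lo * D ^ j) = d i)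
    (v : ℕ → S) : act (GG η I lo D K) (fun i => d i * v i) = fun i => d i * act (GG η I lo D K) v i := by
  induction K generalizing v with
  | zero => simp [GG]
  | succ K ih =>
    rw [GG, prod_range_succ, map_mul, Module.End.mul_apply, Module.End.mul_apply]
    have : act (gX η I ⟨lo * D ^ K⟩) (fun i => d i * v i) =
        fun i => d i * act (gX η I ⟨lo * D ^ K⟩) v i := by
      funext i; rw [act_gX, act_gX, hd K (by omega)]; ring
    rw [this]
    exact ih (fun j hj => hd j (by omega)) _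

lemma had_eq {η I : S} (hη : 2 * η = 1) (hI : I * I = -1) (b : ℕ) (a : ℕ → S) :
    had (2 ^ b) a = fun i => (1 - I) * dg1 I (2 ^ b) i *
      act (gX η I ⟨2 ^ b⟩) (fun i => dg1 I (2 ^ b) i * a i) i := by
  funext i
  have h1 := fld_xor b 1 i (2 ^ b)
  have h2 := fld_mul_same b 1 1 (by norm_num)
  rw [one_mul] at h2
  rw [h2] at h1
  simp only [fld, pow_one] at h1
  rw [act_gX]
  simp only [dg1, h1, had]
  rw [xor_two_pow]
  rcases Nat.mod_two_eq_zero_or_one (i / 2 ^ b) with h0 | h0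
  · simp only [h0, if_true]
    norm_num
    linear_combination (-(a i) - a (i + 2 ^ b)) * hη +
      (η * a i + (2 * η - η * I) * a (i + 2 ^ b)) * hI
  · simp only [h0]
    norm_num
    linear_combination (a i - a (i - 2 ^ b)) * hη +
      (η * (I * I - 2) * a i + (2 * η - η * I) * a (i - 2 ^ b)) * hI

lemma hadAll_eq {η I : S} (hη : 2 * η = 1) (hI : I * I = -1) {b B : ℕ} (hB : 1 ≤ B) (K : ℕ)
    (a : ℕ → S) : hadAll (2 ^ b) (2 ^ B) K a = fun i => (1 - I) ^ K * dg I (2 ^ b) (2 ^ B) K i *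
      act (GG η I (2 ^ b) (2 ^ B) K) (fun i => dg I (2 ^ b) (2 ^ B) K i * a i) i := by
  have hp : ∀ j, 2 ^ b * (2 ^ B) ^ j = 2 ^ (b + B * j) := fun j => by rw [← pow_mul, ← pow_add]
  induction K generalizing a with
  | zero => funext i; simp [hadAll, dg, GG]
  | succ K ih =>
    have e1 : hadAll (2 ^ b) (2 ^ B) (K + 1) a =
        hadAll (2 ^ b) (2 ^ B) K (had (2 ^ b * (2 ^ B) ^ K) a) := by
      simp [hadAll, List.range_succ]
    rw [e1, ih, hp, had_eq hη hI]
    have hne : ∀ j < K, b + B * j ≠ b + B * K := fun j hj h => by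
      have := Nat.eq_of_mul_eq_mul_left (show 0 < B by omega) (Nat.add_left_cancel h); omega
    have e2 : (fun i => dg I (2 ^ b) (2 ^ B) K i * ((1 - I) * dg1 I (2 ^ (b + B * K)) i *
        act (gX η I ⟨2 ^ (b + B * K)⟩) (fun i => dg1 I (2 ^ (b + B * K)) i * a i) i)) =
        fun i => ((1 - I) * dg1 I (2 ^ (b + B * K)) i) * act (gX η I ⟨2 ^ (b + B * K)⟩)
          (fun i => dg I (2 ^ b) (2 ^ B) (K + 1) i * a i) i := by
      funext i
      have : dg I (2 ^ b) (2 ^ B) K (i ^^^ 2 ^ (b + B * K)) = dg I (2 ^ b) (2 ^ B) K i :=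
        prod_congr rfl fun j hj => by rw [hp, dg1_xor I (hne j (by simpa using hj))]
      rw [act_gX, act_gX]
      simp only [dg, prod_range_succ, hp] at this ⊢
      rw [this]; ring
    rw [e2, act_GG_mul η I _ _ K _ (fun j hj i => by rw [hp, dg1_xor I (hne j hj).symm])]
    funext i
    rw [GG, GG, prod_range_succ, map_mul, Module.End.mul_apply, hp K]
    simp only [dg, prod_range_succ, hp K]
    ring

end Crest.Agent.H7.Had
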