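import Crest.Agent.H7.HadM

/-! Row 326, fast Hadamard transform: the representation fed to the token network. -/

set_option autoImplicit false
set_option linter.unusedVariables false

namespace Crest.Agent.H7.Had
open Crest.Agent.H9.IM Finset

variable {S : Type} [CommRing S]

abbrev HH := Fin 256 → ZMod 2

lemma val_smul_add (s t : ZMod 2) (x : XN) : (s + t).val • x = s.val • x + t.val • x := by
  have h : ∀ s : ZMod 2, s = 0 ∨ s = 1 := by decide
  have h1 : (1 : ZMod 2).val = 1 := rfl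
  have h2 : (1 + 1 : ZMod 2).val = 0 := rfl
  rcases h s with rfl | rfl <;> rcases h t with rfl | rfl <;> simp [h1, h2, XN.add_self]

def psi (lo D J j : ℕ) : HH →+ XN where
  toFun w := ∑ ν : Fin 256, (w ν).val • (⟨lo * D ^ (J * ν + j)⟩ : XN)
  map_zero' := by simp
  map_add' w w' := by simp only [Pi.add_apply, val_smul_add, sum_add_distrib]

lemma psi_apply (lo D J j : ℕ) (w : HH) :
    psi lo D J j w = ∑ ν : Fin 256, (w ν).val • (⟨lo * D ^ (J * ν + j)⟩ : XN) := rfl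

lemma sum_val_smul (w : HH) (x : Fin 256 → XN) :
    ∑ ν, (w ν).val • x ν = ∑ ν ∈ univ.filter (fun ν => w ν = 1), x ν := by
  rw [sum_filter]
  refine sum_congr rfl fun ν _ => ?_
  have h : ∀ s : ZMod 2, s = 0 ∨ s = 1 := by decide
  have h1 : (1 : ZMod 2).val = 1 := rfl
  rcases h (w ν) with h | h <;> simp [h, h1]

noncomputable def rho (lo D J : ℕ) : AddMonoidAlgebra S HH →* Module.End S (ℕ → S) :=
  (act : AddMonoidAlgebra S XN →ₐ[S] Module.End S (ℕ → S)).toMonoidHom.comp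
    (∏ j ∈ range J, (AddMonoidAlgebra.mapDomainRingHom S (psi lo D J j)).toMonoidHom)

lemma rho_apply (lo D J : ℕ) (c : AddMonoidAlgebra S HH) :
    rho lo D J c = act (∏ j ∈ range J, AddMonoidAlgebra.mapDomainRingHom S (psi lo D J j) c) := by
  simp only [rho, MonoidHom.comp_apply, MonoidHom.finsetProd_apply]
  rfl

lemma map_gel (η I : S) (π : HH →+ XN) (w : HH) :
    AddMonoidAlgebra.mapDomainRingHom S π (gel η I w) = gX η I (π w) := by
  simp [gX, gel, AddMonoidAlgebra.mapDomain_add]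

lemma prod_range_mul' {M : Type} [CommMonoid M] (f : ℕ → M) (J n : ℕ) :
    ∏ μ ∈ range n, ∏ j ∈ range J, f (J * μ + j) = ∏ t ∈ range (J * n), f t := by
  induction n with
  | zero => simp
  | succ n ih => rw [prod_range_succ, ih, mul_add, mul_one, prod_range_add]

lemma rho_all (η I : S) (lo D J : ℕ) :
    rho lo D J (∏ μ, gel η I (Pi.single μ 1)) = act (GG η I lo D (J * 256)) := by
  rw [rho_apply, GG, ← prod_range_mul' (fun t => gX η I ⟨lo * D ^ t⟩), prod_comm]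
  congr 1
  refine prod_congr rfl fun j _ => ?_
  rw [map_prod, ← Fin.prod_univ_eq_prod_range (fun μ => gX η I ⟨lo * D ^ (J * μ + j)⟩)]
  refine prod_congr rfl fun μ _ => ?_
  rw [map_gel]
  congr 1
  rw [psi_apply, sum_eq_single μ]
  · have h1 : (1 : ZMod 2).val = 1 := rfl
    simp [h1]
  · intro ν _ h; simp [Pi.single_eq_of_ne h]
  · simp

def mk (D J : ℕ) : ℕ := (D ^ J - 1) / (D - 1)
def blk (lo D J ν : ℕ) : ℕ := lo * D ^ (J * ν)
def stF (lo D J ν i : ℕ) : ℕ := i ^^^ mk D J * blk lo D J ν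
def stT (lo D J μ ν i : ℕ) : ℕ := i ^^^ (fld (blk lo D J μ) (D ^ J) i &&& mk D J) * blk lo D J ν
noncomputable def supL (w : HH) : List (Fin 256) := (univ.filter (fun ν => w ν = 1)).toList
noncomputable def supL' (w : HH) (μ : Fin 256) : List (Fin 256) :=
  ((univ.filter (fun ν => w ν = 1)).erase μ).toList
def piF (lo D J : ℕ) (l : List (Fin 256)) (i : ℕ) : ℕ := l.foldr (fun ν i => stF lo D J ν i) i
def piT (lo D J μ : ℕ) (l : List (Fin 256)) (i : ℕ) : ℕ := l.foldr (fun ν i => stT lo D J μ ν i) i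

lemma blk_eq (b B J ν : ℕ) : blk (2 ^ b) (2 ^ B) J ν = 2 ^ (b + B * (J * ν)) := by
  rw [blk, ← pow_mul, ← pow_add]

lemma piF_eq (lo D J : ℕ) (l : List (Fin 256)) (i : ℕ) : (⟨piF lo D J l i⟩ : XN) =
    ⟨i⟩ + (l.map (fun ν : Fin 256 => (⟨mk D J * blk lo D J ν⟩ : XN))).sum := by
  induction l with
  | nil => simp [piF]
  | cons ν l ih =>
    rw [List.map_cons, List.sum_cons, add_comm (⟨_⟩ : XN) (List.sum _), ← add_assoc, ← ih]
    rfl

lemma rho_single {b B : ℕ} (hB : 1 ≤ B) (J : ℕ) (u : HH) :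
    rho (2 ^ b) (2 ^ B) J (AddMonoidAlgebra.single u (1 : S)) =
      pre (piF (2 ^ b) (2 ^ B) J (supL u)) := by
  rw [rho_apply]
  have h1 : ∀ n : ℕ, ∏ j ∈ range n, AddMonoidAlgebra.mapDomainRingHom S (psi (2 ^ b) (2 ^ B) J j)
      (AddMonoidAlgebra.single u (1 : S)) =
      AddMonoidAlgebra.single (∑ j ∈ range n, psi (2 ^ b) (2 ^ B) J j u) 1 := by
    intro n
    induction n with
    | zero => simp [AddMonoidAlgebra.one_def]
    | succ n ih => rw [prod_range_succ, ih, sum_range_succ]; simp [AddMonoidAlgebra.single_mul_single]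
  rw [h1]
  refine LinearMap.ext fun v => funext fun i => ?_
  rw [act_single, one_mul, pre_apply]
  congr 1
  have h2 := congrArg XN.v (piF_eq (2 ^ b) (2 ^ B) J (supL u) i)
  simp only [XN.add_v] at h2
  rw [h2]
  congr 2
  rw [supL, Finset.sum_map_toList]
  simp only [psi_apply]
  rw [sum_comm, ← sum_val_smul]
  refine sum_congr rfl fun ν _ => ?_
  rw [← smul_sum, mk, msk_eq hB, blk_eq, ← XN.sum_msk hB]
  congr 1
  refine sum_congr rfl fun j _ => ?_
  congr 1
  rw [← pow_mul, ← pow_add, ← pow_add]; congr 1; ring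

def tauH (a l m : ℕ) : XN →+ XN where
  toFun x := ⟨fld (2 ^ a) (2 ^ l) x.v &&& m⟩
  map_zero' := by ext; simp [fld]
  map_add' x y := by ext; simp [fld_xor, Nat.and_xor_distrib_right]

def shH (a : ℕ) : XN →+ XN where
  toFun x := ⟨x.v * 2 ^ a⟩
  map_zero' := by ext; simp
  map_add' x y := by ext; simp [xor_mul_two_pow]

lemma sep (b B J : ℕ) {μ ν : ℕ} (h : ν ≠ μ) :
    b + B * (J * μ) + B * J ≤ b + B * (J * ν) ∨ b + B * (J * ν) + B * J ≤ b + B * (J * μ) := by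
  rcases lt_or_gt_of_ne h with h | h
  · right
    have : B * J * (ν + 1) ≤ B * J * μ := Nat.mul_le_mul_left _ h
    nlinarith
  · left
    have : B * J * (μ + 1) ≤ B * J * ν := Nat.mul_le_mul_left _ h
    nlinarith

lemma tau_sh (b B J m : ℕ) {μ ν : ℕ} (h : ν ≠ μ) (y : XN) (hy : y.v < 2 ^ (B * J)) :
    tauH (b + B * (J * μ)) (B * J) m (shH (b + B * (J * ν)) y) = 0 := by
  ext
  show fld _ _ (y.v * _) &&& m = 0
  rw [fld_mul_other _ _ _ _ hy (sep b B J h)]; simp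

lemma tau_lt (a l m : ℕ) (x : XN) : (tauH a l m x).v < 2 ^ l :=
  lt_of_le_of_lt Nat.and_le_left (fld_lt _ _ _)

lemma piT_eq (b B J : ℕ) (μ : Fin 256) (l : List (Fin 256)) (hl : ∀ ν ∈ l, ν ≠ μ) (i : ℕ) :
    (⟨piT (2 ^ b) (2 ^ B) J μ l i⟩ : XN) = ⟨i⟩ + (l.map (fun ν : Fin 256 => shH (b + B * (J * ν))
      (tauH (b + B * (J * μ)) (B * J) (mk (2 ^ B) J) ⟨i⟩))).sum := by
  induction l with
  | nil => simp [piT]
  | cons ν l ih =>
    have ih := ih (fun ν' h => hl ν' (by simp [h]))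
    have h1 : tauH (b + B * (J * μ)) (B * J) (mk (2 ^ B) J) ⟨piT (2 ^ b) (2 ^ B) J μ l i⟩ =
        tauH (b + B * (J * μ)) (B * J) (mk (2 ^ B) J) ⟨i⟩ := by
      rw [ih, map_add, map_list_sum, List.map_map, List.sum_eq_zero, add_zero]
      intro x hx
      obtain ⟨ν', h', rfl⟩ := List.mem_map.1 hx
      exact tau_sh b B J _ (fun h => hl ν' (by simp [h']) (Fin.ext h)) _ (tau_lt _ _ _ _)
    rw [List.map_cons, List.sum_cons, add_comm (shH _ _) (List.sum _), ← add_assoc, ← ih, ← h1]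
    ext
    show stT _ _ _ _ _ _ = _
    rw [stT, blk_eq, blk_eq, ← pow_mul]
    rfl

lemma rho_gel (η I : S) {b B : ℕ} (hB : 1 ≤ B) (J : ℕ) (w : HH) (μ : Fin 256) (hμ : w μ = 1) :
    rho (2 ^ b) (2 ^ B) J (gel η I w) = pre (piT (2 ^ b) (2 ^ B) J μ (supL' w μ)) *
      act (GG η I (blk (2 ^ b) (2 ^ B) J μ) (2 ^ B) J) * pre (piT (2 ^ b) (2 ^ B) J μ (supL' w μ)) := by
  set s := (univ.filter (fun ν => w ν = 1)).erase μ with hs
  set τ := tauH (b + B * (J * μ)) (B * J) (mk (2 ^ B) J) with hτ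
  let π : XN →+ XN := AddMonoidHom.id XN + ∑ ν ∈ s, (shH (b + B * (J * ν))).comp τ
  have hπ : ∀ x, π x = x + ∑ ν ∈ s, shH (b + B * (J * ν)) (τ x) := by
    intro x; simp [π, AddMonoidHom.finsetSum_apply]
  have hτπ : ∀ x, τ (π x) = τ x := by
    intro x
    rw [hπ, map_add, map_sum, sum_eq_zero, add_zero]
    intro ν hν
    exact tau_sh b B J _ (fun h => (mem_erase.1 hν).1 (Fin.ext h)) _ (tau_lt _ _ _ _)
  have hππ : ∀ x, π (π x) = x := by
    intro x
    rw [hπ (π x), hτπ, hπ x, add_assoc, XN.add_self, add_zero]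
  have he : piT (2 ^ b) (2 ^ B) J μ (supL' w μ) = fun i => (π ⟨i⟩).v := by
    funext i
    have := piT_eq b B J μ (supL' w μ) (fun ν h => (mem_erase.1 (mem_toList.1 h)).1) i
    rw [supL', Finset.sum_map_toList] at this
    rw [hπ]
    exact congrArg XN.v this
  rw [he, pre_act π hππ, mul_assoc]
  have h1 : (pre (fun i => (π ⟨i⟩).v) * pre (fun i => (π ⟨i⟩).v) : Module.End S (ℕ → S)) = 1 := by
    refine LinearMap.ext fun v => funext fun i => ?_
    show v (π (π ⟨i⟩)).v = v i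
    rw [hππ]
  rw [h1, mul_one, rho_apply, GG, map_prod (AddMonoidAlgebra.mapDomainRingHom S π)]
  congr 1
  refine prod_congr rfl fun j hj => ?_
  have hj := mem_range.1 hj
  rw [map_gel, map_gX]
  congr 1
  have hp : ∀ ν : ℕ, (⟨2 ^ b * (2 ^ B) ^ (J * ν + j)⟩ : XN) = shH (b + B * (J * ν)) ⟨2 ^ (B * j)⟩ := by
    intro ν; ext
    show _ = 2 ^ (B * j) * 2 ^ (b + B * (J * ν))
    rw [← pow_mul, ← pow_add, ← pow_add]; congr 1; ring
  have hp' : (⟨blk (2 ^ b) (2 ^ B) J μ * (2 ^ B) ^ j⟩ : XN) = shH (b + B * (J * μ)) ⟨2 ^ (B * j)⟩ := by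
    rw [← hp, blk, pow_add, mul_assoc]
  have hlt : 2 ^ (B * j) < 2 ^ (B * J) :=
    Nat.pow_lt_pow_right (by norm_num) (Nat.mul_lt_mul_of_pos_left hj (by omega))
  have ht : τ (shH (b + B * (J * μ)) ⟨2 ^ (B * j)⟩) = ⟨2 ^ (B * j)⟩ := by
    ext
    show fld _ _ (2 ^ (B * j) * _) &&& _ = _
    rw [fld_mul_same _ _ _ hlt, mk, msk_eq hB, pow_and_msk hB hj]
  rw [hπ, hp', ht]
  rw [psi_apply, sum_val_smul, ← add_sum_erase _ _ (show μ ∈ univ.filter (fun ν => w ν = 1) by simp [hμ])]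
  simp only [hp]
  rfl

lemma rho_gel_zero {η I : S} (hη : 2 * η = 1) (lo D J : ℕ) : rho lo D J (gel η I 0) = 1 := by
  have : gel η I 0 = 1 := by
    rw [gel, ← AddMonoidAlgebra.single_add, AddMonoidAlgebra.one_def]
    congr 1
    linear_combination hη
  rw [this, map_one]

lemma GG_add (η I : S) (lo D a c : ℕ) :
    GG η I lo D (a + c) = (∏ j ∈ range c, gX η I ⟨lo * D ^ (a + j)⟩) * GG η I lo D a := by
  rw [GG, prod_range_add, mul_comm]; rfl

end Crest.Agent.H7.Had
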