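import Crest.Agent.H7.HadI

/-! Row 326, fast Hadamard transform: the index permutations of the network. -/

set_option autoImplicit false
set_option linter.unusedVariables false

namespace Crest.Agent.H7.Had
open Crest.Agent.H9.IM Crest.Agent.H3.Ptime Finset

def JJ (q : HQ) : ℕ := (q.2.2.2.length - 1) / 256
noncomputable def XX (q : HQ) : ℝ := (Nat.log 2 q.2.2.1 + 1) * (q.2.2.2.length : ℝ) ^ th
def Big (q : HQ) (N : ℕ) : Prop := HP q.2.1 q.2.2.1 q.2.2.2.length N ∧ 256 < q.2.2.2.length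

lemma th_pos : 0 < th := by unfold th; norm_num
lemma th_le : th ≤ 1 := by unfold th; norm_num
lemma gam_pos : 0 < gam := by unfold gam; positivity
lemma gam_le : gam ≤ 1 := by unfold gam; norm_num

lemma XX_nonneg (q : HQ) : 0 ≤ XX q := by unfold XX; positivity

lemma pt_JJ : PT JJ := by unfold JJ; fun_prop
lemma pb_JJ : PB JJ := by unfold JJ; exact PB.div (PB.sub (PB.length (by fun_prop)))

lemma pt_blk (a : ℕ) : PT (fun q : HQ => blk q.2.1 q.2.2.1 (JJ q) a) := by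
  unfold blk
  exact PT.mul (by fun_prop) (PT.pow (by fun_prop) (pt_JJ.mul (PT.const a)) (pb_JJ.mul (PB.const a)))

lemma blk_dvd (lo D J : ℕ) {a b : ℕ} (h : a < b) : blk lo D J a * D ^ J ∣ blk lo D J b := by
  unfold blk
  rw [mul_assoc, ← pow_add]
  exact mul_dvd_mul_left _ (pow_dvd_pow _ (by nlinarith))

lemma blk_dis (lo D J : ℕ) {a b : ℕ} (h : a ≠ b) : Dis (blk lo D J a) (blk lo D J b) (D ^ J) :=
  (lt_or_gt_of_ne h).imp (blk_dvd lo D J) (blk_dvd lo D J)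

lemma blk_dvd_N {lo D K N a : ℕ} (h : lo * D ^ (K - 1) * 2 ∣ N) (ha : a < 256) :
    blk lo D ((K - 1) / 256) a * D ^ ((K - 1) / 256) ∣ N := by
  refine (blk_dvd lo D _ ha).trans (Dvd.dvd.trans ?_ h)
  exact Dvd.dvd.mul_right (mul_dvd_mul_left _ (pow_dvd_pow _ (Nat.div_mul_le_self _ _))) _

lemma pc_xor (hA : ArrStmt) (hX : XorStmt) {a b c : ℕ} (ha : a < 256) (hb : b < 256) (hc : c < 256)
    (hab : a ≠ b) (hac : a ≠ c) (hbc : b ≠ c) (fl : Bool) :
    PC (fun (q : HQ) i => i ^^^ ((bif fl then q.2.2.1 ^ JJ q - 1 else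
      fld (blk q.2.1 q.2.2.1 (JJ q) b) (q.2.2.1 ^ JJ q) i) &&& mk q.2.2.1 (JJ q)) *
      blk q.2.1 q.2.2.1 (JJ q) a) Big XX := by
  refine hA.pmono hX (fun q : HQ => (blk q.2.1 q.2.2.1 (JJ q) a, blk q.2.1 q.2.2.1 (JJ q) b,
    blk q.2.1 q.2.2.1 (JJ q) c, q.2.2.1, q.2.2.1 ^ JJ q, fl)) _ _ _ 1
    ((pt_blk a).pair ((pt_blk b).pair ((pt_blk c).pair ((show PT (fun q : HQ => q.2.2.1) by
      fun_prop).pair ((PT.pow (by fun_prop) pt_JJ pb_JJ).pair (PT.const fl)))))) ?_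
  rintro ⟨u, lo, D, K⟩ N ⟨⟨b0, B, h1, hB, h2, hK, hd, hN, hl⟩, hbig⟩
  dsimp only at h1 h2 hK hd hl hbig ⊢
  subst h1 h2
  have hJ : JJ (u, 2 ^ b0, 2 ^ B, K) = (K.length - 1) / 256 := rfl
  rw [hJ]
  set J := (K.length - 1) / 256 with hJ'
  have hp : ∀ a, 0 < blk (2 ^ b0) (2 ^ B) J a := fun a => by unfold blk; positivity
  have hJK : J ≤ K.length := by omega
  refine ⟨⟨B, J, hB, rfl, rfl, hp _, hp _, hp _, blk_dis _ _ _ hab, blk_dis _ _ _ hac,
    blk_dis _ _ _ hbc, blk_dvd_N hd ha, blk_dvd_N hd hb, blk_dvd_N hd hc, hN,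
    le_trans (by gcongr) hl⟩, fun i hi => ?_, by positivity, ?_⟩
  · have hm : ((2 ^ B) ^ J - 1) / (2 ^ B - 1) = mk (2 ^ B) J := rfl
    rw [hm, blk_eq b0 B J a]
    have := setf_xor (b0 + B * (J * a)) (B * J) i _ (lt_of_le_of_lt (Nat.and_le_right
      (n := bif fl then (2 ^ B) ^ J - 1 else fld (blk (2 ^ b0) (2 ^ B) J b) ((2 ^ B) ^ J) i)
      (m := mk (2 ^ B) J)) (by rw [mk, msk_eq hB]; exact msk_lt hB J))
    rw [pow_mul] at this
    exact this
  · rw [← pow_mul, Nat.log_pow (by norm_num), one_mul]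
    unfold XX
    dsimp only
    rw [Nat.log_pow (by norm_num)]
    have h1 : ((B * J : ℕ) + 1 : ℝ) ≤ (B + 1) * K.length := by
      have : B * J + 1 ≤ (B + 1) * K.length := by nlinarith
      exact_mod_cast this
    have h2 : ((B : ℝ) + 1) ^ th ≤ B + 1 := by
      calc _ ≤ ((B : ℝ) + 1) ^ (1 : ℝ) :=
            Real.rpow_le_rpow_of_exponent_le (by have : (0 : ℝ) ≤ B := by positivity
                                                 linarith) th_le
        _ = _ := Real.rpow_one _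
    calc _ ≤ (((B : ℝ) + 1) * K.length) ^ th := Real.rpow_le_rpow (by positivity) h1 th_pos.le
      _ = ((B : ℝ) + 1) ^ th * (K.length : ℝ) ^ th := Real.mul_rpow (by positivity) (by positivity)
      _ ≤ (B + 1) * (K.length : ℝ) ^ th := by gcongr
      _ ≤ _ := by linarith

lemma pc_id (hA : ArrStmt) : PC (fun (_ : HQ) i => i) Big XX :=
  hA.pmono (hA.ppull (fun (_ : HQ) i => i) (fun _ _ => 0) 1 (by fun_prop) (by fun_prop)) id _ _ _ 1
    PT.id' (fun q N _ => ⟨⟨fun i hi => ⟨by norm_num, hi⟩, fun i j h _ _ => h⟩, fun _ _ => rfl, le_rfl,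
      by have := XX_nonneg q; linarith⟩)

lemma pc_F (hA : ArrStmt) (hX : XorStmt) (l : List (Fin 256)) :
    PC (fun (q : HQ) i => piF q.2.1 q.2.2.1 (JJ q) l i) Big XX := by
  induction l with
  | nil => exact pc_id hA
  | cons ν l ih =>
    have hν := ν.2
    have h := pc_xor hA hX (a := ν) (b := (ν + 1) % 256) (c := (ν + 2) % 256) hν (by omega) (by omega)
      (by omega) (by omega) (by omega) true
    refine hA.pmono (hA.pcomp h ih) id _ _ _ 1 PT.id' (fun q N hq => ⟨hq, fun i hi => ?_,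
      XX_nonneg q, by simp⟩)
    obtain ⟨⟨b0, B, h1, hB, h2, -⟩, -⟩ := hq
    have : (q.2.2.1 ^ JJ q - 1) &&& mk q.2.2.1 (JJ q) = mk q.2.2.1 (JJ q) := by
      rw [h2, mk, msk_eq hB, ← pow_mul, Nat.and_comm, Nat.and_two_pow_sub_one_eq_mod,
        Nat.mod_eq_of_lt (msk_lt hB _)]
    simp only [id, cond_true, this]
    rfl

lemma pc_T (hA : ArrStmt) (hX : XorStmt) (μ : Fin 256) (l : List (Fin 256)) (hl : ∀ ν ∈ l, ν ≠ μ) :
    PC (fun (q : HQ) i => piT q.2.1 q.2.2.1 (JJ q) μ l i) Big XX := by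
  induction l with
  | nil => exact pc_id hA
  | cons ν l ih =>
    have hne : (ν : ℕ) ≠ μ := fun h => hl ν (by simp) (Fin.ext h)
    obtain ⟨c, hc, h1, h2⟩ : ∃ c < 256, (ν : ℕ) ≠ c ∧ (μ : ℕ) ≠ c := by
      by_cases h0 : (ν : ℕ) ≠ 0 ∧ (μ : ℕ) ≠ 0
      · exact ⟨0, by omega, h0⟩
      by_cases h1 : (ν : ℕ) ≠ 1 ∧ (μ : ℕ) ≠ 1
      · exact ⟨1, by omega, h1⟩
      exact ⟨2, by omega, by omega⟩
    have h := hA.pcomp (pc_xor hA hX ν.2 μ.2 hc hne h1 h2 false) (ih fun ν' h => hl ν' (by simp [h]))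
    exact h

lemma pullN_toArr {u N V : ℕ} (π : ℕ → ℕ) (hπ : ∀ i < N, π i < N) (v : ℕ → ℕ → ZMod (MM u)) :
    pullN (toArr N V v).length π (toArr N V v) = toArr N V (fun e => pre π (v e)) := by
  rw [(sh_toArr u N V v).1]
  unfold pullN
  refine List.map_congr_left fun i hi => ?_
  have := hπ i (by simpa using hi)
  simp [toArr, List.getD_eq_getElem?_getD, this]

end Crest.Agent.H7.Had
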