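import Crest.Agent.H7.HadS

/-! Row 326, fast Hadamard transform: the recursion. -/

set_option autoImplicit false
set_option linter.unusedVariables false

namespace Crest.Agent.H7.Had
open Crest.Agent.H9.IM Crest.Agent.H3.Ptime Finset Filter

section
variable {μ S V : Type} [CommRing S] [AddCommGroup V] [Module S V] (η : S) (op : μ → V → V)

lemma slp_length (P : List (Ins μ)) (R : List V) : (slp η op P R).length = R.length + P.length := by
  induction P generalizing R with
  | nil => rfl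
  | cons I P ih =>
    have := ih (R ++ [I.val η op R])
    simp only [slp, List.foldl_cons, List.length_append, List.length_cons, List.length_nil] at *
    omega

lemma slp_take (P : List (Ins μ)) (R : List V) {i : ℕ} (hi : i < P.length) :
    slp η op (P.take (i + 1)) R = slp η op (P.take i) R ++
      [(P.getD i .zero).val η op (slp η op (P.take i) R)] := by
  rw [List.take_add_one, List.getD_eq_getElem _ _ hi, List.getElem?_eq_getElem hi]
  unfold slp
  rw [List.foldl_append]; rfl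
end

lemma sum_getD {α : Type} (f : α → ℕ) (d : α) (P : List α) :
    ∑ i ∈ range P.length, f (P.getD i d) = (P.map f).sum := by
  induction P with
  | nil => simp
  | cons a P ih => rw [List.length_cons, sum_range_succ', List.map_cons, List.sum_cons, ← ih, add_comm]; simp

lemma cost_le_one (I : Ins (Bool × HH)) : I.cost (fun m => m.1) ≤ 1 := by
  rcases I with _ | _ | _ | _ | ⟨⟨_ | _, w⟩, r⟩ <;> simp [Ins.cost]

lemma own_le_cost {c1 c2 : ℕ} (h1 : 2 ≤ c1) (h2 : 1 ≤ c2) (n k : ℕ) {q : HQ} {N Λ : ℕ}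
    (h : Ok q N Λ) (V : ℕ) : own k q N V Λ ≤ cost c1 c2 n k q N V Λ := by
  unfold own cost
  have e1 : (2 : ℝ) ≤ c1 := by exact_mod_cast h1
  have e2 : (1 : ℝ) ≤ c2 := by exact_mod_cast h2
  have e3 := h.XX1
  have e4 : 0 ≤ V * WW q := by have := WW_nonneg q; positivity
  have e5 : (1 : ℝ) ≤ (q.2.2.2.length : ℝ) ^ n := one_le_pow₀ (by exact_mod_cast h.K1)
  have e6 : (0 : ℝ) ≤ (Λ : ℝ) ^ k := by positivity
  gcongr _ * (?_ + ?_)
  · calc _ ≤ 2 * (V * WW q * XX q) := by nlinarith
      _ ≤ _ := by gcongr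
  · calc _ ≤ 1 * ((Λ : ℝ) ^ k * 1) := by linarith
      _ ≤ _ := by gcongr

lemma sz_triv : sz triv ≤ 15 := by
  have := sz_nat_le 0
  simp only [triv, sz_pair, sz_nil, Nat.size_zero] at *
  omega

lemma FF_triv : FF triv.1 triv.2 = [] := rfl

def P0 (q : HQ) (w : ℕ) (A : Arr) : Prop :=
  w = 2 * q.1.length + 1 ∧ 1 ≤ q.1.length ∧ (∀ c ∈ A, ∀ x ∈ c, x < MM q.1.length) ∧
    HP q.2.1 q.2.2.1 q.2.2.2.length A.length

lemma b1_of {q : HQ} {A : Arr} {N V Λ k T : ℕ} (h : Ok q N Λ) (hA : Sh q.1.length N V A)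
    (hT : own k q N V Λ ≤ T) : B1 P0 k (q, A) T := by
  obtain rfl := hA.1
  exact ⟨V, Λ, h, hA, ⟨rfl, h.u1, fun c hc => (hA.2 c hc).2, h.hp⟩, hT⟩

def base (a : HQ × Arr) : Bool := (dropL a.1.2.2.2 (List.replicate 256 ())).isEmpty

lemma lin_base : Lin base := by unfold base; fun_prop

lemma base_iff (a : HQ × Arr) : base a = true ↔ a.1.2.2.2.length ≤ 256 := by
  rw [base, dropL, List.length_replicate, List.isEmpty_iff, List.drop_eq_nil_iff]

lemma rec_cc (hR : RecStmt) (hA : ArrStmt) (hB : NetB) (hX : XorStmt) (hL : LinStmt)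
    (hS : SlowStmt) : ∃ c1 c2 n k : ℕ, CC (fun a : HQ × Arr => FF a.1 a.2) (fun a T => a = triv ∨
      ∃ V Λ, Ok a.1 a.2.length Λ ∧ Sh a.1.1.length a.2.length V a.2 ∧
        cost c1 c2 n k a.1 a.2.length V Λ ≤ T) := by
  obtain ⟨T, P, out, hT, hok, hout, hcost, hnet⟩ := hB
  have hok' : ∀ i, (P.getD i .zero).ok (T + i) := fun i => by
    by_cases h : i < P.length
    · rw [List.getD_eq_getElem _ _ h]; exact hok i h
    · rw [List.getD_eq_default _ _ (by omega)]; trivial
  choose arg val Sp hcc hsp using fun i => good hA hX hL (P.getD i .zero) (m := T + i) (by omega)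
    (hok' i)
  obtain ⟨k, hk1, hk2, hk⟩ := (((eventually_all_finset (range P.length)).2 fun i _ => hcc i).and
    ((acE (ac_top hA hS)).and (eventually_ge_atTop 7))).exists
  set n := P.length with hn
  set r := (P.map (Ins.cost fun m => m.1)).sum with hr
  have hsum : ∑ i ∈ range n, (P.getD i .zero).cost (fun m => m.1) = r := sum_getD _ _ P
  have hrn : r ≤ n := by
    rw [← hsum]
    calc _ ≤ ∑ i ∈ range n, 1 := sum_le_sum fun i _ => cost_le_one _
      _ = n := by simp
  have hcost' : (r : ℝ) ≤ T * 256 * (1 - 1 / 2 ^ 30) := hcost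
  set C := 6 * (T + n) + 9 + 16 * n with hC
  refine ⟨C * 2 ^ 33, 2 * (4 * C + n * (C * 2 ^ 33) + n), n, k, ?_⟩
  refine hR (σ := St) n base
    (fun a => bif a.1.2.2.2.isEmpty then a.2 else FF (top a.1) a.2)
    (fun a => (a, (List.range T).map fun j => part T j a.2))
    (fun s => FF (top s.1.1) (glue ((List.range T).map out) s)) arg
    (fun i p => (p.1.1, p.1.2 ++ [val i p])) _ (fun _ _ => True)
    (fun a T => a.1.2.2.2 = [] ∨ B1 P0 k a T) (fun _ _ => True)
    (fun s T' => B1 P0 k (s.1.1, glue ((List.range T).map out) s) T') (fun i => RS (T + i) k)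
    (fun i => Sp i k) lin_base ?_ ?_ ?_ (fun i hi => (hk1 i (by simpa using hi)).1) ?_ _
    (fun a => a.1.2.2.2.length) ?_
  · refine CC.branch (S1 := fun _ _ => True) (by fun_prop) (by fun_prop) hk2 (fun _ _ _ _ => trivial) ?_
    rintro a T (h | h) h'
    · simp [h] at h'
    · exact h
  · exact CC.id'.pair (cc_listOf _ (fun j => CC.comp (lin_part T j) (by fun_prop)) _)
  · exact hk2.comp2 (f := fun s : St => (s.1.1, glue ((List.range T).map out) s))
      (CC.pair (by fun_prop) ((lin_glue _).cc _)) (fun _ _ h => h)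
  · intro i hi
    have := (hk1 i (by simpa using hi)).2
    fun_prop
  rintro ⟨q, A⟩ T' (h | ⟨V, Λ, h1, h2, h3⟩)
  · rw [h]
    exact ⟨trivial, fun _ => ⟨Or.inl rfl, rfl⟩, fun h => by
      rw [(base_iff triv).2 (Nat.zero_le _)] at h; cases h⟩
  dsimp only at h1 h2 h3
  have hC1 : 1 ≤ C := by omega
  refine ⟨trivial, fun hb => ?_, fun hb => ?_⟩
  · have hK : q.2.2.2.length ≤ 256 := (base_iff _).1 hb
    have hK1 := h1.K1
    refine ⟨Or.inr (b1_of h1 h2 ((own_le_cost (by omega) (by omega) _ _ h1 V).trans h3)), ?_⟩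
    have e1 : q.2.2.2.isEmpty = false := by
      cases h : q.2.2.2 with
      | nil => simp [h] at hK1
      | cons _ _ => rfl
    have e2 : top q = q := by
      have : JJ q = 0 := by unfold JJ; omega
      simp [top, this]
    simp only [e1, cond_false, e2]
  have hK : 256 < q.2.2.2.length := not_le.1 fun h => by rw [(base_iff (q, A)).2 h] at hb; cases hb
  set N := A.length with hN
  set x0 : ℕ → List (ℕ → ZMod (MM q.1.length)) := fun e =>
    (List.range T).map fun a => ofArr (MM q.1.length) A (e * T + a) with hx0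
  set x : ℕ → ℕ → List (ℕ → ZMod (MM q.1.length)) := fun i e =>
    slp (eta q.1.length) (opq q) (P.take i) (x0 e) with hx
  generalize hst : rst (fun a : HQ × Arr => (a, (List.range T).map fun j => part T j a.2)) arg
    (fun i p => (p.1.1, p.1.2 ++ [val i p])) (fun a : HQ × Arr => FF a.1 a.2) (q, A) = st
  have inv : ∀ i ≤ n, st i = ((q, A), regs N (V / T + 1) (T + i) (x i)) := by
    intro i hi
    induction i with
    | zero =>
      rw [← hst]
      refine Prod.ext rfl (List.map_congr_left fun j hj => ?_)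
      have hj : j < T := by simpa using hj
      rw [part_eq h2 hj]
      refine congrArg (toArr N _) (funext fun e => ?_)
      simp [hx, hx0, slp, List.getD_eq_getElem?_getD, hj]
    | succ i ih =>
      have ih := ih (by omega)
      have e1 : st (i + 1) = ((st i).1, (st i).2 ++
          [val i (st i, FF (arg i (st i)).1 (arg i (st i)).2)]) := by rw [← hst]; rfl
      rw [e1, (hsp i q A _ Λ (x i) _ h1 hK ih).2.1, ih, ← add_assoc, ← regs_snoc]
      · exact congrArg (fun y => ((q, A), regs N (V / T + 1) (T + i + 1) y))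
          (funext fun e => (slp_take _ _ P _ (by omega)).symm)
      · intro e
        simp only [hx, hx0, slp_length, List.length_map, List.length_range, List.length_take]
        omega
  have hglue : glue ((List.range T).map out) (st n) = toArr N V (fun e =>
      act (GG (eta _) (II _) q.2.1 q.2.2.1 (JJ q * 256)) (ofArr (MM q.1.length) A e)) := by
    rw [inv n le_rfl, glue_eq h2 (by omega) hT _ out hout]
    refine congrArg (toArr N _) (funext fun e => ?_)
    have := hnet _ _ _ (two_eta h1.u1) (II_sq _) _ (rho q.2.1 q.2.2.1 (JJ q)) (x0 (e / T))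
      (by simp [hx0]) (e % T) (Nat.mod_lt _ hT)
    rw [rho_all] at this
    simp only [hx, hn, List.take_length]
    refine this.trans (congrArg _ ?_)
    simp [hx0, List.getD_eq_getElem?_getD, Nat.mod_lt _ hT, Nat.div_add_mod']
  have hst1 : (st n).1.1 = q := by rw [inv n le_rfl]
  refine ⟨?_, ?_⟩
  · dsimp only
    rw [hglue, hst1, FF_top h1, ← FF_toArr h1, toArr_ofArr h2]
  set Z := ⌈own k q N (V + 1) Λ⌉₊ with hZ
  have hZ1 : own k q N (V + 1) Λ ≤ Z := Nat.le_ceil _
  have hZ0 : (1 : ℝ) ≤ own k q N (V + 1) Λ := (one_le_pow₀ h1.one).trans (own_ge _ _ _ _ _)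
  have hZ2 : (Z : ℝ) ≤ 2 * own k q N (V + 1) Λ := by
    have := Nat.ceil_lt_add_one (show 0 ≤ own k q N (V + 1) Λ by linarith)
    linarith
  have hZp : 1 ≤ Z := by exact_mod_cast hZ0.trans hZ1
  have hV' : V / T + 1 ≤ V + 1 := Nat.succ_le_succ (Nat.div_le_self _ _)
  have szA : ∀ {V' : ℕ} {R : Arr}, V' ≤ V + 1 → Sh q.1.length N V' R → sz R ≤ 5 * Z := by
    intro V' R hv hR
    have := (sz_sh h1 hR k).trans (mul_le_mul_of_nonneg_left ((own_mono k q N Λ hv).trans hZ1)
      (by norm_num))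
    exact_mod_cast this
  have szq : ∀ {q' : HQ}, Ok q' N Λ → sz q' ≤ Z := by
    intro q' h
    have : (Λ : ℝ) ^ 4 ≤ Z := (pow_le_pow_right₀ h1.one (by omega)).trans
      ((own_ge k q N (V + 1) Λ).trans hZ1)
    exact h.szq.trans (by exact_mod_cast this)
  have hown : ∀ V' ≤ V + 1, own k q N V' Λ ≤ (((6 * (T + n) + 9) * Z : ℕ) : ℝ) := by
    intro V' hv
    refine ((own_mono k q N Λ hv).trans hZ1).trans ?_
    exact_mod_cast Nat.le_mul_of_pos_left _ (by omega)
  set τ := ⌈cost (C * 2 ^ 33) (2 * (4 * C + n * (C * 2 ^ 33) + n)) n k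
      (q.1, 0, q.2.2.1, List.replicate (JJ q) ()) N (V / T + 1) Λ⌉₊ with hτ
  have harg : ∀ i < n, sz (arg i (st i)) + 1 ≤ 16 * Z := by
    intro i hi
    rcases (hsp i q A _ Λ (x i) _ h1 hK (inv i hi.le)).2.2 with h | ⟨-, lo', A', h, h', h''⟩
    · rw [h]; have := sz_triv; omega
    · rw [h, sz_pair]; have := szq h'; have := szA hV' h''; omega
  refine ⟨(6 * (T + n) + 9) * Z, fun i => (P.getD i .zero).cost (fun m => m.1) * τ, trivial, trivial,
    ?_, fun i hi => ?_, fun i hi => ?_, ?_⟩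
  · rw [hglue, hst1]
    exact b1_of h1 (sh_toArr _ _ _ _) (hown V (by omega))
  · rw [inv i hi, sz_pair, sz_pair]
    have e1 := sz_le_mul _ (5 * Z) fun R hR => szA hV' (regs_sh N (V / T + 1) (T + i) (x i) R hR)
    have e2 : (regs N (V / T + 1) (T + i) (x i)).length = T + i := by simp [regs]
    rw [e2] at e1
    have := szq h1
    have := szA (by omega) h2
    have : (T + i) * (5 * Z + 1) ≤ (T + n) * (6 * Z) := Nat.mul_le_mul (by omega) (by omega)
    have : (6 * (T + n) + 9) * Z = (T + n) * (6 * Z) + 9 * Z := by ring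
    omega
  · obtain ⟨e1, -, e3⟩ := hsp i q A _ Λ (x i) _ h1 hK (inv i hi.le)
    refine ⟨by rw [inv i hi.le]; exact rs_regs _ h1 hK (hown _ hV'), e1 _ _ (hown _ hV'), ?_⟩
    rcases e3 with h | ⟨hc, lo', A', h, h', h''⟩
    · rw [h]
      refine ⟨?_, Or.inl rfl, by show 0 < q.2.2.2.length; omega⟩
      show sz (FF triv.1 triv.2) ≤ _
      rw [FF_triv, sz_nil]
      exact Nat.mul_pos (by omega) hZp
    · rw [h]
      refine ⟨?_, Or.inr ⟨V / T + 1, Λ, ?_⟩, ?_⟩
      · dsimp only
        rw [← toArr_ofArr h'', FF_toArr h']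
        have := szA hV' (sh_toArr q.1.length N (V / T + 1) fun e => act (GG (eta _) (II _) lo'
          q.2.2.1 (List.replicate (JJ q) ()).length) (ofArr (MM q.1.length) A' e))
        refine this.trans (Nat.mul_le_mul_right _ (by omega))
      · dsimp only
        rw [h''.1, hc, one_mul]
        exact ⟨h', h'', Nat.le_ceil _⟩
      · simp only [List.length_replicate, JJ]; omega
  · have e1 : ∑ i ∈ range n, ((P.getD i .zero).cost (fun m => m.1) * τ + sz (arg i (st i)) + 1) ≤
        r * τ + n * (16 * Z) := by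
      calc _ ≤ ∑ i ∈ range n, ((P.getD i .zero).cost (fun m => m.1) * τ + 16 * Z) :=
            sum_le_sum fun i hi => by have := harg i (by simpa using hi); omega
        _ = _ := by rw [sum_add_distrib, ← sum_mul, hsum]; simp
    have e2 : ((C * Z + r * τ : ℕ) : ℝ) ≤ T' := by
      refine le_trans ?_ ((cost_step hT hcost' hrn hk h1 hK V 0).trans h3)
      push_cast
      gcongr
      refine (Nat.ceil_lt_add_one ?_).le
      unfold cost
      have := WW_nonneg (q.1, 0, q.2.2.1, List.replicate (JJ q) ())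
      have := XX_nonneg (q.1, 0, q.2.2.1, List.replicate (JJ q) ())
      positivity
    have e3 : C * Z + r * τ ≤ T' := by exact_mod_cast e2
    have e4 : C * Z = (6 * (T + n) + 9) * Z + n * (16 * Z) := by rw [hC]; ring
    exact le_trans (Nat.add_le_add_left e1 _) (by omega)

theorem gStmt (hR : RecStmt) (hA : ArrStmt) (hB : NetB) (hX : XorStmt) (hL : LinStmt)
    (hS : SlowStmt) : GStmt := by
  obtain ⟨c1, c2, n, k, h⟩ := rec_cc hR hA hB hX hL hS
  refine ⟨k + n + 1, h.mono' (c1 + c2) ?_, ?_⟩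
  · rintro ⟨⟨u, lo, D, K⟩, A⟩ T ⟨V, w, Λ, ⟨h1, h2, h3, h4⟩, h5, h6, h7, h8, h9, -, h10⟩
    dsimp only at *
    rw [sz_pair, sz_pair, sz_pair] at h6
    have ho : Ok (u, lo, D, K) A.length Λ := ⟨h2, h4,
      (Nat.size_le.1 ((size_le_sz D).trans (by omega))).le, h1 ▸ h7,
      (length_le_sz K).trans (by omega), h8⟩
    refine ⟨_, Or.inr ⟨V, Λ, ho, ⟨rfl, fun c hc => ⟨(h5 c hc).1, h3 c hc⟩⟩, Nat.le_ceil _⟩,
      le_trans (Nat.ceil_le.2 ?_) (Nat.mul_le_mul_left _ (show T ≤ _ by omega))⟩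
    push_cast
    refine le_trans ?_ (mul_le_mul_of_nonneg_left h10 (by positivity))
    have e1 : WW (u, lo, D, K) = (w + 1 : ℝ) ^ (1 + gam) := by
      unfold WW; rw [h1]; push_cast; rw [add_assoc, one_add_one_eq_two]
    have e2 : XX (u, lo, D, K) ≤ (K.length + 1 : ℝ) ^ th * (Nat.log 2 D + 1) + 1 := by
      unfold XX
      have : (K.length : ℝ) ^ th ≤ (K.length + 1 : ℝ) ^ th :=
        Real.rpow_le_rpow (by positivity) (by linarith) th_pos.le
      have : (0 : ℝ) ≤ Nat.log 2 D + 1 := by positivity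
      dsimp only
      nlinarith
    have e3 : (Λ : ℝ) ^ k * (K.length : ℝ) ^ n ≤ (Λ : ℝ) ^ (k + n + 1) := by
      have : (K.length : ℝ) ≤ Λ := by exact_mod_cast ho.hK
      calc _ ≤ (Λ : ℝ) ^ k * (Λ : ℝ) ^ n := by gcongr
        _ = (Λ : ℝ) ^ (k + n) := by rw [pow_add]
        _ ≤ _ := pow_le_pow_right₀ ho.one (by omega)
    unfold cost
    rw [e1, mul_left_comm ((c1 : ℝ) + c2)]
    have := XX_nonneg (u, lo, D, K)
    have e4 : V * (w + 1 : ℝ) ^ (1 + gam) * XX (u, lo, D, K) ≤
        V * (w + 1 : ℝ) ^ (1 + gam) * ((K.length + 1 : ℝ) ^ th * (Nat.log 2 D + 1) + 1) := by gcongr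
    have e5 : 0 ≤ V * (w + 1 : ℝ) ^ (1 + gam) * XX (u, lo, D, K) := by positivity
    have e6 : 0 ≤ (Λ : ℝ) ^ k * (K.length : ℝ) ^ n := by positivity
    have e7 : (0 : ℝ) ≤ c1 := by positivity
    have e8 : (0 : ℝ) ≤ c2 := by positivity
    gcongr _ * ?_
    nlinarith [mul_le_mul_of_nonneg_left e4 e7, mul_le_mul_of_nonneg_left e3 e8,
      mul_nonneg e7 (e6.trans e3), mul_nonneg e8 (e5.trans e4)]
  · rintro q V w A ⟨h1, h2, h3, b, B, -, -, -, -, -, hN, -⟩ h5
    have hs : Sh q.1.length A.length V A := ⟨rfl, fun c hc => ⟨(h5 c hc).1, h3 c hc⟩⟩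
    unfold FF app
    rw [hs.head hN, h1]
    exact ⟨(sh_toArr _ _ _ _).bd, by rw [(sh_toArr _ _ _ _).1]; nlinarith⟩

end Crest.Agent.H7.Had
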