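import Crest.Agent.H7.HadC

/-! Row 326, fast Hadamard transform: splitting, gluing and the numerical estimate. -/

set_option autoImplicit false
set_option linter.unusedVariables false

namespace Crest.Agent.H7.Had
open Crest.Agent.H9.IM Crest.Agent.H3.Ptime Finset Filter

def part (T j : ℕ) (A : Arr) : Arr :=
  A.map fun c => (chunks T (c ++ List.replicate T 0)).map fun ch => ch.getD j 0

lemma lin_part (T j : ℕ) : Lin (part T j) := by
  unfold part
  refine CC.mapL CC.id' (CC.mapL ?_ (cc_getD j 0 CC.id'))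
  refine (CC.comp (Lin.chunks (α := ℕ)) (f := fun c : List ℕ =>
    (List.replicate T (), c ++ List.replicate T 0)) (by fun_prop)).of_eq fun c => by simp

lemma part_eq {u N V T j : ℕ} {A : Arr} (hA : Sh u N V A) (hj : j < T) :
    part T j A = toArr N (V / T + 1) (fun e => ofArr (MM u) A (e * T + j)) := by
  refine List.ext_getElem (by simp [part, toArr, hA.1]) fun i h1 h2 => ?_
  have hi : i < A.length := by simpa [part] using h1
  have hc := hA.2 _ (List.getElem_mem hi)
  simp only [part, toArr, List.getElem_map, List.getElem_range, chunks, List.map_map,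
    List.length_append, List.length_replicate, hc.1, Nat.add_div_right V (show 0 < T by omega)]
  refine List.map_congr_left fun e _ => ?_
  have e1 : (List.take T (List.drop (e * T) (A[i] ++ List.replicate T 0))).getD j 0 =
      A[i].getD (e * T + j) 0 := by
    simp only [List.getD_eq_getElem?_getD, List.getElem?_take, hj, if_true, List.getElem?_drop,
      List.getElem?_append, List.getElem?_replicate]
    split_ifs with h3 h4
    · rfl
    · rw [List.getElem?_eq_none (by omega)]; rfl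
    · rw [List.getElem?_eq_none (by omega)]
  simp only [Function.comp, e1, ofArr]
  rw [List.getD_eq_getElem A _ hi, ZMod.val_natCast, Nat.mod_eq_of_lt]
  by_cases h : e * T + j < A[i].length
  · rw [List.getD_eq_getElem _ _ h]; exact hc.2 _ (List.getElem_mem h)
  · rw [List.getD_eq_default _ _ (by omega)]; unfold MM; positivity

lemma cc_listOf {α β : Type} [Enc α] [Enc β] {S : α → ℕ → Prop} (f : ℕ → α → β)
    (hf : ∀ j, CC (f j) S) (l : List ℕ) : CC (fun a => l.map (fun j => f j a)) S := by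
  induction l with
  | nil => exact CC.const _
  | cons j l ih => exact (hf j).cons ih

def gl (o : List ℕ) (R : List Arr) : List (List (List ℕ)) :=
  o.foldr (fun r G => List.zipWith (List.zipWith List.cons) (R.getD r []) G)
    ((R.getD 0 []).map fun c => c.map fun _ => [])

lemma lin_gl (o : List ℕ) : Lin (gl o) := by
  induction o with
  | nil => exact CC.mapL (cc_getD 0 [] CC.id') (CC.mapL CC.id' (CC.const _))
  | cons r o ih =>
    exact CC.zipWithL (cc_getD r [] CC.id') ih (CC.zipWithL (by fun_prop) (by fun_prop) (by fun_prop))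

lemma gl_eq {u N V m : ℕ} (hm : 0 < m) (x : ℕ → List (ℕ → ZMod (MM u))) (o : List ℕ)
    (ho : ∀ r ∈ o, r < m) : gl o (regs N V m x) = (List.range N).map fun i =>
      (List.range V).map fun e => o.map fun r => ((x e).getD r 0 i).val := by
  induction o with
  | nil => simp only [gl, List.foldr_nil]; rw [regs_getD _ _ _ hm]; simp [toArr, Function.comp_def]
  | cons r o ih =>
    have ih := ih fun r h => ho r (by simp [h])
    simp only [gl, List.foldr_cons] at ih ⊢
    rw [ih, regs_getD _ _ _ (ho r (by simp))]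
    simp [toArr, List.zipWith_map]

lemma flatten_range {α : Type} (f : ℕ → ℕ → α) {T : ℕ} (hT : 0 < T) (V : ℕ) :
    ((List.range V).map fun e => (List.range T).map (f e)).flatten =
      (List.range (V * T)).map fun t => f (t / T) (t % T) := by
  induction V with
  | zero => simp
  | succ V ih =>
    rw [List.range_succ, List.map_append, List.flatten_append, ih, Nat.succ_mul, List.range_add,
      List.map_append]
    congr 1
    simp only [List.map_cons, List.map_nil, List.flatten_cons, List.flatten_nil, List.append_nil,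
      List.map_map]
    refine List.map_congr_left fun j hj => ?_
    have hj : j < T := by simpa using hj
    simp only [Function.comp]
    rw [mul_comm V T, Nat.mul_add_div hT, Nat.mul_add_mod, Nat.div_eq_of_lt hj, Nat.mod_eq_of_lt hj,
      add_zero]

def glue (o : List ℕ) (s : St) : Arr :=
  List.zipWith takeL ((gl o s.2).map List.flatten) s.1.2

lemma lin_glue (o : List ℕ) : Lin (glue o) :=
  CC.zipWithL (CC.mapL (CC.comp (lin_gl o) (by fun_prop)) (CC.flatten CC.id')) (by fun_prop)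
    (by fun_prop)

lemma glue_eq {q : HQ} {u N V m T : ℕ} {A : Arr} (hA : Sh u N V A) (hm : 0 < m) (hT : 0 < T)
    (x : ℕ → List (ℕ → ZMod (MM u))) (out : ℕ → ℕ) (ho : ∀ a < T, out a < m) :
    glue ((List.range T).map out) ((q, A), regs N (V / T + 1) m x) =
      toArr N V (fun e => (x (e / T)).getD (out (e % T)) 0) := by
  unfold glue
  dsimp only
  rw [gl_eq hm x _ (fun r hr => by
    obtain ⟨a, ha, rfl⟩ := List.mem_map.1 hr; exact ho a (by simpa using ha))]
  refine List.ext_getElem (by simp [toArr, hA.1]) fun i h1 h2 => ?_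
  have hi : i < A.length := by simpa [toArr, hA.1] using h2
  simp only [List.getElem_zipWith, List.getElem_map, List.getElem_range, List.map_map, toArr, takeL,
    (hA.2 _ (List.getElem_mem hi)).1, Function.comp_def]
  rw [flatten_range (fun e a => ((x e).getD (out a) 0 i).val) hT, ← List.map_take, List.take_range,
    min_eq_left]
  have := Nat.div_add_mod V T
  have := Nat.mod_lt V hT
  nlinarith

/-- the remaining top layers -/
def top (q : HQ) : HQ := (q.1, q.2.1 * q.2.2.1 ^ (JJ q * 256), q.2.2.1, q.2.2.2.drop (JJ q * 256))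

lemma ac_top (hA : ArrStmt) (hS : SlowStmt) : AC (fun q A => FF (top q) A)
    (fun q w A => w = 2 * q.1.length + 1 ∧ 1 ≤ q.1.length ∧ (∀ c ∈ A, ∀ x ∈ c, x < MM q.1.length) ∧
      HP q.2.1 q.2.2.1 q.2.2.2.length A.length) XX := by
  refine hA.mono hS top _ _ _ 256 ?_ ?_
  · exact PT.pair (by fun_prop) (PT.pair (PT.mul (by fun_prop) (PT.pow (by fun_prop)
      (pt_JJ.mul (PT.const _)) (pb_JJ.mul (PB.const _)))) (PT.pair (by fun_prop)
        (PT.drop (by fun_prop) (pt_JJ.mul (PT.const _)))))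
  · rintro q w A ⟨h1, h2, h3, b, B, e1, hB, e2, hK, hd, hN, -⟩
    have hJ : JJ q * 256 ≤ q.2.2.2.length - 1 ∧ q.2.2.2.length - JJ q * 256 ≤ 256 := by
      unfold JJ; omega
    refine ⟨⟨h1, h2, h3, b + B * (JJ q * 256), B, ?_, e2, hN, ?_⟩, rfl, by positivity, ?_⟩
    · show q.2.1 * q.2.2.1 ^ _ = _
      rw [e1, e2, ← pow_mul, ← pow_add]
    · simp only [top, List.length_drop]
      rw [mul_assoc q.2.1, ← pow_add]
      convert hd using 4
      omega
    · simp only [top, List.length_drop]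
      have : ((q.2.2.2.length - JJ q * 256 : ℕ) : ℝ) ≤ 256 := by exact_mod_cast hJ.2
      have := XX_nonneg q
      linarith

lemma FF_top {q : HQ} {N Λ : ℕ} (h : Ok q N Λ) (V : ℕ) (v : ℕ → ℕ → ZMod (MM q.1.length)) :
    FF (top q) (toArr N V (fun e => act (GG (eta _) (II _) q.2.1 q.2.2.1 (JJ q * 256)) (v e))) =
      toArr N V (fun e => act (GG (eta _) (II _) q.2.1 q.2.2.1 q.2.2.2.length) (v e)) := by
  obtain ⟨b, B, e1, hB, e2, hK, hd, hN, hl⟩ := h.hp
  have hJ : JJ q * 256 ≤ q.2.2.2.length - 1 := by unfold JJ; omega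
  unfold FF
  simp only [top, List.length_drop]
  rw [app_toArr hN]
  · congr 1
    funext e
    obtain ⟨c, hc⟩ : ∃ c, q.2.2.2.length = JJ q * 256 + c := ⟨q.2.2.2.length - JJ q * 256, by omega⟩
    rw [hc, Nat.add_sub_cancel_left, GG_add, map_mul, Module.End.mul_apply]
    simp only [GG, pow_add, mul_assoc]
    rfl
  · rw [e1, e2, ← pow_mul, ← pow_add]
    refine loc_GG _ _ (Or.inr ?_)
    rw [pow_add, pow_mul, mul_assoc (2 ^ b), ← pow_add, ← e1, ← e2]
    convert hd using 4
    omega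

lemma key_pow {T r : ℕ} (hr : (r : ℝ) ≤ T * 256 * (1 - 1 / 2 ^ 30)) {J K : ℕ} (h : 256 * J ≤ K) :
    r * (J : ℝ) ^ th ≤ T * (1 - 1 / 2 ^ 31) * (K : ℝ) ^ th := by
  have h1 : (256 : ℝ) ^ th * (J : ℝ) ^ th ≤ (K : ℝ) ^ th := by
    rw [← Real.mul_rpow (by norm_num) (by positivity)]
    exact Real.rpow_le_rpow (by positivity) (by exact_mod_cast h) th_pos.le
  have h0 : ∀ p : ℝ, 0 ≤ p → p ≤ 1 → (256 : ℝ) ^ p ≤ 1 + p * 255 := fun p hp hp' => by
    have := rpow_one_add_le_one_add_mul_self (s := 255) (p := p) (by norm_num) hp hp'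
    rwa [show (1 + 255 : ℝ) = 256 by norm_num] at this
  have h2 : (256 : ℝ) ^ (1 - th) ≤ 1 + 1 / 2 ^ 31 :=
    (h0 _ (by have := th_le; linarith) (by have := th_pos; linarith)).trans (by unfold th; norm_num)
  have h3 : (256 : ℝ) ^ th * (256 : ℝ) ^ (1 - th) = 256 := by
    rw [← Real.rpow_add (by norm_num), add_sub_cancel, Real.rpow_one]
  have h4 : (0 : ℝ) < (256 : ℝ) ^ th := by positivity
  have h5 : (256 : ℝ) * (1 - 1 / 2 ^ 30) ≤ (1 - 1 / 2 ^ 31) * (256 : ℝ) ^ th := by
    have : (256 : ℝ) ≤ (256 : ℝ) ^ th * (1 + 1 / 2 ^ 31) := by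
      conv_lhs => rw [← h3]
      gcongr
    nlinarith
  have h6 : (0 : ℝ) ≤ (J : ℝ) ^ th := by positivity
  calc r * (J : ℝ) ^ th ≤ T * 256 * (1 - 1 / 2 ^ 30) * (J : ℝ) ^ th := by gcongr
    _ = T * (256 * (1 - 1 / 2 ^ 30)) * (J : ℝ) ^ th := by ring
    _ ≤ T * ((1 - 1 / 2 ^ 31) * (256 : ℝ) ^ th) * (J : ℝ) ^ th := by gcongr
    _ = T * (1 - 1 / 2 ^ 31) * ((256 : ℝ) ^ th * (J : ℝ) ^ th) := by ring
    _ ≤ _ := by gcongr

noncomputable def cost (c1 c2 n k : ℕ) (q : HQ) (N V Λ : ℕ) : ℝ :=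
  (N + 1) * (c1 * (V * WW q * XX q) + c2 * ((Λ : ℝ) ^ k * (q.2.2.2.length : ℝ) ^ n))

lemma cost_step {T r n C k : ℕ} (hT : 0 < T) (hr : (r : ℝ) ≤ T * 256 * (1 - 1 / 2 ^ 30)) (hrn : r ≤ n)
    (hk : 7 ≤ k) {q : HQ} {N Λ : ℕ} (h : Ok q N Λ) (hK : 256 < q.2.2.2.length) (V lo' : ℕ) :
    C * (2 * own k q N (V + 1) Λ) + r * (cost (C * 2 ^ 33) (2 * (4 * C + n * (C * 2 ^ 33) + n)) n k
      (q.1, lo', q.2.2.1, List.replicate (JJ q) ()) N (V / T + 1) Λ + 1) ≤
    cost (C * 2 ^ 33) (2 * (4 * C + n * (C * 2 ^ 33) + n)) n k q N V Λ := by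
  have hJ : 256 * JJ q ≤ q.2.2.2.length := by unfold JJ; omega
  have h1 := key_pow hr hJ
  have h2 := h.WX hk
  have h3 := h.XX1
  have h4 := WW_nonneg q
  have h5 : 2 * r * (JJ q : ℝ) ^ n ≤ (q.2.2.2.length : ℝ) ^ n := by
    have e1 : 2 * r ≤ 256 ^ n := by
      calc 2 * r ≤ 2 * n := by omega
        _ ≤ 2 ^ n * 2 ^ n := by
          have := @Nat.lt_two_pow_self n
          rcases Nat.eq_zero_or_pos n with rfl | hn
          · simp
          · nlinarith
        _ = (2 * 2) ^ n := by rw [← mul_pow]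
        _ ≤ _ := Nat.pow_le_pow_left (by norm_num) _
    have e2 : 2 * r * JJ q ^ n ≤ q.2.2.2.length ^ n :=
      calc _ ≤ 256 ^ n * JJ q ^ n := by gcongr
        _ = (256 * JJ q) ^ n := by rw [mul_pow]
        _ ≤ _ := Nat.pow_le_pow_left hJ _
    exact_mod_cast e2
  have h6 : (1 : ℝ) ≤ (q.2.2.2.length : ℝ) ^ n := one_le_pow₀ (by exact_mod_cast h.K1)
  have h7 : (1 : ℝ) ≤ (Λ : ℝ) ^ k := one_le_pow₀ h.one
  have h8 : (JJ q : ℝ) ^ th ≤ (q.2.2.2.length : ℝ) ^ th :=
    Real.rpow_le_rpow (by positivity) (by exact_mod_cast (by omega)) th_pos.le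
  have h9 : ((V / T : ℕ) : ℝ) * T ≤ V := by exact_mod_cast Nat.div_mul_le_self V T
  have hrn' : (r : ℝ) ≤ n := by exact_mod_cast hrn
  unfold cost own
  have e1 : WW (q.1, lo', q.2.2.1, List.replicate (JJ q) ()) = WW q := rfl
  have e2 : XX (q.1, lo', q.2.2.1, List.replicate (JJ q) ()) =
      (Nat.log 2 q.2.2.1 + 1) * (JJ q : ℝ) ^ th := by simp [XX]
  rw [e1, e2]
  simp only [List.length_replicate]
  have e3 : XX q = (Nat.log 2 q.2.2.1 + 1) * (q.2.2.2.length : ℝ) ^ th := rfl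
  push_cast
  generalize (Λ : ℝ) ^ k = L at *
  generalize (q.2.2.2.length : ℝ) ^ n = Kn at *
  generalize hJn : (JJ q : ℝ) ^ n = Jn at *
  have hJn0 : 0 ≤ Jn := by rw [← hJn]; positivity
  have hB : (0 : ℝ) ≤ Nat.log 2 q.2.2.1 + 1 := by positivity
  generalize (Nat.log 2 q.2.2.1 + 1 : ℝ) = Bb at *
  have hJt : (0 : ℝ) ≤ (JJ q : ℝ) ^ th := by positivity
  generalize (JJ q : ℝ) ^ th = Jt at *
  generalize (q.2.2.2.length : ℝ) ^ th = Kt at *
  generalize WW q = W at *
  have hV : (0 : ℝ) ≤ V := by positivity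
  have hV' : (0 : ℝ) ≤ (V / T : ℕ) := by positivity
  generalize ((V / T : ℕ) : ℝ) = V' at *
  have hC : (0 : ℝ) ≤ C := by positivity
  have hr0 : (0 : ℝ) ≤ r := by positivity
  have hN : (0 : ℝ) ≤ N := by positivity
  generalize XX q = X at *
  have a1 : (V + 1) * W * (X + 1) + L ≤ 2 * (V * W * X) + 2 * (L * Kn) := by
    nlinarith [mul_nonneg (mul_nonneg hV h4) (by linarith : 0 ≤ X - 1)]
  have a2 : r * (V' * W * (Bb * Jt)) ≤ (1 - 1 / 2 ^ 31) * (V * W * X) := by
    calc r * (V' * W * (Bb * Jt)) = V' * W * Bb * (r * Jt) := by ring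
      _ ≤ V' * W * Bb * (T * (1 - 1 / 2 ^ 31) * Kt) := by gcongr
      _ = (V' * T) * (W * (Bb * Kt) * (1 - 1 / 2 ^ 31)) := by ring
      _ ≤ V * (W * (Bb * Kt) * (1 - 1 / 2 ^ 31)) := by
        have : 0 ≤ Kt := by linarith
        gcongr
      _ = _ := by rw [e3]; ring
  have a3 : r * (W * (Bb * Jt)) ≤ n * (L * Kn) := by
    have : W * (Bb * Jt) ≤ L * Kn := by
      have : Bb * Jt ≤ X := by rw [e3]; gcongr
      nlinarith [mul_le_mul_of_nonneg_left this h4]
    gcongr
  have a4 : 2 * r * (L * Jn) ≤ L * Kn := by nlinarith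
  have a5 : (r : ℝ) ≤ (N + 1) * (n * (L * Kn)) := by
    have : 1 ≤ L * Kn := by nlinarith
    have : (n : ℝ) ≤ n * (L * Kn) := by nlinarith
    nlinarith
  have hc2 : (0 : ℝ) ≤ 4 * C + n * (C * 2 ^ 33) + n := by positivity
  have b1 := mul_le_mul_of_nonneg_left a1 (show 0 ≤ 2 * (C : ℝ) by positivity)
  have b2 := mul_le_mul_of_nonneg_left a2 (show 0 ≤ (C : ℝ) * 2 ^ 33 by positivity)
  have b3 := mul_le_mul_of_nonneg_left a3 (show 0 ≤ (C : ℝ) * 2 ^ 33 by positivity)
  have b4 := mul_le_mul_of_nonneg_left a4 hc2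
  have b5 : C * (2 * ((V + 1) * W * (X + 1) + L)) + r * (C * 2 ^ 33 * ((V' + 1) * W * (Bb * Jt)) +
      2 * (4 * C + n * (C * 2 ^ 33) + n) * (L * Jn)) + n * (L * Kn) ≤
      C * 2 ^ 33 * (V * W * X) + 2 * (4 * C + n * (C * 2 ^ 33) + n) * (L * Kn) := by
    linear_combination b1 + b2 + b3 + b4
  have b6 := mul_le_mul_of_nonneg_left b5 (show (0 : ℝ) ≤ N + 1 by positivity)
  linear_combination b6 + a5

end Crest.Agent.H7.Had
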