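import Mathlib

set_option autoImplicit false

open Finset

namespace Crest.Agent.H7.Lp

variable {X : Type*} [Fintype X] [DecidableEq X]

/-- discrete gradient -/
noncomputable def gr (d : X → X → ℝ) (φ : X → ℝ) (e : X × X) : ℝ := (φ e.1 - φ e.2) / d e.1 e.2

omit [Fintype X] [DecidableEq X] in
lemma gr_sum {ι : Type*} (s : Finset ι) (d : X → X → ℝ) (c : ι → ℝ) (ψ : ι → X → ℝ) (e : X × X) :
    gr d (fun x => ∑ i ∈ s, c i * ψ i x) e = ∑ i ∈ s, c i * gr d (ψ i) e := by
  simp only [gr, ← sum_sub_distrib, sum_div]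
  exact sum_congr rfl fun _ _ => by ring

lemma gr_eq (d : X → X → ℝ) (φ : X → ℝ) (e : X × X) :
    gr d φ e = ∑ u, φ u * gr d (Pi.single u 1) e := by
  rw [← gr_sum]
  congr 1
  ext x
  simp [Pi.single_apply]

omit [DecidableEq X] in
lemma exists_proj (d : X → X → ℝ) {w : X × X → ℝ} (hw : ∀ e, 0 < w e) (U : X × X → ℝ) :
    ∃ ψ : X → ℝ, ∀ φ, ∑ e, w e * ((U e - gr d ψ e) * gr d φ e) = 0 := by
  let T : (X → ℝ) →ₗ[ℝ] EuclideanSpace ℝ (X × X) :=
    { toFun := fun φ => WithLp.toLp 2 fun e => √(w e) * gr d φ e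
      map_add' := fun φ ψ => by ext e; simp [gr]; ring
      map_smul' := fun c φ => by ext e; simp [gr]; ring }
  obtain ⟨_, ⟨ψ, rfl⟩, h⟩ := Submodule.HasOrthogonalProjection.exists_orthogonal (K := LinearMap.range T)
    (WithLp.toLp 2 fun e => √(w e) * U e)
  refine ⟨ψ, fun φ => ?_⟩
  have := (Submodule.mem_orthogonal _ _).1 h (T φ) ⟨φ, rfl⟩
  rw [PiLp.inner_apply] at this
  rw [← this]
  refine sum_congr rfl fun e _ => ?_
  simp only [T, LinearMap.coe_mk, AddHom.coe_mk, PiLp.sub_apply, RCLike.inner_apply, conj_trivial]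
  have := Real.mul_self_sqrt (hw e).le
  linear_combination (-(U e - gr d ψ e) * gr d φ e) * this

lemma ent_pt {a r : ℝ} (ha : 0 ≤ a) (hr : 0 ≤ r) (h : 0 < r ∨ a = 0) :
    (√a - √r) ^ 2 ≤ a * Real.log a - a * Real.log r - a + r := by
  have e1 := Real.sq_sqrt ha
  have e2 := Real.sq_sqrt hr
  rcases ha.eq_or_lt with rfl | ha
  · simp [e2]
  have hr : 0 < r := h.resolve_right ha.ne'
  have sa := Real.sqrt_pos.2 ha
  have sr := Real.sqrt_pos.2 hr
  have := Real.log_le_sub_one_of_pos (div_pos sr sa)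
  rw [Real.log_div sr.ne' sa.ne', Real.log_sqrt hr.le, Real.log_sqrt ha.le] at this
  have h2 := mul_le_mul_of_nonneg_left this ha.le
  have e3 : a * (√r / √a) = √a * √r := by rw [← e1]; field_simp; rw [Real.sqrt_sq sa.le]
  nlinarith

section walk
variable {μ : X → ℝ} {P : Matrix X X ℝ} (hμ : ∀ u, 0 < μ u) (h0 : ∀ u v, 0 ≤ P u v)
  (h1 : ∀ u, ∑ v, P u v = 1) (hrev : ∀ u v, μ u * P u v = μ v * P v u) (hl : ∀ u, 1 / 2 ≤ P u u)

omit [DecidableEq X] in
include h1 hrev in
lemma stat (F : X → ℝ) : ∑ u, μ u * ∑ v, P u v * F v = ∑ v, μ v * F v := by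
  simp only [mul_sum, ← mul_assoc]
  rw [sum_comm]
  exact sum_congr rfl fun v _ => by
    rw [← sum_mul, sum_congr rfl fun u _ => hrev u v, ← mul_sum, h1, mul_one]

include hμ h0 h1 hrev hl in
lemma ent_drop {q : X → ℝ} (hq : ∀ u, 0 ≤ q u) :
    (∑ u, μ u * ∑ v, P u v * (√(q v) - √(q u)) ^ 2) / 2 ≤
      ∑ u, μ u * (q u * Real.log (q u)) -
        ∑ u, μ u * ((∑ v, P u v * q v) * Real.log (∑ v, P u v * q v)) := by
  rw [← stat h1 hrev fun u => q u * Real.log (q u), ← sum_sub_distrib, sum_div]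
  refine sum_le_sum fun u _ => ?_
  rw [← mul_sub, mul_div_assoc]
  refine mul_le_mul_of_nonneg_left ?_ (hμ u).le
  set r := ∑ v, P u v * q v with hr
  have hr0 : 0 ≤ r := sum_nonneg fun v _ => mul_nonneg (h0 u v) (hq v)
  have a : ∑ v, P u v * (√(q v) - √r) ^ 2 ≤ ∑ v, P u v * (q v * Real.log (q v)) - r * Real.log r := by
    have : ∑ v, P u v * (q v * Real.log (q v)) - r * Real.log r =
        ∑ v, P u v * (q v * Real.log (q v) - q v * Real.log r - q v + r) := by
      simp only [mul_add, mul_sub, sum_add_distrib, sum_sub_distrib, ← mul_assoc, ← sum_mul, ← hr, h1]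
      ring
    rw [this]
    refine sum_le_sum fun v _ => ?_
    rcases (h0 u v).eq_or_lt with h | h
    · rw [← h, zero_mul, zero_mul]
    refine mul_le_mul_of_nonneg_left (ent_pt (hq v) hr0 ?_) h.le
    rcases hr0.eq_or_lt with h' | h'
    · right
      have := (sum_eq_zero_iff_of_nonneg fun v _ => mul_nonneg (h0 u v) (hq v)).1 h'.symm v (mem_univ _)
      exact (mul_eq_zero.1 this).resolve_left h.ne'
    · exact Or.inl h'
  refine le_trans ?_ a
  have b : ∑ v, P u v * (√(q v) - √(q u)) ^ 2 ≤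
      ∑ v ∈ univ.erase u, P u v * (2 * (√(q v) - √r) ^ 2 + 2 * (√(q u) - √r) ^ 2) := by
    rw [← add_sum_erase _ _ (mem_univ u), sub_self]
    simp only [ne_eq, OfNat.ofNat_ne_zero, not_false_eq_true, zero_pow, mul_zero, zero_add]
    exact sum_le_sum fun v _ => mul_le_mul_of_nonneg_left
      (by nlinarith [sq_nonneg (√(q v) + √(q u) - 2 * √r)]) (h0 u v)
  have c : ∑ v ∈ univ.erase u, P u v = 1 - P u u := by
    rw [← h1 u, ← add_sum_erase _ _ (mem_univ u)]; ring
  simp only [mul_add, sum_add_distrib, ← sum_mul, c, mul_left_comm _ (2:ℝ), ← mul_sum] at b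
  rw [← add_sum_erase _ (fun v => P u v * (√(q v) - √r) ^ 2) (mem_univ u)]
  have := hl u
  nlinarith [sq_nonneg (√(q u) - √r)]

include hrev in
lemma rev_pow (s : ℕ) (u v : X) : μ u * (P ^ s) u v = μ v * (P ^ s) v u := by
  induction s generalizing u v with
  | zero => by_cases h : u = v <;> simp [h, eq_comm]
  | succ s ih =>
    conv_lhs => rw [pow_succ]
    rw [pow_succ', Matrix.mul_apply, Matrix.mul_apply, mul_sum, mul_sum]
    refine sum_congr rfl fun x _ => ?_
    rw [← mul_assoc, ih, ← mul_assoc, ← hrev]; ring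

include h0 in
lemma pow_nonneg' (s : ℕ) (u v : X) : 0 ≤ (P ^ s) u v := by
  induction s generalizing u v with
  | zero => rw [pow_zero, Matrix.one_apply]; split_ifs <;> norm_num
  | succ s ih => rw [pow_succ, Matrix.mul_apply]; exact sum_nonneg fun x _ => mul_nonneg (ih _ _) (h0 _ _)

end walk

theorem localise (d : X → X → ℝ) {w : X × X → ℝ} (hw : ∀ e, 0 < w e) (hw1 : ∑ e, w e = 1) :
    ∃ ψ : X × X → X → ℝ,
      (∀ φ e, ∑ f, gr d φ f * gr d (ψ f) e = gr d φ e) ∧
      (∀ U : X × X → ℝ, ∑ e, w e * (U e - ∑ f, U f * gr d (ψ f) e) ^ 2 ≤ ∑ e, w e * U e ^ 2) ∧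
      ∑ e, w e * ∑ f, |gr d (ψ f) e| ≤ 8 * Real.log (Fintype.card X) := by
  choose ψ hψ using fun f : X × X => exists_proj d hw (Pi.single f 1)
  have hN : ∀ (U : X × X → ℝ) φ, ∑ e, w e * ((U e - ∑ f, U f * gr d (ψ f) e) * gr d φ e) = 0 := by
    intro U φ
    have : ∀ e, w e * ((U e - ∑ f, U f * gr d (ψ f) e) * gr d φ e) =
        ∑ f, U f * (w e * (((Pi.single f 1 : X × X → ℝ) e - gr d (ψ f) e) * gr d φ e)) := by
      intro e
      have : U e = ∑ f, U f * (Pi.single f 1 : X × X → ℝ) e := by simp [Pi.single_apply]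
      conv_lhs => rw [this]
      rw [← sum_sub_distrib, sum_mul, mul_sum]
      exact sum_congr rfl fun _ _ => by ring
    simp only [this]
    rw [sum_comm]
    exact sum_eq_zero fun f _ => by rw [← mul_sum, hψ, mul_zero]
  refine ⟨ψ, fun φ e => ?_, fun U => ?_, ?_⟩
  · have := hN (gr d φ) (fun x => φ x - ∑ f, gr d φ f * ψ f x)
    have e1 : ∀ e, gr d (fun x => φ x - ∑ f, gr d φ f * ψ f x) e =
        gr d φ e - ∑ f, gr d φ f * gr d (ψ f) e := fun e => by
      rw [← gr_sum]; simp only [gr]; ring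
    simp only [e1] at this
    have h2 := (sum_eq_zero_iff_of_nonneg fun e _ => mul_nonneg (hw e).le (mul_self_nonneg _)).1 this e
      (mem_univ _)
    have h3 := (mul_eq_zero.1 h2).resolve_left (hw e).ne'
    linarith [mul_self_eq_zero.1 h3]
  · have := hN U (fun x => ∑ f, U f * ψ f x)
    simp only [gr_sum] at this
    have h2 : ∑ e, (w e * (U e - ∑ f, U f * gr d (ψ f) e) ^ 2 +
        2 * (w e * ((U e - ∑ f, U f * gr d (ψ f) e) * ∑ f, U f * gr d (ψ f) e))) ≤ ∑ e, w e * U e ^ 2 :=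
      sum_le_sum fun e _ => by nlinarith [mul_nonneg (hw e).le (sq_nonneg (∑ f, U f * gr d (ψ f) e))]
    rwa [sum_add_distrib, ← mul_sum, this, mul_zero, add_zero] at h2
  -- the walk
  obtain ⟨μ, hμd⟩ : ∃ μ : X → ℝ, ∀ v, μ v = (∑ b, w (v, b) + ∑ a, w (a, v)) / 2 := ⟨_, fun _ => rfl⟩
  have hμ : ∀ v, 0 < μ v := fun v => by
    rw [hμd]
    have : 0 < ∑ b, w (v, b) := sum_pos (fun _ _ => hw _) ⟨v, mem_univ _⟩
    have : 0 < ∑ a, w (a, v) := sum_pos (fun _ _ => hw _) ⟨v, mem_univ _⟩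
    positivity
  have hμs : ∀ q : X → ℝ, ∑ e, w e * (q e.1 + q e.2) = 2 * ∑ v, μ v * q v := fun q => by
    simp only [hμd, mul_add, sum_add_distrib, Fintype.sum_prod_type, div_mul_eq_mul_div, ← sum_div,
      add_mul, sum_mul]
    rw [sum_comm (f := fun a b => w (a, b) * q b)]
    ring
  have hμ1 : ∑ v, μ v = 1 := by
    have := hμs fun _ => 1
    simp only [← sum_mul, hw1, mul_one] at this
    linarith
  obtain ⟨g, hg⟩ : ∃ g : X × X → X → ℝ, ∀ e u, g e u = gr d (Pi.single u 1) e := ⟨_, fun _ _ => rfl⟩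
  have hgr : ∀ φ e, gr d φ e = ∑ u, φ u * g e u := fun φ e => by simp only [hg, ← gr_eq]
  obtain ⟨D, hD⟩ : ∃ D : X → X → ℝ, ∀ u v, D u v = ∑ e, w e * (g e u * g e v) := ⟨_, fun _ _ => rfl⟩
  have hDφ : ∀ u φ, ∑ v, D u v * φ v = ∑ e, w e * (g e u * gr d φ e) := fun u φ => by
    simp only [hD, hgr, sum_mul, mul_sum]
    rw [sum_comm]
    exact sum_congr rfl fun _ _ => sum_congr rfl fun _ _ => by ring
  have hD0 : ∀ u, 0 ≤ D u u := fun u => by
    rw [hD]; exact sum_nonneg fun e _ => mul_nonneg (hw e).le (mul_self_nonneg _)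
  have hDn : ∀ u v, u ≠ v → D u v ≤ 0 := fun u v huv => by
    rw [hD]
    refine sum_nonpos fun e _ => mul_nonpos_of_nonneg_of_nonpos (hw e).le ?_
    simp only [hg, gr, div_mul_div_comm]
    refine div_nonpos_of_nonpos_of_nonneg ?_ (mul_self_nonneg _)
    simp only [Pi.single_apply]
    split_ifs <;> first | (exfalso; grind) | norm_num
  obtain ⟨h, hh0, hh⟩ : ∃ h : ℝ, 0 < h ∧ ∀ u, h * (D u u / μ u) ≤ 1 / 2 := by
    have p0 : ∀ u, 0 ≤ D u u / μ u := fun u => div_nonneg (hD0 u) (hμ u).le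
    have p1 : 0 ≤ ∑ u, D u u / μ u := sum_nonneg fun u _ => p0 u
    refine ⟨1 / (2 * (1 + ∑ u, D u u / μ u)), by positivity, fun u => ?_⟩
    have := single_le_sum (f := fun u => D u u / μ u) (fun u _ => p0 u) (mem_univ u)
    rw [div_mul_eq_mul_div, div_le_div_iff₀ (by positivity) (by norm_num)]
    linarith
  obtain ⟨P, hP⟩ : ∃ P : Matrix X X ℝ, ∀ u v, P u v = (if u = v then 1 else 0) - h * (D u v / μ u) :=
    ⟨fun u v => _, fun _ _ => rfl⟩
  have hPφ : ∀ u φ, ∑ v, P u v * φ v = φ u - h / μ u * ∑ e, w e * (g e u * gr d φ e) := fun u φ => by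
    rw [← hDφ, mul_sum]
    simp only [hP, sub_mul, sum_sub_distrib, ite_mul, one_mul, zero_mul, sum_ite_eq, mem_univ, if_true]
    congr 1
    exact sum_congr rfl fun _ _ => by ring
  have hl : ∀ u, 1 / 2 ≤ P u u := fun u => by rw [hP, if_pos rfl]; linarith [hh u]
  have h0 : ∀ u v, 0 ≤ P u v := fun u v => by
    by_cases huv : u = v
    · rw [huv]; linarith [hl v]
    · rw [hP, if_neg huv, zero_sub, neg_nonneg]
      exact mul_nonpos_of_nonneg_of_nonpos hh0.le (div_nonpos_of_nonpos_of_nonneg (hDn u v huv) (hμ u).le)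
  have h1 : ∀ u, ∑ v, P u v = 1 := fun u => by simpa [gr] using hPφ u fun _ => 1
  have hrev : ∀ u v, μ u * P u v = μ v * P v u := fun u v => by
    have : D u v = D v u := by simp only [hD, mul_comm (g _ u)]
    rw [hP, hP, this, mul_sub, mul_sub]
    congr 1
    · by_cases huv : u = v <;> simp [huv, eq_comm]
    · field_simp [(hμ u).ne', (hμ v).ne']
  have hDir : ∀ φ : X → ℝ, ∑ u, μ u * ∑ v, P u v * (φ v - φ u) ^ 2 = 2 * h * ∑ e, w e * gr d φ e ^ 2 := by
    intro φ
    have e1 : ∀ u, ∑ v, P u v * (φ v - φ u) ^ 2 =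
        ∑ v, P u v * φ v ^ 2 - 2 * φ u * ∑ v, P u v * φ v + φ u ^ 2 * ∑ v, P u v := fun u => by
      simp only [mul_sum, ← sum_sub_distrib, ← sum_add_distrib]
      exact sum_congr rfl fun _ _ => by ring
    have e2 : ∑ e, w e * gr d φ e ^ 2 = ∑ u, φ u * ∑ e, w e * (g e u * gr d φ e) := by
      simp only [mul_sum]
      rw [sum_comm]
      refine sum_congr rfl fun e _ => ?_
      rw [sq]
      conv_lhs => enter [2, 1]; rw [hgr]
      rw [sum_mul, mul_sum]
      exact sum_congr rfl fun _ _ => by ring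
    simp only [e1, mul_add, mul_sub, sum_add_distrib, sum_sub_distrib, stat h1 hrev, h1, hPφ _ φ]
    rw [e2, mul_sum, ← sum_sub_distrib, ← sum_sub_distrib, ← sum_add_distrib]
    exact sum_congr rfl fun u _ => by field_simp [(hμ u).ne']; ring
  obtain ⟨q, hq⟩ : ∃ q : ℕ → X → X → ℝ, ∀ s v u, q s v u = (P ^ s) u v / μ v := ⟨_, fun _ _ _ => rfl⟩
  have hq0 : ∀ s v u, 0 ≤ q s v u := fun s v u => by
    rw [hq]; exact div_nonneg (pow_nonneg' h0 s u v) (hμ v).le
  have hqs : ∀ s v u, q (s + 1) v u = ∑ x, P u x * q s v x := fun s v u => by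
    simp only [hq, pow_succ', Matrix.mul_apply, sum_div, mul_div_assoc]
  have hq1 : ∀ s v, ∑ u, μ u * q s v u = 1 := fun s v => by
    induction s with
    | zero => simp [hq, Matrix.one_apply, ite_div, (hμ v).ne']
    | succ s ih => simp only [hqs, stat h1 hrev, ih]
  obtain ⟨A, hA⟩ : ∃ A : ℕ → X → ℝ, ∀ s v, A s v = ∑ e, w e * |gr d (q s v) e| := ⟨_, fun _ _ => rfl⟩
  have hA0 : ∀ s v, 0 ≤ A s v := fun s v => by
    rw [hA]; exact sum_nonneg fun e _ => mul_nonneg (hw e).le (abs_nonneg _)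
  have hdrop : ∀ s v, h * A s v ^ 2 ≤ 4 * (∑ u, μ u * (q s v u * Real.log (q s v u)) -
      ∑ u, μ u * (q (s + 1) v u * Real.log (q (s + 1) v u))) := by
    intro s v
    have a := ent_drop hμ h0 h1 hrev hl (hq0 s v)
    rw [hDir fun u => √(q s v u)] at a
    simp only [← hqs] at a
    have b := sum_mul_sq_le_sq_mul_sq univ (fun e : X × X => √(w e) * |gr d (fun u => √(q s v u)) e|)
      (fun e => √(w e) * (√(q s v e.1) + √(q s v e.2)))
    have b1 : ∑ e : X × X, √(w e) * |gr d (fun u => √(q s v u)) e| *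
        (√(w e) * (√(q s v e.1) + √(q s v e.2))) = A s v := by
      rw [hA]
      refine sum_congr rfl fun e _ => ?_
      have : gr d (q s v) e = gr d (fun u => √(q s v u)) e * (√(q s v e.1) + √(q s v e.2)) := by
        simp only [gr]
        rw [div_mul_eq_mul_div]
        congr 1
        nlinarith [Real.mul_self_sqrt (hq0 s v e.1), Real.mul_self_sqrt (hq0 s v e.2)]
      rw [this, abs_mul, abs_of_nonneg (by positivity : 0 ≤ √(q s v e.1) + √(q s v e.2))]
      linear_combination (|gr d (fun u => √(q s v u)) e| * (√(q s v e.1) + √(q s v e.2))) *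
        Real.mul_self_sqrt (hw e).le
    have b2 : ∑ e : X × X, (√(w e) * (√(q s v e.1) + √(q s v e.2))) ^ 2 ≤ 4 := by
      have := hμs (q s v)
      rw [hq1] at this
      calc _ ≤ ∑ e : X × X, 2 * (w e * (q s v e.1 + q s v e.2)) := sum_le_sum fun e _ => by
            rw [mul_pow, Real.sq_sqrt (hw e).le, mul_left_comm]
            refine mul_le_mul_of_nonneg_left ?_ (hw e).le
            nlinarith [Real.mul_self_sqrt (hq0 s v e.1), Real.mul_self_sqrt (hq0 s v e.2),
              sq_nonneg (√(q s v e.1) - √(q s v e.2))]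
        _ = 4 := by rw [← mul_sum, this]; norm_num
    simp only [mul_pow (√(w _)) |_|, sq_abs, Real.sq_sqrt (hw _).le] at b
    rw [b1] at b
    have b3 : 0 ≤ ∑ e, w e * gr d (fun u => √(q s v u)) e ^ 2 :=
      sum_nonneg fun e _ => mul_nonneg (hw e).le (sq_nonneg _)
    nlinarith [mul_le_mul_of_nonneg_left (b.trans (mul_le_mul_of_nonneg_left b2 b3)) hh0.le]
  have hsum : ∀ S v, ∑ s ∈ range S, h * A s v ^ 2 ≤ -4 * Real.log (μ v) := by
    intro S v
    refine (sum_le_sum fun s _ => hdrop s v).trans ?_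
    rw [← mul_sum, sum_range_sub' (fun s => ∑ u, μ u * (q s v u * Real.log (q s v u)))]
    have a : ∑ u, μ u * (q 0 v u * Real.log (q 0 v u)) = -Real.log (μ v) := by
      rw [sum_eq_single v]
      · simp [hq, (hμ v).ne']
      · intro u _ hu; simp [hq, Matrix.one_apply_ne hu]
      · simp
    have b : 0 ≤ ∑ u, μ u * (q S v u * Real.log (q S v u)) := by
      have : ∑ u, μ u * (q S v u - 1) = 0 := by simp only [mul_sub, sum_sub_distrib, hq1, mul_one, hμ1, sub_self]
      rw [← this]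
      exact sum_le_sum fun u _ => mul_le_mul_of_nonneg_left (Real.self_sub_one_le_mul_log (hq0 S v u)) (hμ u).le
    linarith
  have hent : ∑ v, μ v * -Real.log (μ v) ≤ Real.log (Fintype.card X) := by
    have hX : (0:ℝ) < Fintype.card X := by
      rcases isEmpty_or_nonempty X with hX | hX
      · simp at hμ1
      · exact_mod_cast Fintype.card_pos
    have : ∑ v, (μ v * Real.log (Fintype.card X) + (1 / Fintype.card X - μ v)) =
        Real.log (Fintype.card X) := by
      simp [sum_add_distrib, ← sum_mul, hμ1, hX.ne']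
    rw [← this]
    refine sum_le_sum fun v _ => ?_
    have := Real.log_le_sub_one_of_pos (show 0 < 1 / (Fintype.card X * μ v) from by
      have := hμ v; positivity)
    rw [one_div, Real.log_inv, Real.log_mul hX.ne' (hμ v).ne'] at this
    have h2 := mul_le_mul_of_nonneg_left this (hμ v).le
    have : μ v * (Fintype.card X * μ v)⁻¹ = 1 / Fintype.card X := by field_simp [(hμ v).ne']
    nlinarith
  -- expansion
  have hLψ : ∀ f u, ψ f u - ∑ v, P u v * ψ f v = h / μ u * (w f * g f u) := fun f u => by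
    have := hψ f (Pi.single u 1)
    simp only [← hg, sub_mul, mul_sub, sum_sub_distrib, Pi.single_apply, ite_mul, one_mul, zero_mul,
      mul_ite, mul_zero, sum_ite_eq', mem_univ, if_true] at this
    rw [hPφ, sub_sub_cancel, sub_eq_zero.1 this]
    simp only [mul_comm (g _ u)]
  have hstep : ∀ f s s' x, ∑ u, (P ^ (s + s')) x u * ψ f u - ∑ u, (P ^ (s + s' + 1)) x u * ψ f u =
      ∑ v, (h * w f * μ v * gr d (q s' v) f) * q s v x := by
    intro f s s' x
    have e1 : ∑ u, (P ^ (s + s' + 1)) x u * ψ f u = ∑ u, (P ^ (s + s')) x u * ∑ v, P u v * ψ f v := by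
      simp only [pow_succ, Matrix.mul_apply, sum_mul, mul_sum, mul_assoc]
      exact sum_comm
    rw [e1, ← sum_sub_distrib]
    simp only [← mul_sub, hLψ]
    simp only [pow_add, Matrix.mul_apply, sum_mul, hgr, mul_sum]
    rw [sum_comm]
    refine sum_congr rfl fun v _ => sum_congr rfl fun u _ => ?_
    have := rev_pow hrev s' u v
    rw [hq, hq, show (P ^ s') v u = μ u * (P ^ s') u v / μ v by rw [this]; field_simp [(hμ v).ne']]
    field_simp [(hμ v).ne', (hμ u).ne']
  have hexp : ∀ f S x, ψ f x = ∑ s ∈ range S, (∑ v, (h * w f * μ v * gr d (q s v) f) * q s v x +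
      ∑ v, (h * w f * μ v * gr d (q (s + 1) v) f) * q s v x) + ∑ v, (μ v * ψ f v) * q (2 * S) v x := by
    intro f S x
    have e : ∀ S, ∑ v, (μ v * ψ f v) * q S v x = ∑ u, (P ^ S) x u * ψ f u := fun S =>
      sum_congr rfl fun v _ => by rw [hq]; field_simp [(hμ v).ne']
    rw [e]
    induction S with
    | zero => simp [Matrix.one_apply]
    | succ S ih =>
      rw [sum_range_succ, ← hstep, ← hstep]
      rw [two_mul] at ih
      rw [show 2 * (S + 1) = S + (S + 1) + 1 by ring, show S + S + 1 = S + (S + 1) by ring]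
      linarith
  have hbd : ∀ S, ∑ e, w e * ∑ f, |gr d (ψ f) e| ≤ 8 * Real.log (Fintype.card X) +
      ∑ v, (μ v * ∑ f, |ψ f v|) * A (2 * S) v := by
    intro S
    have e1 : ∀ f e, |gr d (ψ f) e| ≤ ∑ s ∈ range S, ∑ v, h * μ v * (w f * |gr d (q s v) f| +
        w f * |gr d (q (s + 1) v) f|) * |gr d (q s v) e| +
        ∑ v, μ v * |ψ f v| * |gr d (q (2 * S) v) e| := by
      intro f e
      have : gr d (ψ f) e = ∑ s ∈ range S, ∑ v, (h * w f * μ v * gr d (q s v) f +
          h * w f * μ v * gr d (q (s + 1) v) f) * gr d (q s v) e +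
          ∑ v, (μ v * ψ f v) * gr d (q (2 * S) v) e := by
        simp only [← gr_sum]
        simp only [gr, ← sum_div, ← add_div, sum_sub_distrib]
        congr 1
        rw [hexp f S e.1, hexp f S e.2]
        simp only [gr, add_mul, sum_add_distrib]
        ring
      rw [this]
      refine (abs_add_le _ _).trans (add_le_add ((abs_sum_le_sum_abs _ _).trans (sum_le_sum fun s _ =>
        (abs_sum_le_sum_abs _ _).trans (sum_le_sum fun v _ => ?_)))
        ((abs_sum_le_sum_abs _ _).trans (sum_le_sum fun v _ => ?_)))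
      · rw [abs_mul]
        refine mul_le_mul_of_nonneg_right ((abs_add_le _ _).trans (le_of_eq ?_)) (abs_nonneg _)
        simp only [abs_mul, abs_of_pos hh0, abs_of_pos (hw f), abs_of_pos (hμ v)]
        ring
      · simp only [abs_mul, abs_of_pos (hμ v), le_refl]
    refine (sum_le_sum fun e _ => mul_le_mul_of_nonneg_left (sum_le_sum fun f _ => e1 f e) (hw e).le).trans ?_
    have e2 : ∑ e, w e * ∑ f, (∑ s ∈ range S, ∑ v, h * μ v * (w f * |gr d (q s v) f| +
        w f * |gr d (q (s + 1) v) f|) * |gr d (q s v) e| +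
        ∑ v, μ v * |ψ f v| * |gr d (q (2 * S) v) e|) =
        ∑ v, μ v * ∑ s ∈ range S, h * ((A s v + A (s + 1) v) * A s v) +
        ∑ v, (μ v * ∑ f, |ψ f v|) * A (2 * S) v := by
      simp only [sum_add_distrib, mul_add (w _)]
      congr 1
      · simp only [hA, ← sum_add_distrib, mul_sum, sum_mul]
        rw [sum_comm (s := univ) (t := range S)]
        rw [sum_congr rfl fun e _ => sum_comm, sum_comm]
        refine sum_congr rfl fun s _ => ?_
        rw [sum_congr rfl fun e _ => sum_comm, sum_comm]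
        refine sum_congr rfl fun v _ => ?_
        exact sum_congr rfl fun _ _ => sum_congr rfl fun _ _ => by ring
      · simp only [hA, mul_sum, sum_mul]
        rw [sum_congr rfl fun e _ => sum_comm, sum_comm]
        refine sum_congr rfl fun v _ => ?_
        exact sum_congr rfl fun _ _ => sum_congr rfl fun _ _ => by ring
    rw [e2]
    refine add_le_add_left (le_trans (sum_le_sum fun v _ => ?_) (by
      rw [← mul_sum]; exact mul_le_mul_of_nonneg_left hent (by norm_num : (0:ℝ) ≤ 8))) _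
    rw [mul_left_comm]
    refine mul_le_mul_of_nonneg_left ?_ (hμ v).le
    have a := hsum S v
    have b := hsum (S + 1) v
    rw [sum_range_succ'] at b
    have c : ∑ s ∈ range S, h * ((A s v + A (s + 1) v) * A s v) ≤
        3 / 2 * ∑ s ∈ range S, h * A s v ^ 2 + 1 / 2 * ∑ s ∈ range S, h * A (s + 1) v ^ 2 := by
      rw [mul_sum, mul_sum, ← sum_add_distrib]
      exact sum_le_sum fun s _ => by nlinarith [mul_nonneg hh0.le (sq_nonneg (A s v - A (s + 1) v))]
    nlinarith [mul_nonneg hh0.le (sq_nonneg (A 0 v))]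
  have hlim : ∀ v, Filter.Tendsto (fun S => A (2 * S) v) Filter.atTop (nhds 0) := by
    intro v
    have a := (summable_of_sum_range_le (fun s => mul_nonneg hh0.le (sq_nonneg (A s v)))
      fun S => hsum S v).tendsto_atTop_zero
    have b := (a.const_mul h⁻¹).sqrt
    simp only [← mul_assoc, inv_mul_cancel₀ hh0.ne', one_mul, mul_zero, Real.sqrt_zero,
      Real.sqrt_sq (hA0 _ _)] at b
    exact b.comp (Filter.tendsto_id.const_mul_atTop' (by norm_num))
  have := (tendsto_finsetSum univ fun v _ => (hlim v).const_mul (μ v * ∑ f, |ψ f v|)).const_add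
    (8 * Real.log (Fintype.card X))
  simp only [mul_zero, sum_const_zero, add_zero] at this
  exact ge_of_tendsto' this hbd

theorem minimax {E H : Type*} [Fintype E] [AddCommGroup H] [Module ℝ H] (F : E → H → ℝ)
    (h0 : ∀ e x, 0 ≤ F e x) (hc : ∀ e, ConvexOn ℝ Set.univ (F e))
    (h : ∀ w : E → ℝ, (∀ e, 0 < w e) → ∑ e, w e = 1 → ∃ x, ∑ e, w e * F e x ≤ 1) :
    ∃ x, ∀ e, F e x ≤ 3 := by
  classical
  by_contra hcon
  push Not at hcon
  have hO : IsOpen {z : E → ℝ | ∀ e, z e < 3} := by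
    rw [Set.ofPred_forall]
    exact isOpen_iInter_of_finite fun e => isOpen_lt (continuous_apply e) continuous_const
  have cO : Convex ℝ {z : E → ℝ | ∀ e, z e < 3} := fun x hx y hy a b ha hb hab e =>
    convex_Iio (3:ℝ) (hx e) (hy e) ha hb hab
  have cS : Convex ℝ {z : E → ℝ | ∃ x, ∀ e, F e x ≤ z e} := by
    rintro y ⟨x, hx⟩ y' ⟨x', hx'⟩ a b ha hb hab
    refine ⟨a • x + b • x', fun e => ((hc e).2 trivial trivial ha hb hab).trans ?_⟩
    simp only [Pi.add_apply, Pi.smul_apply, smul_eq_mul]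
    gcongr
    exacts [hx e, hx' e]
  obtain ⟨f, u, hf1, hf2⟩ := geometric_hahn_banach_open cO hO cS (Set.disjoint_left.2 fun z hz ⟨x, hx⟩ => by
    obtain ⟨e, he⟩ := hcon x
    linarith [hz e, hx e])
  have hf : ∀ z : E → ℝ, f z = ∑ e, f (Pi.single e 1) * z e := fun z => by
    conv_lhs => rw [← univ_sum_single z]
    rw [map_sum]
    exact sum_congr rfl fun e _ => by
      rw [show (Pi.single e (z e) : E → ℝ) = z e • Pi.single e 1 by rw [← Pi.single_smul]; simp, map_smul,
        smul_eq_mul, mul_comm]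
  set l : E → ℝ := fun e => f (Pi.single e 1) with hl
  have l0 : ∀ e, 0 ≤ l e := fun e => by
    by_contra hn
    push Not at hn
    have := hf1 ((|u| / l e) • Pi.single e 1) fun e' => by
      have : |u| / l e ≤ 0 := div_nonpos_of_nonneg_of_nonpos (abs_nonneg u) hn.le
      simp only [Pi.smul_apply, Pi.single_apply, smul_eq_mul]
      split_ifs <;> linarith
    rw [map_smul, smul_eq_mul, div_mul_cancel₀ _ hn.ne] at this
    linarith [le_abs_self u]
  have a := hf1 (fun _ => 5 / 2) fun _ => by norm_num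
  rw [hf, ← sum_mul] at a
  have Λ0 : 0 ≤ ∑ e, l e := sum_nonneg fun e _ => l0 e
  obtain ⟨e₀, -⟩ := hcon 0
  have hE : (0:ℝ) < Fintype.card E := by exact_mod_cast Fintype.card_pos_iff.2 ⟨e₀⟩
  rcases Λ0.eq_or_lt with hΛ | hΛ
  · have b := hf2 (fun e => F e 0) ⟨0, fun _ => le_rfl⟩
    rw [hf, sum_eq_zero fun e _ => by
      rw [show f (Pi.single e 1) = 0 from (sum_eq_zero_iff_of_nonneg fun e _ => l0 e).1 hΛ.symm e (mem_univ _),
        zero_mul]] at b
    linarith
  obtain ⟨x, hx⟩ := h (fun e => (l e / ∑ e, l e + 1 / Fintype.card E) / 2)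
    (fun e => by have := l0 e; positivity) (by
      simp only [← sum_div, sum_add_distrib, div_self hΛ.ne', sum_const, card_univ, nsmul_eq_mul, mul_one,
        div_self hE.ne']
      norm_num)
  have b := hf2 (fun e => F e x) ⟨x, fun _ => le_rfl⟩
  rw [hf] at b
  have c : ∑ e, l e * F e x ≤ 2 * (∑ e, l e) * 1 := by
    refine le_trans ?_ (mul_le_mul_of_nonneg_left hx (by positivity))
    rw [mul_sum]
    refine sum_le_sum fun e _ => ?_
    rw [← mul_assoc]
    refine mul_le_mul_of_nonneg_right ?_ (h0 e x)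
    have : 0 ≤ (∑ e, l e) * (1 / Fintype.card E) := by positivity
    have : (∑ e, l e) * (l e / ∑ e, l e) = l e := by field_simp
    nlinarith
  linarith

end Crest.Agent.H7.Lp
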