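import Mathlib
import Crest.Agent.H7.LpLoc

set_option autoImplicit false

open Finset

namespace Crest.Agent.H7.Lp

/-- power of two -/
noncomputable def tw (x : ℝ) : ℝ := (2:ℝ) ^ x

lemma tw_pos (x : ℝ) : 0 < tw x := Real.rpow_pos_of_pos two_pos x
lemma tw_add (x y : ℝ) : tw (x + y) = tw x * tw y := Real.rpow_add two_pos x y
lemma tw_rpow (x y : ℝ) : tw x ^ y = tw (x * y) := (Real.rpow_mul two_pos.le x y).symm
lemma tw_le {x y : ℝ} (h : x ≤ y) : tw x ≤ tw y := Real.rpow_le_rpow_of_exponent_le one_le_two h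
lemma tw_zero : tw 0 = 1 := Real.rpow_zero 2
lemma tw_lt_one {x : ℝ} (h : x < 0) : tw x < 1 := Real.rpow_lt_one_of_one_lt_of_neg one_lt_two h
lemma tw_le_exp {x : ℝ} (h : 0 ≤ x) : tw x ≤ Real.exp x := by
  rw [← Real.exp_one_rpow]
  exact Real.rpow_le_rpow two_pos.le (by linarith [Real.add_one_le_exp 1]) h

/-- geometric constant -/
noncomputable def cg (α : ℝ) : ℝ := 1 / (1 - tw (-|α|))

lemma cg_pos {α : ℝ} (h : α ≠ 0) : 0 < cg α :=
  one_div_pos.2 (sub_pos.2 (tw_lt_one (neg_neg_of_pos (abs_pos.2 h))))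

lemma cg_one : cg 1 = 2 := by norm_num [cg, tw, Real.rpow_neg_one]

lemma geo_neg {α : ℝ} (β : ℝ) (hα : α < 0) (U : Finset ℤ) {B : ℝ} (hB : 0 ≤ B)
    (h : ∀ u ∈ U, tw (α * u + β) ≤ B) : ∑ u ∈ U, tw (α * u + β) ≤ B * cg α := by
  have key : ∀ (U : Finset ℤ) (m : ℤ), (∀ u ∈ U, m ≤ u) →
      (1 - tw α) * ∑ u ∈ U, tw (α * u + β) ≤ tw (α * m + β) := by
    intro U
    induction U using Finset.induction_on_min with
    | empty => intro m _; simpa using (tw_pos _).le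
    | insert a s ha ih =>
      intro m hm
      rw [sum_insert fun h => lt_irrefl _ (ha a h), mul_add]
      have h1 := ih (a + 1) fun u hu => ha u hu
      have h2 : tw (α * ((a + 1 : ℤ) : ℝ) + β) = tw α * tw (α * a + β) := by
        rw [← tw_add]; congr 1; push_cast; ring
      have h3 : tw (α * a + β) ≤ tw (α * m + β) := tw_le (by
        have : (m:ℝ) ≤ a := by exact_mod_cast hm a (mem_insert_self _ _)
        nlinarith)
      linarith
  have h1 : 0 < 1 - tw α := sub_pos.2 (tw_lt_one hα)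
  rw [cg, abs_of_neg hα, neg_neg, mul_one_div, le_div_iff₀ h1, mul_comm]
  rcases U.eq_empty_or_nonempty with rfl | hU
  · simpa using hB
  · exact (key U _ fun u hu => U.min'_le u hu).trans (h _ (U.min'_mem hU))

lemma geo {α : ℝ} (β : ℝ) (hα : α ≠ 0) (U : Finset ℤ) {B : ℝ} (hB : 0 ≤ B)
    (h : ∀ u ∈ U, tw (α * u + β) ≤ B) : ∑ u ∈ U, tw (α * u + β) ≤ B * cg α := by
  rcases hα.lt_or_gt with hα | hα
  · exact geo_neg β hα U hB h
  have := geo_neg β (neg_neg_of_pos hα) (U.map (Equiv.neg ℤ).toEmbedding) hB (by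
    intro u hu
    obtain ⟨v, hv, rfl⟩ := mem_map.1 hu
    simpa using h v hv)
  simpa [cg] using this

/-- dyadic scale -/
noncomputable def ell (s : ℝ) : ℤ := Int.clog 2 |s|

lemma tw_int (z : ℤ) : tw z = (2:ℝ) ^ z := Real.rpow_intCast 2 z

lemma le_ell (s : ℝ) : |s| ≤ tw (ell s) := by
  rw [tw_int]; exact_mod_cast Int.self_le_zpow_clog (b := 2) one_lt_two |s|

lemma ell_le {s : ℝ} (hs : s ≠ 0) : tw (ell s - 1) ≤ |s| := by
  have := Int.zpow_pred_clog_lt_self (b := 2) one_lt_two (abs_pos.2 hs)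
  rw [show (ell s : ℝ) - 1 = ((ell s - 1 : ℤ) : ℝ) by push_cast; ring, tw_int]
  exact_mod_cast this.le

lemma ell_nonpos {s : ℝ} (hs : |s| ≤ 1) : ell s ≤ 0 := by
  by_cases h : s = 0
  · simp [ell, h]
  · exact (Int.le_zpow_iff_clog_le (b := 2) one_lt_two (abs_pos.2 h)).1 (by simpa using hs)

lemma up_bound {p q : ℝ} (hq : 0 < q) (hqp : q < p) (s : ℝ) (J : Finset ℤ) (u : ℤ) :
    ∑ j ∈ J, tw (-j * p) * |if u < j + ell s then tw j * s else 0| ^ q ≤
      |s| ^ p * (tw ((q - p) * u) * cg (q - p)) := by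
  have hc := cg_pos (sub_neg.2 hqp).ne
  by_cases hs : s = 0
  · simp only [hs, mul_zero, ite_self, abs_zero, Real.zero_rpow hq.ne', sum_const_zero]
    have := tw_pos ((q - p) * u)
    positivity
  have hs' := abs_pos.2 hs
  refine le_trans ?_ (mul_le_mul_of_nonneg_left (geo ((ell s - 1) * (q - p)) (sub_neg.2 hqp).ne
    (J.filter fun j => u < j + ell s) (tw_pos _).le fun j hj => tw_le ?_) (by positivity))
  · rw [sum_filter, mul_sum]
    refine sum_le_sum fun j _ => ?_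
    split_ifs
    · rw [abs_mul, abs_of_pos (tw_pos _), Real.mul_rpow (tw_pos _).le hs'.le, tw_rpow,
        show |s| ^ q = |s| ^ p * |s| ^ (q - p) by rw [← Real.rpow_add hs']; congr 1; ring,
        tw_add, ← tw_rpow (ell s - 1), show (q - p) * j = -j * p + j * q by ring, tw_add]
      have := Real.rpow_le_rpow_of_nonpos (tw_pos _) (ell_le hs) (sub_neg.2 hqp).le
      have h1 := tw_pos (-j * p)
      have h2 := tw_pos (j * q)
      calc _ = |s| ^ p * (tw (-j * p) * tw (j * q) * |s| ^ (q - p)) := by ring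
        _ ≤ _ := by gcongr
    · simp [Real.zero_rpow hq.ne']
  · have : (u:ℝ) + 1 ≤ j + ell s := by exact_mod_cast (mem_filter.1 hj).2
    nlinarith

lemma dn_bound {p q : ℝ} (hq : 0 < q) (hqp : p < q) (s : ℝ) (J : Finset ℤ) (u : ℤ) :
    ∑ j ∈ J, tw (-j * p) * |if u < j + ell s then 0 else tw j * s| ^ q ≤
      |s| ^ p * (tw ((q - p) * u) * cg (q - p)) := by
  have hc := cg_pos (sub_pos.2 hqp).ne'
  by_cases hs : s = 0
  · simp only [hs, mul_zero, ite_self, abs_zero, Real.zero_rpow hq.ne', sum_const_zero]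
    have := tw_pos ((q - p) * u)
    positivity
  have hs' := abs_pos.2 hs
  refine le_trans ?_ (mul_le_mul_of_nonneg_left (geo (ell s * (q - p)) (sub_pos.2 hqp).ne'
    (J.filter fun j => ¬ u < j + ell s) (tw_pos _).le fun j hj => tw_le ?_) (by positivity))
  · rw [sum_filter, mul_sum]
    refine sum_le_sum fun j _ => ?_
    by_cases h : u < j + ell s
    · simp [h, Real.zero_rpow hq.ne']
    · rw [if_neg h, if_pos h, abs_mul, abs_of_pos (tw_pos _), Real.mul_rpow (tw_pos _).le hs'.le, tw_rpow,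
        show |s| ^ q = |s| ^ p * |s| ^ (q - p) by rw [← Real.rpow_add hs']; congr 1; ring,
        tw_add, ← tw_rpow (ell s), show (q - p) * j = -j * p + j * q by ring, tw_add]
      have := Real.rpow_le_rpow hs'.le (le_ell s) (sub_pos.2 hqp).le
      have h1 := tw_pos (-j * p)
      have h2 := tw_pos (j * q)
      calc _ = |s| ^ p * (tw (-j * p) * tw (j * q) * |s| ^ (q - p)) := by ring
        _ ≤ _ := by gcongr
  · have : (j:ℝ) + ell s ≤ u := by exact_mod_cast not_lt.1 (mem_filter.1 hj).2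
    nlinarith

/-- window weight -/
def wt (L : ℕ) (l : ℤ) : ℝ := ((max (L - |l|) 0 : ℤ) : ℝ)

/-- signs -/
def cu (u : ℤ) : ℝ := if u < 0 then 1 else -1

lemma abs_cu (u : ℤ) : |cu u| = 1 := by unfold cu; split_ifs <;> simp

lemma wt_nonneg (L : ℕ) (l : ℤ) : 0 ≤ wt L l := by unfold wt; exact_mod_cast le_max_right _ _

lemma wt_le (L : ℕ) (l : ℤ) : wt L l ≤ L := by
  unfold wt
  have : max ((L:ℤ) - |l|) 0 ≤ L := max_le (by linarith [abs_nonneg l]) (by positivity)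
  exact_mod_cast this

lemma wt_zero {L : ℕ} {l : ℤ} (h : L ≤ |l|) : wt L l = 0 := by
  unfold wt; rw [max_eq_right (by linarith)]; simp

lemma wt_eq (L : ℕ) (l : ℤ) :
    wt L l = ∑ u ∈ Ico (-L : ℤ) L, cu u * if u < l then 1 else 0 := by
  induction L with
  | zero => simp [wt]
  | succ L ih =>
    have : Ico (-(L + 1 : ℕ) : ℤ) (L + 1 : ℕ) = insert (-(L + 1 : ℤ)) (insert (L:ℤ) (Ico (-L : ℤ) L)) := by
      ext u; simp only [mem_Ico, mem_insert]; push_cast; omega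
    rw [this, sum_insert (by simp only [mem_Ico, mem_insert]; omega), sum_insert (by simp), ← ih, cu, cu,
      if_pos (show -(L + 1 : ℤ) < 0 by omega), if_neg (show ¬ (L:ℤ) < 0 by omega), wt, wt]
    have : (max (((L + 1 : ℕ) : ℤ) - |l|) 0 : ℤ) = (if -(L + 1 : ℤ) < l then 1 else 0) +
        (-(if (L:ℤ) < l then 1 else 0) + max (L - |l|) 0) := by
      rcases abs_cases l with h | h <;> rw [h.1] <;> split_ifs <;> push_cast <;> omega
    rw [this]
    push_cast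
    ring

/-- the window constant -/
noncomputable def Gam (p : ℝ) (L : ℕ) : ℝ := ∑ l ∈ Icc (-L : ℤ) L, wt L l ^ p

lemma sum_wt {p : ℝ} (hp : p ≠ 0) (L Λ : ℕ) {l : ℤ} (h1 : -Λ ≤ l) (h2 : l ≤ 0) :
    ∑ j ∈ Icc (-L : ℤ) (L + Λ), wt L (j + l) ^ p = Gam p L := by
  have := sum_map (Icc (-L : ℤ) (L + Λ)) (addRightEmbedding l) fun j => wt L j ^ p
  simp only [addRightEmbedding_apply] at this
  rw [← this, map_add_right_Icc, Gam]
  refine (sum_subset (Icc_subset_Icc (by omega) (by omega)) fun j _ hj => ?_).symm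
  rw [wt_zero, Real.zero_rpow hp]
  simp only [mem_Icc] at hj
  rcases abs_cases j with h | h <;> omega

lemma Gam_ge {p : ℝ} (hp : 0 < p) (L : ℕ) : (L:ℝ) ^ (p + 1) ≤ Gam p (2 * L) := by
  rcases Nat.eq_zero_or_pos L with rfl | hL
  · simp [Gam, wt, Real.zero_rpow hp.ne', Real.zero_rpow (show p + 1 ≠ 0 by linarith)]
  have : (L:ℝ) ^ (p + 1) = ∑ l ∈ Ico (0:ℤ) L, (L:ℝ) ^ p := by
    rw [Real.rpow_add_one (by positivity)]; simp [mul_comm]
  rw [this, Gam]
  refine (sum_le_sum fun l hl => ?_).trans (sum_le_sum_of_subset_of_nonneg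
    (fun l hl => by simp only [mem_Ico, mem_Icc] at hl ⊢; push_cast; omega)
    fun l _ _ => Real.rpow_nonneg (wt_nonneg _ _) _)
  refine Real.rpow_le_rpow (by positivity) ?_ hp.le
  simp only [mem_Ico] at hl
  have : (L:ℤ) ≤ max (((2 * L : ℕ) : ℤ) - |l|) 0 := by
    rw [abs_of_nonneg hl.1]; push_cast; omega
  unfold wt
  exact_mod_cast this

lemma cs_part (U : Finset ℤ) (E : ℤ → ℝ) (a : ℝ) :
    (∑ u ∈ U, |E u|) ^ 2 ≤ (∑ u ∈ U, E u ^ 2 * tw (a * u)) * ∑ u ∈ U, tw (-a * u + 0) := by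
  refine sum_sq_le_sum_mul_sum_of_sq_le_mul U (fun u _ => by have := tw_pos (a * u); positivity)
    (fun u _ => (tw_pos _).le) fun u _ => ?_
  rw [sq_abs, mul_assoc, ← tw_add]
  simp [tw_zero]

lemma pt_gt {p : ℝ} (hp : 2 < p) {U : Finset ℤ} {E : ℤ → ℝ} {F M : ℝ} (hF : 0 ≤ F)
    (hFE : F ≤ ∑ u ∈ U, |E u|) (hM : 0 < M) (hE : ∀ u ∈ U, |E u| ≤ M * tw u) :
    F ^ p ≤ 4 * cg (2 - p) * 4 ^ (p - 2) * M ^ (p - 2) * ∑ u ∈ U, E u ^ 2 * tw ((p - 2) * u) := by
  have hc := cg_pos (show 2 - p ≠ 0 by linarith)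
  have hS : ∀ U : Finset ℤ, 0 ≤ ∑ u ∈ U, E u ^ 2 * tw ((p - 2) * u) := fun U =>
    sum_nonneg fun u _ => mul_nonneg (sq_nonneg _) (tw_pos _).le
  rcases hF.eq_or_lt with rfl | hF
  · rw [Real.zero_rpow (by linarith)]
    have := hS U
    positivity
  set R := F / (4 * M) with hR
  have hR0 : 0 < R := by positivity
  rw [← sum_filter_add_sum_filter_not U (fun u : ℤ => tw u ≤ R)] at hFE
  have a : ∑ u ∈ U.filter (fun u : ℤ => tw u ≤ R), |E u| ≤ F / 2 := by
    refine (sum_le_sum fun u hu => hE u (mem_filter.1 hu).1).trans ?_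
    have := geo 0 one_ne_zero (U.filter fun u : ℤ => tw u ≤ R) hR0.le
      fun u hu => by simpa using (mem_filter.1 hu).2
    simp only [one_mul, add_zero, cg_one] at this
    rw [← mul_sum]
    refine (mul_le_mul_of_nonneg_left this hM.le).trans (le_of_eq ?_)
    rw [hR]; field_simp; ring
  have b := cs_part (U.filter fun u : ℤ => ¬ tw u ≤ R) E (p - 2)
  rw [neg_sub] at b
  have c := geo 0 (show 2 - p ≠ 0 by linarith) (U.filter fun u : ℤ => ¬ tw u ≤ R)
    (Real.rpow_pos_of_pos hR0 (2 - p)).le fun u hu => by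
      rw [add_zero, mul_comm, ← tw_rpow]
      exact Real.rpow_le_rpow_of_nonpos hR0 (not_le.1 (mem_filter.1 hu).2).le (by linarith)
  have e : ∑ u ∈ U.filter (fun u : ℤ => ¬ tw u ≤ R), E u ^ 2 * tw ((p - 2) * u) ≤ ∑ u ∈ U, E u ^ 2 * tw ((p - 2) * u) :=
    sum_le_sum_of_subset_of_nonneg (filter_subset _ _) fun u _ _ => mul_nonneg (sq_nonneg _) (tw_pos _).le
  have f : (F / 2) ^ 2 ≤ (∑ u ∈ U, E u ^ 2 * tw ((p - 2) * u)) * (R ^ (2 - p) * cg (2 - p)) :=
    (pow_le_pow_left₀ (by positivity) (by linarith) 2).trans (b.trans (mul_le_mul e c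
      (sum_nonneg fun _ _ => (tw_pos _).le) (hS U)))
  have g : F ^ p = F ^ 2 * F ^ (p - 2) := by
    rw [← Real.rpow_natCast, ← Real.rpow_add hF]; congr 1; push_cast; ring
  have g2 : F ^ (p - 2) * R ^ (2 - p) = 4 ^ (p - 2) * M ^ (p - 2) := by
    rw [← Real.mul_rpow (by norm_num) hM.le, show 2 - p = -(p - 2) by ring, Real.rpow_neg hR0.le,
      ← div_eq_mul_inv, ← Real.div_rpow hF.le hR0.le]
    congr 1
    rw [hR]; field_simp
  have := mul_le_mul_of_nonneg_left f (Real.rpow_pos_of_pos hF (p - 2)).le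
  rw [g]
  calc _ = 4 * (F ^ (p - 2) * (F / 2) ^ 2) := by ring
    _ ≤ 4 * (F ^ (p - 2) * ((∑ u ∈ U, E u ^ 2 * tw ((p - 2) * u)) * (R ^ (2 - p) * cg (2 - p)))) := by
      linarith
    _ = 4 * cg (2 - p) * (F ^ (p - 2) * R ^ (2 - p)) * ∑ u ∈ U, E u ^ 2 * tw ((p - 2) * u) := by ring
    _ = _ := by rw [g2]; ring

lemma pt_lt {p : ℝ} (hp1 : 1 < p) (hp : p < 2) {U : Finset ℤ} {E : ℤ → ℝ} {F T : ℝ} (hF : 0 ≤ F)
    (hFE : F ≤ ∑ u ∈ U, |E u|) (hT : 0 < T) :
    F ^ p ≤ 2 * T ^ (p - 1) * ∑ u ∈ U, |E u| * tw ((p - 1) * u) +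
      4 * cg (2 - p) * T ^ (p - 2) * ∑ u ∈ U, E u ^ 2 * tw ((p - 2) * u) := by
  have hc := cg_pos (show 2 - p ≠ 0 by linarith)
  have hS : 0 ≤ ∑ u ∈ U, E u ^ 2 * tw ((p - 2) * u) :=
    sum_nonneg fun u _ => mul_nonneg (sq_nonneg _) (tw_pos _).le
  have hS1 : 0 ≤ ∑ u ∈ U, |E u| * tw ((p - 1) * u) :=
    sum_nonneg fun u _ => mul_nonneg (abs_nonneg _) (tw_pos _).le
  rcases hF.eq_or_lt with rfl | hF
  · rw [Real.zero_rpow (by linarith)]
    positivity
  set R := F / T with hR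
  have hR0 : 0 < R := by positivity
  have hFR : ∀ a : ℝ, F ^ a * R ^ (-a) = T ^ a := fun a => by
    rw [Real.rpow_neg hR0.le, ← div_eq_mul_inv, ← Real.div_rpow hF.le hR0.le]
    congr 1
    rw [hR]; field_simp
  rw [← sum_filter_add_sum_filter_not U (fun u : ℤ => tw u ≤ R)] at hFE
  by_cases h : F / 2 ≤ ∑ u ∈ U.filter (fun u : ℤ => tw u ≤ R), |E u|
  · have b := cs_part (U.filter fun u : ℤ => tw u ≤ R) E (p - 2)
    rw [neg_sub] at b
    have c := geo 0 (show 2 - p ≠ 0 by linarith) (U.filter fun u : ℤ => tw u ≤ R)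
      (Real.rpow_pos_of_pos hR0 (2 - p)).le fun u hu => by
        rw [add_zero, mul_comm, ← tw_rpow]
        exact Real.rpow_le_rpow (tw_pos _).le (mem_filter.1 hu).2 (by linarith)
    have e : ∑ u ∈ U.filter (fun u : ℤ => tw u ≤ R), E u ^ 2 * tw ((p - 2) * u) ≤ ∑ u ∈ U, E u ^ 2 * tw ((p - 2) * u) :=
      sum_le_sum_of_subset_of_nonneg (filter_subset _ _) fun u _ _ => mul_nonneg (sq_nonneg _) (tw_pos _).le
    have f : (F / 2) ^ 2 ≤ (∑ u ∈ U, E u ^ 2 * tw ((p - 2) * u)) * (R ^ (2 - p) * cg (2 - p)) :=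
      (pow_le_pow_left₀ (by positivity) h 2).trans (b.trans (mul_le_mul e c
        (sum_nonneg fun _ _ => (tw_pos _).le) hS))
    have g : F ^ p = F ^ 2 * F ^ (p - 2) := by
      rw [← Real.rpow_natCast, ← Real.rpow_add hF]; congr 1; push_cast; ring
    have g2 := hFR (p - 2)
    rw [neg_sub] at g2
    have := mul_le_mul_of_nonneg_left f (Real.rpow_pos_of_pos hF (p - 2)).le
    rw [g]
    refine le_add_of_nonneg_of_le (by positivity) ?_
    calc _ = 4 * (F ^ (p - 2) * (F / 2) ^ 2) := by ring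
      _ ≤ 4 * (F ^ (p - 2) * ((∑ u ∈ U, E u ^ 2 * tw ((p - 2) * u)) * (R ^ (2 - p) * cg (2 - p)))) := by
        linarith
      _ = 4 * cg (2 - p) * (F ^ (p - 2) * R ^ (2 - p)) * ∑ u ∈ U, E u ^ 2 * tw ((p - 2) * u) := by ring
      _ = _ := by rw [g2]
  · have b : ∑ u ∈ U.filter (fun u : ℤ => ¬ tw u ≤ R), |E u| ≤ (∑ u ∈ U, |E u| * tw ((p - 1) * u)) * R ^ (-(p - 1)) := by
      rw [sum_mul]
      refine (sum_le_sum fun u hu => ?_).trans (sum_le_sum_of_subset_of_nonneg (filter_subset _ _)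
        fun u _ _ => by have := tw_pos ((p - 1) * u); positivity)
      rw [mul_assoc]
      refine le_mul_of_one_le_right (abs_nonneg _) ?_
      rw [mul_comm (p - 1), ← tw_rpow, Real.rpow_neg hR0.le, ← div_eq_mul_inv,
        one_le_div (Real.rpow_pos_of_pos hR0 _)]
      exact Real.rpow_le_rpow hR0.le (not_le.1 (mem_filter.1 hu).2).le (by linarith)
    have g : F ^ p = F * F ^ (p - 1) := by
      rw [Real.rpow_sub_one hF.ne']; field_simp
    have := mul_le_mul_of_nonneg_left (show F / 2 ≤ _ from le_trans (by linarith) b)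
      (Real.rpow_pos_of_pos hF (p - 1)).le
    rw [g]
    refine le_add_of_le_of_nonneg ?_ (by positivity)
    rw [← hFR (p - 1)]
    linarith

/-- weighted `ℓ^p` norm -/
noncomputable def nrm {ι : Type*} (p : ℝ) (S : Finset ι) (ν g : ι → ℝ) : ℝ :=
  (∑ i ∈ S, ν i * |g i| ^ p) ^ (1 / p)

section nrm
variable {ι : Type*} {p : ℝ} {S : Finset ι} {ν : ι → ℝ} (hν : ∀ i, 0 ≤ ν i)
include hν

lemma nsum_nonneg (g : ι → ℝ) : 0 ≤ ∑ i ∈ S, ν i * |g i| ^ p :=
  sum_nonneg fun i _ => mul_nonneg (hν i) (by positivity)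

lemma nrm_nonneg (g : ι → ℝ) : 0 ≤ nrm p S ν g := Real.rpow_nonneg (nsum_nonneg hν g) _

lemma nrm_rpow (hp : p ≠ 0) (g : ι → ℝ) : nrm p S ν g ^ p = ∑ i ∈ S, ν i * |g i| ^ p := by
  rw [nrm, one_div, Real.rpow_inv_rpow (nsum_nonneg hν g) hp]

lemma nrm_add (hp : 1 ≤ p) (f g : ι → ℝ) :
    nrm p S ν (fun i => f i + g i) ≤ nrm p S ν f + nrm p S ν g := by
  have e : ∀ g : ι → ℝ, nrm p S ν g = (∑ i ∈ S, |ν i ^ (1 / p) * g i| ^ p) ^ (1 / p) := fun g => by
    unfold nrm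
    congr 1
    refine sum_congr rfl fun i _ => ?_
    have := hν i
    rw [abs_mul, Real.mul_rpow (abs_nonneg _) (abs_nonneg _), abs_of_nonneg (Real.rpow_nonneg this _),
      one_div, Real.rpow_inv_rpow this (by linarith)]
  simp only [e, mul_add]
  exact Real.Lp_add_le S _ _ hp

lemma nrm_smul (hp : p ≠ 0) (c : ℝ) (g : ι → ℝ) :
    nrm p S ν (fun i => c * g i) = |c| * nrm p S ν g := by
  simp only [nrm, abs_mul, Real.mul_rpow (abs_nonneg _) (abs_nonneg _), mul_left_comm _ (|c| ^ p), ← mul_sum]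
  rw [Real.mul_rpow (by positivity) (nsum_nonneg hν g), one_div, Real.rpow_rpow_inv (abs_nonneg c) hp]

end nrm

lemma rpow_mul_le {x y a b : ℝ} (hx : 0 ≤ x) (hy : 0 ≤ y) (ha : 0 ≤ a) (hb : 0 ≤ b) (hab : a + b ≤ 1) :
    x ^ a * y ^ b ≤ x + y + 1 := by
  have h1 : (1:ℝ) ≤ x + y + 1 := by linarith
  calc _ ≤ (x + y + 1) ^ a * (x + y + 1) ^ b := by gcongr <;> linarith
    _ = (x + y + 1) ^ (a + b) := (Real.rpow_add (by linarith) _ _).symm
    _ ≤ (x + y + 1) ^ (1:ℝ) := Real.rpow_le_rpow_of_exponent_le h1 hab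
    _ = _ := Real.rpow_one _

end Crest.Agent.H7.Lp
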