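import Mathlib
import Crest.Agent.H7.LpGeo

set_option autoImplicit false

open Finset

namespace Crest.Agent.H7.Lp

lemma avg_bound {E : Type*} [Fintype E] {w x A B : E → ℝ} {p a Z : ℝ} (hw : ∀ e, 0 < w e)
    (hw1 : ∑ e, w e = 1) (hx : ∀ e, 0 ≤ x e) (hA : ∀ e, 0 ≤ A e) (hB : ∀ e, 0 ≤ B e)
    (hA1 : ∑ e, w e * A e ≤ 1) (hB1 : ∑ e, w e * B e ≤ 1) (hZ : 0 ≤ Z) (ha : 0 ≤ a) (hp : a + 1 ≤ p)
    (h : ∀ e, x e ^ p ≤ Z * (A e ^ a * B e)) : ∑ e, w e * x e ≤ 3 * Z ^ (1 / p) := by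
  have hp0 : 0 < p := by linarith
  have key : ∀ e, x e ≤ Z ^ (1 / p) * (A e + B e + 1) := fun e => by
    have h1 := Real.rpow_le_rpow (Real.rpow_nonneg (hx e) p) (h e) (one_div_pos.2 hp0).le
    have := hA e
    have := hB e
    rw [one_div, Real.rpow_rpow_inv (hx e) hp0.ne', Real.mul_rpow hZ (by positivity),
      Real.mul_rpow (by positivity) (hB e), ← Real.rpow_mul (hA e), ← one_div] at h1
    refine h1.trans (mul_le_mul_of_nonneg_left (rpow_mul_le (hA e) (hB e) (by positivity)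
      (by positivity) ?_) (by positivity))
    rw [mul_one_div, ← add_div, div_le_one hp0]
    exact hp
  refine (sum_le_sum fun e _ => mul_le_mul_of_nonneg_left (key e) (hw e).le).trans ?_
  simp only [mul_left_comm _ (Z ^ (1 / p)), ← mul_sum]
  simp only [mul_add, sum_add_distrib, mul_one, hw1]
  have : 0 ≤ Z ^ (1 / p) := by positivity
  nlinarith

variable {X : Type*} [Fintype X] [DecidableEq X] {Ω : Type*} [Fintype Ω]

/-- the window field -/
noncomputable def VV (d : X → X → ℝ) (φ : Ω → X → ℝ) (L : ℕ) (i : ℤ × Ω) (e : X × X) : ℝ :=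
  tw i.1 * gr d (φ i.2) e * wt L (i.1 + ell (gr d (φ i.2) e))

/-- index set -/
noncomputable def SS (Ω : Type*) [Fintype Ω] (L Λ : ℕ) : Finset (ℤ × Ω) := Icc (-L : ℤ) (L + Λ) ×ˢ univ

/-- weights -/
noncomputable def nu (p : ℝ) (i : ℤ × Ω) : ℝ := tw (-i.1 * p)

omit [Fintype Ω] in
lemma nu_nonneg (p : ℝ) (i : ℤ × Ω) : 0 ≤ nu p i := (tw_pos _).le

omit [Fintype X] [DecidableEq X] in
lemma VV_sum {p : ℝ} (hp : 0 < p) (d : X → X → ℝ) (φ : Ω → X → ℝ) (L Λ : ℕ) (e : X × X)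
    (h1 : ∑ ω, |gr d (φ ω) e| ^ p = 1) (hΛ : ∀ ω, -(Λ:ℤ) ≤ ell (gr d (φ ω) e)) :
    ∑ i ∈ SS Ω L Λ, nu p i * |VV d φ L i e| ^ p = Gam p L := by
  rw [SS, sum_product, sum_comm, ← one_mul (Gam p L), ← h1, sum_mul]
  refine sum_congr rfl fun ω _ => ?_
  have hs : |gr d (φ ω) e| ≤ 1 := by
    have := single_le_sum (f := fun ω => |gr d (φ ω) e| ^ p) (fun ω _ => by positivity) (mem_univ ω)
    rw [h1] at this
    by_contra hc
    exact absurd (Real.one_lt_rpow (not_le.1 hc) hp) (not_lt.2 this)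
  rw [← sum_wt hp.ne' L Λ (hΛ ω) (ell_nonpos hs), mul_sum]
  refine sum_congr rfl fun j _ => ?_
  simp only [nu, VV, abs_mul, abs_of_pos (tw_pos _), abs_of_nonneg (wt_nonneg _ _)]
  rw [Real.mul_rpow (mul_nonneg (tw_pos _).le (abs_nonneg _)) (wt_nonneg _ _),
    Real.mul_rpow (tw_pos _).le (abs_nonneg _), tw_rpow, ← mul_assoc, ← mul_assoc, ← tw_add]
  simp [tw_zero]

set_option maxHeartbeats 2000000 in
lemma core {p : ℝ} (hp1 : 1 < p) (hp2 : p ≠ 2) : ∃ C : ℝ, 0 < C ∧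
    ∀ (X : Type) [Fintype X] [DecidableEq X] (Ω : Type) [Fintype Ω] (d : X → X → ℝ) (φ : Ω → X → ℝ),
      (∀ e, ∑ ω, |gr d (φ ω) e| ^ p ≤ 1) → ∀ (L Λ : ℕ), 0 < L → ∀ K : ℝ,
      1 + 8 * Real.log (Fintype.card X) ≤ K →
      ∀ w : X × X → ℝ, (∀ e, 0 < w e) → ∑ e, w e = 1 → ∃ h : ℤ × Ω → X → ℝ,
        ∑ e, w e * nrm p (SS Ω L Λ) (nu p) (fun i => VV d φ L i e - gr d (h i) e) ≤
          3 * (C * K ^ |p - 2| * L) ^ (1 / p) ∧
        ∑ e, w e * ‖fun i : SS Ω L Λ => gr d (h i) e‖ ≤ K * (L * tw L) ∧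
        ∑ e, w e * ∑ i ∈ SS Ω L Λ, nu p i * |gr d (h i) e| ≤ K * (L * (tw ((p - 1) * L) * cg (1 - p))) := by
  have c1 := cg_pos (show 1 - p ≠ 0 by linarith)
  have c2 := cg_pos (show 2 - p ≠ 0 from fun h => hp2 (by linarith))
  refine ⟨8 * cg (2 - p) ^ 2 * 4 ^ |p - 2| + 4 * cg (1 - p), by positivity, ?_⟩
  intro X _ _ Ω _ d φ hs L Λ hL K hK w hw hw1
  obtain ⟨ψ, hb, hc, hd⟩ := localise d hw hw1
  have hL' : (0:ℝ) < L := by exact_mod_cast hL
  have hK1 : 1 ≤ K := by linarith [Real.log_natCast_nonneg (Fintype.card X)]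
  obtain ⟨κ, hκ⟩ : ∃ κ : X × X → ℝ, ∀ e, κ e = ∑ f, |gr d (ψ f) e| := ⟨_, fun _ => rfl⟩
  have κ0 : ∀ e, 0 ≤ κ e := fun e => by rw [hκ]; positivity
  have κ1 : ∑ e, w e * (1 + κ e) ≤ K := by
    simp only [mul_add, sum_add_distrib, mul_one, hw1, hκ]; linarith
  have κ2 : ∑ e, w e * κ e ≤ K := by simp only [hκ]; linarith
  obtain ⟨Pr, hPr⟩ : ∃ Pr : (X × X → ℝ) → X × X → ℝ, ∀ U e, Pr U e = ∑ f, U f * gr d (ψ f) e :=
    ⟨_, fun _ _ => rfl⟩
  simp only [← hPr] at hb hc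
  have Prsup : ∀ (U : X × X → ℝ) (B : ℝ) e, (∀ f, |U f| ≤ B) → |Pr U e| ≤ κ e * B := fun U B e h => by
    rw [hPr, hκ, sum_mul]
    refine (abs_sum_le_sum_abs _ _).trans (sum_le_sum fun f _ => ?_)
    rw [abs_mul, mul_comm]
    exact mul_le_mul_of_nonneg_left (h f) (abs_nonneg _)
  have Pr1 : ∀ (U : ℤ × Ω → X × X → ℝ) (B : ℝ) e, (∀ f, ∑ i ∈ SS Ω L Λ, nu p i * |U i f| ≤ B) →
      ∑ i ∈ SS Ω L Λ, nu p i * |Pr (U i) e| ≤ κ e * B := fun U B e h => by
    calc _ ≤ ∑ i ∈ SS Ω L Λ, ∑ f, |gr d (ψ f) e| * (nu p i * |U i f|) := sum_le_sum fun i _ => by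
          rw [hPr]
          refine (mul_le_mul_of_nonneg_left (abs_sum_le_sum_abs _ _) (nu_nonneg p i)).trans (le_of_eq ?_)
          rw [mul_sum]
          exact sum_congr rfl fun f _ => by rw [abs_mul]; ring
      _ ≤ _ := by
          rw [sum_comm, hκ, sum_mul]
          exact sum_le_sum fun f _ => by
            rw [← mul_sum]; exact mul_le_mul_of_nonneg_left (h f) (abs_nonneg _)
  obtain ⟨up, hup⟩ : ∃ up : ℤ → ℤ × Ω → X × X → ℝ, ∀ u i e, up u i e =
    if u < i.1 + ell (gr d (φ i.2) e) then tw i.1 * gr d (φ i.2) e else 0 := ⟨_, fun _ _ _ => rfl⟩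
  obtain ⟨dn, hdn⟩ : ∃ dn : ℤ → ℤ × Ω → X × X → ℝ, ∀ u i e, dn u i e =
    if u < i.1 + ell (gr d (φ i.2) e) then 0 else tw i.1 * gr d (φ i.2) e := ⟨_, fun _ _ _ => rfl⟩
  have upb : ∀ q : ℝ, 0 < q → q < p → ∀ (u : ℤ) e, ∑ i ∈ SS Ω L Λ, nu p i * |up u i e| ^ q ≤
      tw ((q - p) * u) * cg (q - p) := fun q h0 h1 u e => by
    simp only [SS, sum_product, hup, nu]
    rw [sum_comm]
    refine (sum_le_sum fun ω _ => up_bound h0 h1 _ _ u).trans ?_
    rw [← sum_mul]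
    exact mul_le_of_le_one_left (mul_nonneg (tw_pos _).le (cg_pos (by linarith)).le) (hs e)
  have dnb : ∀ q : ℝ, 0 < q → p < q → ∀ (u : ℤ) e, ∑ i ∈ SS Ω L Λ, nu p i * |dn u i e| ^ q ≤
      tw ((q - p) * u) * cg (q - p) := fun q h0 h1 u e => by
    simp only [SS, sum_product, hdn, nu]
    rw [sum_comm]
    refine (sum_le_sum fun ω _ => dn_bound h0 h1 _ _ u).trans ?_
    rw [← sum_mul]
    exact mul_le_of_le_one_left (mul_nonneg (tw_pos _).le (cg_pos (by linarith)).le) (hs e)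
  have up1 : ∀ (u : ℤ) e, ∑ i ∈ SS Ω L Λ, nu p i * |up u i e| ≤ tw ((1 - p) * u) * cg (1 - p) :=
    fun u e => by simpa only [Real.rpow_one] using upb 1 one_pos hp1 u e
  have dnsup : ∀ (u : ℤ) i e, |dn u i e| ≤ tw u := fun u i e => by
    rw [hdn]
    split_ifs with h
    · simpa using (tw_pos _).le
    · rw [abs_mul, abs_of_pos (tw_pos _)]
      refine (mul_le_mul_of_nonneg_left (le_ell _) (tw_pos _).le).trans ?_
      rw [← tw_add]
      exact tw_le (by exact_mod_cast not_lt.1 h)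
  obtain ⟨Er, hEr⟩ : ∃ Er : ℤ → ℤ × Ω → X × X → ℝ, ∀ u i e, Er u i e = up u i e - Pr (up u i) e :=
    ⟨_, fun _ _ _ => rfl⟩
  have hEr' : ∀ u i e, Er u i e = -(dn u i e - Pr (dn u i) e) := fun u i e => by
    have e1 : ∀ f, up u i f + dn u i f = tw i.1 * gr d (φ i.2) f := fun f => by
      rw [hup, hdn]; split_ifs <;> simp
    have e2 : Pr (up u i) e + Pr (dn u i) e = tw i.1 * Pr (gr d (φ i.2)) e := by
      simp only [hPr, ← sum_add_distrib, ← add_mul, e1, mul_sum, mul_assoc]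
    rw [hb, ← e1] at e2
    rw [hEr]; linarith
  have hV : ∀ i e, VV d φ L i e = ∑ u ∈ Ico (-L : ℤ) L, cu u * up u i e := fun i e => by
    rw [VV, wt_eq, mul_sum]
    exact sum_congr rfl fun u _ => by rw [hup]; split_ifs <;> ring
  have hF : ∀ i e, |VV d φ L i e - Pr (VV d φ L i) e| ≤ ∑ u ∈ Ico (-L : ℤ) L, |Er u i e| := fun i e => by
    have : VV d φ L i e - Pr (VV d φ L i) e = ∑ u ∈ Ico (-L : ℤ) L, cu u * Er u i e := by
      simp only [hEr, mul_sub, sum_sub_distrib, ← hV, hPr]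
      simp only [hV, sum_mul, mul_sum, mul_assoc]
      rw [sum_comm]
    rw [this]
    exact (abs_sum_le_sum_abs _ _).trans (sum_le_sum fun u _ => by rw [abs_mul, abs_cu, one_mul])
  have B2 : ∀ u : ℤ, ∑ e, w e * ∑ i ∈ SS Ω L Λ, nu p i * Er u i e ^ 2 ≤ tw ((2 - p) * u) * cg (2 - p) := by
    intro u
    have key : ∀ U : ℤ × Ω → X × X → ℝ, (∀ i e, Er u i e ^ 2 = (U i e - Pr (U i) e) ^ 2) →
        (∀ e, ∑ i ∈ SS Ω L Λ, nu p i * |U i e| ^ (2:ℝ) ≤ tw ((2 - p) * u) * cg (2 - p)) →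
        ∑ e, w e * ∑ i ∈ SS Ω L Λ, nu p i * Er u i e ^ 2 ≤ tw ((2 - p) * u) * cg (2 - p) := by
      intro U h1 h2
      simp only [Real.rpow_two, sq_abs] at h2
      calc _ = ∑ i ∈ SS Ω L Λ, nu p i * ∑ e, w e * (U i e - Pr (U i) e) ^ 2 := by
            simp only [mul_sum, h1]
            rw [sum_comm]
            exact sum_congr rfl fun _ _ => sum_congr rfl fun _ _ => by ring
        _ ≤ ∑ i ∈ SS Ω L Λ, nu p i * ∑ e, w e * U i e ^ 2 :=
            sum_le_sum fun i _ => mul_le_mul_of_nonneg_left (hc _) (nu_nonneg p i)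
        _ = ∑ e, w e * ∑ i ∈ SS Ω L Λ, nu p i * U i e ^ 2 := by
            simp only [mul_sum]
            rw [sum_comm]
            exact sum_congr rfl fun _ _ => sum_congr rfl fun _ _ => by ring
        _ ≤ ∑ e, w e * (tw ((2 - p) * u) * cg (2 - p)) :=
            sum_le_sum fun e _ => mul_le_mul_of_nonneg_left (h2 e) (hw e).le
        _ = _ := by rw [← sum_mul, hw1, one_mul]
    rcases hp2.lt_or_gt with h | h
    · exact key (dn u) (fun i e => by rw [hEr', neg_sq]) (dnb 2 two_pos h u)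
    · exact key (up u) (fun i e => by rw [hEr]) (upb 2 two_pos h u)
  have hcard : ((Ico (-L : ℤ) L).card : ℝ) = 2 * L := by
    rw [Int.card_Ico, show (L:ℤ) - -L = (2 * L : ℕ) by push_cast; ring, Int.toNat_natCast]; push_cast; ring
  obtain ⟨S2, hS2⟩ : ∃ S2 : X × X → ℝ, ∀ e, S2 e = ∑ i ∈ SS Ω L Λ, nu p i *
    ∑ u ∈ Ico (-L : ℤ) L, Er u i e ^ 2 * tw ((p - 2) * u) := ⟨_, fun _ => rfl⟩
  have S20 : ∀ e, 0 ≤ S2 e := fun e => by
    rw [hS2]
    exact sum_nonneg fun i _ => mul_nonneg (nu_nonneg p i)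
      (sum_nonneg fun u _ => mul_nonneg (sq_nonneg _) (tw_pos _).le)
  have S2b : ∑ e, w e * S2 e ≤ 2 * L * cg (2 - p) := by
    calc _ = ∑ u ∈ Ico (-L : ℤ) L, tw ((p - 2) * u) * ∑ e, w e * ∑ i ∈ SS Ω L Λ, nu p i * Er u i e ^ 2 := by
          simp only [hS2, mul_sum]
          rw [sum_congr rfl fun e _ => sum_comm, sum_comm]
          exact sum_congr rfl fun _ _ => sum_congr rfl fun _ _ => sum_congr rfl fun _ _ => by ring
      _ ≤ ∑ u ∈ Ico (-L : ℤ) L, cg (2 - p) := sum_le_sum fun u _ => by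
          refine (mul_le_mul_of_nonneg_left (B2 u) (tw_pos _).le).trans (le_of_eq ?_)
          rw [← mul_assoc, ← tw_add, show (p - 2) * u + (2 - p) * u = 0 by ring, tw_zero, one_mul]
      _ = _ := by rw [sum_const, nsmul_eq_mul, hcard]
  have hgr : ∀ i e, gr d (fun x => ∑ f, VV d φ L i f * ψ f x) e = Pr (VV d φ L i) e := fun i e => by
    rw [gr_sum, hPr]
  refine ⟨fun i x => ∑ f, VV d φ L i f * ψ f x, ?_, ?_, ?_⟩
  · simp only [hgr]
    have hKp : 0 < K ^ |p - 2| := by positivity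
    rcases hp2.lt_or_gt with h | h
    · have S1b : ∀ e, ∑ i ∈ SS Ω L Λ, nu p i * ∑ u ∈ Ico (-L : ℤ) L, |Er u i e| * tw ((p - 1) * u) ≤
          (1 + κ e) * (2 * L * cg (1 - p)) := fun e => by
        calc _ = ∑ u ∈ Ico (-L : ℤ) L, tw ((p - 1) * u) * ∑ i ∈ SS Ω L Λ, nu p i * |Er u i e| := by
              simp only [mul_sum]
              rw [sum_comm]
              exact sum_congr rfl fun _ _ => sum_congr rfl fun _ _ => by ring
          _ ≤ ∑ u ∈ Ico (-L : ℤ) L, (1 + κ e) * cg (1 - p) := sum_le_sum fun u _ => by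
              have a : ∑ i ∈ SS Ω L Λ, nu p i * |Er u i e| ≤ (1 + κ e) * (tw ((1 - p) * u) * cg (1 - p)) := by
                rw [add_mul, one_mul]
                refine le_trans ?_ (add_le_add (up1 u e) (Pr1 (up u) _ e (up1 u)))
                rw [← sum_add_distrib]
                refine sum_le_sum fun i _ => ?_
                rw [← mul_add, hEr]
                exact mul_le_mul_of_nonneg_left (abs_sub _ _) (nu_nonneg p i)
              refine (mul_le_mul_of_nonneg_left a (tw_pos _).le).trans (le_of_eq ?_)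
              rw [mul_left_comm, ← mul_assoc (tw _), ← tw_add, show (p - 1) * u + (1 - p) * u = 0 by ring,
                tw_zero, one_mul]
          _ = _ := by rw [sum_const, nsmul_eq_mul, hcard]; ring
      set Z := (8 * cg (2 - p) ^ 2 * 4 ^ |p - 2| + 4 * cg (1 - p)) * K ^ |p - 2| * L with hZ
      have Z0 : 0 < Z := by positivity
      have hT1 : K⁻¹ ^ (p - 1) * K = K ^ |p - 2| := by
        rw [Real.inv_rpow (by linarith), ← Real.rpow_neg (by linarith), ← Real.rpow_add_one (by linarith),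
          abs_of_neg (by linarith)]
        congr 1; ring
      have hT2 : K⁻¹ ^ (p - 2) = K ^ |p - 2| := by
        rw [Real.inv_rpow (by linarith), ← Real.rpow_neg (by linarith), abs_of_neg (by linarith)]
      have hT0 : 0 < K⁻¹ ^ (p - 1) := by positivity
      refine avg_bound (A := fun _ => 0) (a := 0) (B := fun e => (2 * K⁻¹ ^ (p - 1) * ((1 + κ e) *
        (2 * L * cg (1 - p))) + 4 * cg (2 - p) * K ^ |p - 2| * S2 e) / Z) hw hw1
        (fun e => nrm_nonneg (nu_nonneg p) _) (fun _ => le_rfl)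
        (fun e => by have := κ0 e; have := S20 e; positivity) (by simp) ?_ Z0.le le_rfl (by linarith)
        fun e => ?_
      · simp only [← mul_div_assoc, ← sum_div]
        rw [div_le_one Z0]
        have e1 : ∑ e, w e * (2 * K⁻¹ ^ (p - 1) * ((1 + κ e) * (2 * L * cg (1 - p))) +
            4 * cg (2 - p) * K ^ |p - 2| * S2 e) = 4 * L * cg (1 - p) * K⁻¹ ^ (p - 1) * ∑ e, w e * (1 + κ e) +
            4 * cg (2 - p) * K ^ |p - 2| * ∑ e, w e * S2 e := by
          simp only [mul_sum, ← sum_add_distrib]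
          exact sum_congr rfl fun _ _ => by ring
        have e2 : (1:ℝ) ≤ 4 ^ |p - 2| := Real.one_le_rpow (by norm_num) (abs_nonneg _)
        rw [e1, hZ]
        calc _ ≤ 4 * L * cg (1 - p) * K⁻¹ ^ (p - 1) * K + 4 * cg (2 - p) * K ^ |p - 2| * (2 * L * cg (2 - p)) := by
              gcongr
          _ = (8 * cg (2 - p) ^ 2 * 1 + 4 * cg (1 - p)) * K ^ |p - 2| * L := by rw [← hT1]; ring
          _ ≤ _ := by gcongr
      · rw [nrm_rpow (nu_nonneg p) (by linarith), Real.rpow_zero, one_mul, mul_div_cancel₀ _ Z0.ne']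
        refine (sum_le_sum fun i _ => mul_le_mul_of_nonneg_left
          (pt_lt hp1 h (abs_nonneg _) (hF i e) (show 0 < K⁻¹ by positivity)) (nu_nonneg p i)).trans ?_
        simp only [mul_add, sum_add_distrib, mul_left_comm (nu p _), ← mul_sum, ← hS2, hT2]
        have := S1b e
        gcongr
    · have e0 : |p - 2| = p - 2 := abs_of_pos (by linarith)
      rw [e0] at hKp ⊢
      refine (avg_bound (p := p) (A := fun e => (1 + κ e) / K) (a := p - 2) (B := fun e => S2 e / (2 * L * cg (2 - p)))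
        (Z := 8 * cg (2 - p) ^ 2 * 4 ^ (p - 2) * K ^ (p - 2) * L) hw hw1
        (fun e => nrm_nonneg (nu_nonneg p) _) (fun e => by have := κ0 e; positivity)
        (fun e => by have := S20 e; positivity) ?_ ?_ (by positivity) (by linarith) (by linarith)
        fun e => ?_).trans ?_
      · simp only [← mul_div_assoc, ← sum_div]
        rwa [div_le_one (by linarith)]
      · simp only [← mul_div_assoc, ← sum_div]
        rwa [div_le_one (by positivity)]
      · have := κ0 e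
        rw [nrm_rpow (nu_nonneg p) (by linarith)]
        refine (sum_le_sum fun i _ => mul_le_mul_of_nonneg_left
          (pt_gt h (abs_nonneg _) (hF i e) (show 0 < 1 + κ e by linarith) fun u _ => ?_)
            (nu_nonneg p i)).trans (le_of_eq ?_)
        · rw [hEr', abs_neg, add_mul, one_mul]
          exact (abs_sub _ _).trans (add_le_add (dnsup u i e) (Prsup _ _ e (dnsup u i)))
        · simp only [mul_left_comm (nu p _), ← mul_sum, ← hS2]
          rw [Real.div_rpow (by linarith) (by linarith)]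
          field_simp
          ring
      · gcongr
        exact le_add_of_nonneg_right (by positivity)
  · simp only [hgr]
    have hVs : ∀ i f, |VV d φ L i f| ≤ L * tw L := fun i f => by
      by_cases h : (L:ℤ) ≤ |i.1 + ell (gr d (φ i.2) f)|
      · rw [VV, wt_zero h, mul_zero, abs_zero]; have := tw_pos L; positivity
      have h2 : dn L i f = tw i.1 * gr d (φ i.2) f := by
        rw [hdn, if_neg fun h' => h (h'.le.trans (le_abs_self _))]
      rw [VV, abs_mul, ← h2, abs_of_nonneg (wt_nonneg _ _), mul_comm]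
      exact mul_le_mul (wt_le _ _) (by simpa using dnsup L i f) (abs_nonneg _) hL'.le
    have := tw_pos L
    have hn : ∀ e, ‖fun i : SS Ω L Λ => Pr (VV d φ L i) e‖ ≤ κ e * (L * tw L) := fun e => by
      rw [pi_norm_le_iff_of_nonneg (mul_nonneg (κ0 e) (by positivity))]
      intro i
      rw [Real.norm_eq_abs]
      exact Prsup _ _ e (hVs i)
    refine (sum_le_sum fun e _ => mul_le_mul_of_nonneg_left (hn e) (hw e).le).trans ?_
    simp only [← mul_assoc _ (κ _), ← sum_mul]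
    gcongr
  · simp only [hgr]
    have hV1 : ∀ f, ∑ i ∈ SS Ω L Λ, nu p i * |VV d φ L i f| ≤ L * (tw ((p - 1) * L) * cg (1 - p)) := by
      intro f
      have := up1 (-L) f
      rw [show (1 - p) * ((-L : ℤ) : ℝ) = (p - 1) * L by push_cast; ring] at this
      refine le_trans ?_ (mul_le_mul_of_nonneg_left this hL'.le)
      rw [mul_sum]
      refine sum_le_sum fun i _ => ?_
      rw [mul_left_comm]
      refine mul_le_mul_of_nonneg_left ?_ (nu_nonneg p i)
      rw [VV, hup]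
      split_ifs with h
      · rw [abs_mul, abs_of_nonneg (wt_nonneg _ _), mul_comm]
        exact mul_le_mul_of_nonneg_right (wt_le _ _) (abs_nonneg _)
      · rw [wt_zero (le_trans (by omega) (neg_le_abs _))]; simp
    have := tw_pos ((p - 1) * L)
    refine (sum_le_sum fun e _ => mul_le_mul_of_nonneg_left (Pr1 _ _ e hV1) (hw e).le).trans ?_
    simp only [← mul_assoc _ (κ _), ← sum_mul]
    gcongr

lemma core2 {p : ℝ} (hp1 : 1 < p) (hp2 : p ≠ 2) : ∃ C : ℝ, 0 < C ∧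
    ∀ (X : Type) [Fintype X] [DecidableEq X] (Ω : Type) [Fintype Ω] (d : X → X → ℝ) (φ : Ω → X → ℝ),
      (∀ e, ∑ ω, |gr d (φ ω) e| ^ p ≤ 1) → ∀ (L Λ : ℕ), 0 < L → ∀ K : ℝ,
      1 + 8 * Real.log (Fintype.card X) ≤ K → ∃ h : ℤ × Ω → X → ℝ, ∀ e,
        nrm p (SS Ω L Λ) (nu p) (fun i => VV d φ L i e - gr d (h i) e) ≤
          27 * (C * K ^ |p - 2| * L) ^ (1 / p) ∧
        (∀ i ∈ SS Ω L Λ, |gr d (h i) e| ≤ 9 * (K * (L * tw L))) ∧
        ∑ i ∈ SS Ω L Λ, nu p i * |gr d (h i) e| ≤ 9 * (K * (L * (tw ((p - 1) * L) * cg (1 - p)))) := by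
  obtain ⟨C, hC, H⟩ := core hp1 hp2
  refine ⟨C, hC, ?_⟩
  intro X _ _ Ω _ d φ hs L Λ hL K hK
  have c1 := cg_pos (show 1 - p ≠ 0 by linarith)
  have hL' : (0:ℝ) < L := by exact_mod_cast hL
  have hK1 : 1 ≤ K := by linarith [Real.log_natCast_nonneg (Fintype.card X)]
  obtain ⟨a, ha⟩ : ∃ a, a = 3 * (C * K ^ |p - 2| * L) ^ (1 / p) := ⟨_, rfl⟩
  obtain ⟨b, hb⟩ : ∃ b, b = K * (L * tw L) := ⟨_, rfl⟩
  obtain ⟨c, hc⟩ : ∃ c, c = K * (L * (tw ((p - 1) * L) * cg (1 - p))) := ⟨_, rfl⟩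
  have a0 : 0 < a := by rw [ha]; positivity
  have b0 : 0 < b := by rw [hb]; have := tw_pos L; positivity
  have c0 : 0 < c := by rw [hc]; have := tw_pos ((p - 1) * L); positivity
  have H' := H X Ω d φ hs L Λ hL K hK
  simp only [← ha, ← hb, ← hc] at H'
  obtain ⟨F1, hF1⟩ : ∃ F : X × X → (ℤ × Ω → X → ℝ) → ℝ, ∀ e h, F e h =
    nrm p (SS Ω L Λ) (nu p) (fun i => VV d φ L i e - gr d (h i) e) := ⟨_, fun _ _ => rfl⟩
  obtain ⟨F2, hF2⟩ : ∃ F : X × X → (ℤ × Ω → X → ℝ) → ℝ, ∀ e h, F e h =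
    ‖fun i : SS Ω L Λ => gr d (h i) e‖ := ⟨_, fun _ _ => rfl⟩
  obtain ⟨F3, hF3⟩ : ∃ F : X × X → (ℤ × Ω → X → ℝ) → ℝ, ∀ e h, F e h =
    ∑ i ∈ SS Ω L Λ, nu p i * |gr d (h i) e| := ⟨_, fun _ _ => rfl⟩
  simp only [← hF1, ← hF2, ← hF3] at H'
  have p1 : ∀ e h, 0 ≤ F1 e h := fun e h => by rw [hF1]; exact nrm_nonneg (nu_nonneg p) _
  have p2 : ∀ e h, 0 ≤ F2 e h := fun e h => by rw [hF2]; exact norm_nonneg _
  have p3 : ∀ e h, 0 ≤ F3 e h := fun e h => by
    rw [hF3]; exact sum_nonneg fun i _ => mul_nonneg (nu_nonneg p i) (abs_nonneg _)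
  have lin : ∀ (x y : ℤ × Ω → X → ℝ) (s t : ℝ) i e,
      gr d ((s • x + t • y) i) e = s * gr d (x i) e + t * gr d (y i) e := fun x y s t i e => by
    simp only [gr, Pi.add_apply, Pi.smul_apply, smul_eq_mul]; ring
  obtain ⟨h, hh⟩ := minimax (fun e h => (F1 e h / a + F2 e h / b + F3 e h / c) / 3)
    (fun e h => by have := p1 e h; have := p2 e h; have := p3 e h; positivity)
    (fun e => ⟨convex_univ, fun x _ y _ s t hs ht hst => by
      have q1 : F1 e (s • x + t • y) ≤ s * F1 e x + t * F1 e y := by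
        simp only [hF1, lin]
        have : (fun i => VV d φ L i e - (s * gr d (x i) e + t * gr d (y i) e)) = fun i =>
            s * (VV d φ L i e - gr d (x i) e) + t * (VV d φ L i e - gr d (y i) e) := by
          ext i; linear_combination (-VV d φ L i e) * hst
        rw [this]
        refine (nrm_add (nu_nonneg p) hp1.le _ _).trans (le_of_eq ?_)
        rw [nrm_smul (nu_nonneg p) (by linarith), nrm_smul (nu_nonneg p) (by linarith), abs_of_nonneg hs,
          abs_of_nonneg ht]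
      have q2 : F2 e (s • x + t • y) ≤ s * F2 e x + t * F2 e y := by
        have := p2 e x
        have := p2 e y
        rw [hF2, pi_norm_le_iff_of_nonneg (by positivity)]
        intro i
        rw [lin, hF2, hF2]
        refine (norm_add_le _ _).trans ?_
        rw [norm_mul, norm_mul, Real.norm_of_nonneg hs, Real.norm_of_nonneg ht]
        exact add_le_add
          (mul_le_mul_of_nonneg_left (norm_le_pi_norm (fun i : SS Ω L Λ => gr d (x i) e) i) hs)
          (mul_le_mul_of_nonneg_left (norm_le_pi_norm (fun i : SS Ω L Λ => gr d (y i) e) i) ht)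
      have q3 : F3 e (s • x + t • y) ≤ s * F3 e x + t * F3 e y := by
        simp only [hF3, lin, mul_sum, ← sum_add_distrib]
        refine sum_le_sum fun i _ => ?_
        rw [mul_left_comm s, mul_left_comm t, ← mul_add]
        refine mul_le_mul_of_nonneg_left ((abs_add_le _ _).trans (le_of_eq ?_)) (nu_nonneg p i)
        rw [abs_mul, abs_mul, abs_of_nonneg hs, abs_of_nonneg ht]
      simp only [smul_eq_mul]
      calc _ ≤ ((s * F1 e x + t * F1 e y) / a + (s * F2 e x + t * F2 e y) / b +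
            (s * F3 e x + t * F3 e y) / c) / 3 := by gcongr
        _ = _ := by ring⟩)
    (fun w hw hw1 => by
      obtain ⟨h, h1, h2, h3⟩ := H' w hw hw1
      refine ⟨h, ?_⟩
      have : ∑ e, w e * ((F1 e h / a + F2 e h / b + F3 e h / c) / 3) =
          ((∑ e, w e * F1 e h) / a + (∑ e, w e * F2 e h) / b + (∑ e, w e * F3 e h) / c) / 3 := by
        simp only [sum_div, ← sum_add_distrib]
        exact sum_congr rfl fun _ _ => by ring
      rw [this]
      have := (div_le_one a0).2 h1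
      have := (div_le_one b0).2 h2
      have := (div_le_one c0).2 h3
      linarith)
  refine ⟨h, fun e => ?_⟩
  have k := hh e
  have k1 := div_nonneg (p1 e h) a0.le
  have k2 := div_nonneg (p2 e h) b0.le
  have k3 := div_nonneg (p3 e h) c0.le
  have m1 : F1 e h ≤ 9 * a := (div_le_iff₀ a0).1 (by linarith)
  have m2 : F2 e h ≤ 9 * b := (div_le_iff₀ b0).1 (by linarith)
  have m3 : F3 e h ≤ 9 * c := (div_le_iff₀ c0).1 (by linarith)
  rw [← hF1, ← hF3, ← hb, ← hc]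
  refine ⟨by linarith, fun i hi => le_trans ?_ m2, m3⟩
  rw [hF2, ← Real.norm_eq_abs]
  exact norm_le_pi_norm (fun i : SS Ω L Λ => gr d (h i) e) ⟨i, hi⟩

lemma exists_eta {p ε : ℝ} (hp : 0 < p) (hε : 0 < ε) :
    ∃ η : ℝ, 0 < η ∧ η ≤ 1 ∧ 1 - ε ≤ (1 - η) ^ p ∧ (1 + η) ^ p ≤ 1 + ε := by
  have c1 : ContinuousAt (fun η : ℝ => (1 - η) ^ p) 0 :=
    ContinuousAt.rpow_const (by fun_prop) (Or.inr hp.le)
  have c2 : ContinuousAt (fun η : ℝ => (1 + η) ^ p) 0 :=
    ContinuousAt.rpow_const (by fun_prop) (Or.inr hp.le)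
  have e1 := c1.eventually (lt_mem_nhds (show 1 - ε < (1 - 0) ^ p by simpa using hε))
  have e2 := c2.eventually (gt_mem_nhds (show (1 + 0) ^ p < 1 + ε by simpa using hε))
  have e3 : ∀ᶠ η : ℝ in nhds 0, η < 1 := gt_mem_nhds one_pos
  obtain ⟨η, ⟨a, b, c⟩, h⟩ := (((e1.and (e2.and e3)).filter_mono nhdsWithin_le_nhds).and
    (self_mem_nhdsWithin (a := (0:ℝ)) (s := Set.Ioi 0))).exists
  exact ⟨η, h, c.le, a.le, b.le⟩

theorem part1 (p : ℝ) (hp1 : 1 < p) (hp2 : p ≠ 2) (ε : ℝ) (hε : 0 < ε) : ∃ C : ℝ, 0 < C ∧ ∀ n : ℕ, 2 ≤ n →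
    ∀ d : Fin n → Fin n → ℝ, (∀ a b, a ≠ b → 0 < d a b) → (∀ a b, d a b = d b a) →
    ∀ (Ω : Type) [Fintype Ω] (φ : Ω → Fin n → ℝ),
    (∀ a b, a ≠ b → ∑ ω, |(φ ω a - φ ω b) / d a b| ^ p = 1) →
    ∀ Q : ℝ, Q = Real.exp (C * Real.log n ^ (if p < 2 then 2 - p else 1 - 2 / p)) →
    ∃ (m : ℕ) (ν : Fin m → ℝ) (h : Fin m → Fin n → ℝ) (Γ : ℝ), (∀ i, 0 ≤ ν i ∧ ν i ≤ Q) ∧ 1 / Q ≤ Γ ∧
      ∀ a b, a ≠ b → (1 - ε) * Γ ≤ ∑ i, ν i * |(h i a - h i b) / d a b| ^ p ∧
        ∑ i, ν i * |(h i a - h i b) / d a b| ^ p ≤ (1 + ε) * Γ ∧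
        (∀ i, |(h i a - h i b) / d a b| ≤ 1) ∧ ∑ i, ν i * |(h i a - h i b) / d a b| ≤ Q := by
  obtain ⟨C, hC, H⟩ := core2 hp1 hp2
  have hp0 : 0 < p := by linarith
  obtain ⟨η, η0, η1, ηa, ηb⟩ := exists_eta hp0 hε
  have c1 := cg_pos (show 1 - p ≠ 0 by linarith)
  obtain ⟨γ, hγ⟩ : ∃ γ, γ = if p < 2 then 2 - p else 1 - 2 / p := ⟨_, rfl⟩
  rw [← hγ]
  have hγ' : 0 < γ ∧ γ ≤ 1 ∧ |p - 2| * (1 / p) ≤ γ := by
    rcases hp2.lt_or_gt with h | h
    · rw [if_pos h] at hγ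
      rw [abs_of_neg (by linarith), mul_one_div, div_le_iff₀ hp0, hγ]
      exact ⟨by linarith, by linarith, by nlinarith⟩
    · rw [if_neg (by linarith)] at hγ
      have : 2 / p < 1 := (div_lt_one hp0).2 h
      have : 0 < 2 / p := by positivity
      rw [abs_of_pos (by linarith), hγ]
      exact ⟨by linarith, by linarith, le_of_eq (by field_simp)⟩
  obtain ⟨γ0, γ1, γ2⟩ := hγ'
  obtain ⟨D, hD⟩ : ∃ D, D = 27 * (2 * C) ^ (1 / p) / η := ⟨_, rfl⟩
  have D0 : 0 < D := by rw [hD]; positivity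
  obtain ⟨M, hM⟩ : ∃ M, M = p * (9 + 1 / γ + 4 * (D + 1)) + cg (1 - p) := ⟨_, rfl⟩
  have M0 : 0 < M := by rw [hM]; positivity
  refine ⟨10 * M, by positivity, ?_⟩
  intro n hn d _ _ Ω _ φ hφ Q hQ
  have hl : 1 / 2 ≤ Real.log n := by
    have := Real.log_two_gt_d9
    have := Real.log_le_log two_pos (show (2:ℝ) ≤ n by exact_mod_cast hn)
    linarith
  obtain ⟨K, hK⟩ : ∃ K, K = 1 + 8 * Real.log n := ⟨_, rfl⟩
  have K1 : 1 ≤ K := by linarith
  obtain ⟨A, hA⟩ : ∃ A, A = K ^ γ := ⟨_, rfl⟩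
  have A1 : 1 ≤ A := hA ▸ Real.one_le_rpow K1 γ0.le
  have hQ' : Real.exp (M * A) ≤ Q := by
    rw [hQ, Real.exp_le_exp, mul_comm 10, mul_assoc, hA]
    refine mul_le_mul_of_nonneg_left ?_ M0.le
    calc K ^ γ ≤ (10 * Real.log n) ^ γ := Real.rpow_le_rpow (by linarith) (by linarith) γ0.le
      _ = 10 ^ γ * Real.log n ^ γ := Real.mul_rpow (by norm_num) (by linarith)
      _ ≤ 10 ^ (1:ℝ) * Real.log n ^ γ := by gcongr; norm_num
      _ = _ := by rw [Real.rpow_one]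
  obtain ⟨N, hN⟩ : ∃ N : ℕ, N = ⌈D * A⌉₊ := ⟨_, rfl⟩
  have N1 : D * A ≤ N := hN ▸ Nat.le_ceil _
  have N2 : (N:ℝ) ≤ (D + 1) * A := by
    have := Nat.ceil_lt_add_one (show 0 ≤ D * A by positivity)
    rw [← hN] at this; linarith
  have N0 : 0 < N := by rw [hN]; exact Nat.ceil_pos.2 (by positivity)
  have N0' : (1:ℝ) ≤ N := by exact_mod_cast N0
  obtain ⟨Λ, hΛ⟩ : ∃ Λ : ℕ, ∀ ω e, -(Λ:ℤ) ≤ ell (gr d (φ ω) e) := by
    obtain ⟨B, hB⟩ := (Set.finite_range fun x : Ω × (Fin n × Fin n) => (ell (gr d (φ x.1) x.2)).natAbs).bddAbove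
    exact ⟨B, fun ω e => by have := hB ⟨(ω, e), rfl⟩; simp only at this; omega⟩
  obtain ⟨h, hh⟩ := H (Fin n) Ω d φ (fun e => by
    by_cases he : e.1 = e.2
    · simp [gr, he, Real.zero_rpow hp0.ne']
    · exact (hφ _ _ he).le) (2 * N) Λ (by omega) K (by rw [Fintype.card_fin, hK])
  obtain ⟨L, hL⟩ : ∃ L : ℕ, L = 2 * N := ⟨_, rfl⟩
  have hL' : (L:ℝ) = 2 * N := by rw [hL]; push_cast; ring
  have hG := Gam_ge hp0 N
  rw [← hL] at hh hG
  have G1 : 1 ≤ Gam p L := (Real.one_le_rpow N0' (by linarith)).trans hG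
  have tL : 1 ≤ tw L := tw_zero ▸ tw_le (by positivity)
  obtain ⟨R, hR⟩ : ∃ R, R = 9 * (K * (L * tw L)) := ⟨_, rfl⟩
  have R0 : 0 < R := by have := tw_pos L; rw [hR]; nth_rw 1 [hL']; positivity
  have hLA : (L:ℝ) ≤ 2 * (D + 1) * A := by linarith
  have hRQ : R ^ p ≤ Q := by
    have a1 : K ≤ Real.exp (1 / γ * A) := by
      rw [← Real.log_le_iff_le_exp (by linarith), hA, one_div_mul_eq_div]
      exact Real.log_le_rpow_div (by linarith) γ0
    have a2 : (L:ℝ) ≤ Real.exp L := by linarith [Real.add_one_le_exp (L:ℝ)]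
    have a3 : tw L ≤ Real.exp L := tw_le_exp (by positivity)
    have a4 : (9:ℝ) ≤ Real.exp 9 := by linarith [Real.add_one_le_exp (9:ℝ)]
    have a5 : R ≤ Real.exp ((9 + 1 / γ + 4 * (D + 1)) * A) := by
      calc R ≤ Real.exp 9 * (Real.exp (1 / γ * A) * (Real.exp L * Real.exp L)) := by rw [hR]; gcongr
        _ = Real.exp (9 + (1 / γ * A + (L + L))) := by simp only [Real.exp_add]
        _ ≤ _ := Real.exp_le_exp.2 (by linarith)
    refine (Real.rpow_le_rpow R0.le a5 hp0.le).trans (le_trans ?_ hQ')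
    rw [← Real.exp_mul, Real.exp_le_exp, hM]
    nlinarith
  have hpL : p * L + cg (1 - p) ≤ M * A := by
    have : 0 < 1 / γ := by positivity
    have : (L:ℝ) ≤ (9 + 1 / γ + 4 * (D + 1)) * A := hLA.trans (by gcongr; linarith)
    have := mul_le_mul_of_nonneg_left this hp0.le
    rw [hM]; nlinarith
  have hErr : 27 * (C * K ^ |p - 2| * L) ^ (1 / p) ≤ η * Gam p L ^ (1 / p) := by
    have b1 : (C * K ^ |p - 2| * L) ^ (1 / p) ≤ (2 * C) ^ (1 / p) * A * N ^ (1 / p) := by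
      rw [hL', show C * K ^ |p - 2| * (2 * N) = 2 * C * K ^ |p - 2| * N by ring,
        Real.mul_rpow (by positivity) (by positivity), Real.mul_rpow (by positivity) (by positivity),
        ← Real.rpow_mul (by linarith), hA]
      gcongr
    have b2 : (N:ℝ) * N ^ (1 / p) ≤ Gam p L ^ (1 / p) := by
      refine le_trans (le_of_eq ?_) (Real.rpow_le_rpow (by positivity) hG (by positivity))
      rw [← Real.rpow_mul (by positivity), mul_comm, ← Real.rpow_add_one (by positivity)]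
      congr 1; field_simp; ring
    have b3 : 27 * (2 * C) ^ (1 / p) = η * D := by rw [hD]; field_simp
    calc _ ≤ 27 * ((2 * C) ^ (1 / p) * A * N ^ (1 / p)) := by gcongr
      _ = η * (D * A * N ^ (1 / p)) := by rw [← mul_assoc, ← mul_assoc, b3]; ring
      _ ≤ η * (N * N ^ (1 / p)) := by gcongr
      _ ≤ _ := by gcongr
  have re : ∀ f : ℤ × Ω → ℝ, ∑ i, f ((SS Ω L Λ).equivFin.symm i) = ∑ i ∈ SS Ω L Λ, f i := fun f => by
    rw [← sum_coe_sort (SS Ω L Λ)]
    exact Equiv.sum_comp (SS Ω L Λ).equivFin.symm fun i => f i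
  have Rp : 0 < R ^ p := by positivity
  refine ⟨_, fun i => nu p ((SS Ω L Λ).equivFin.symm i).1, fun i x => R⁻¹ * h ((SS Ω L Λ).equivFin.symm i).1 x,
    Gam p L / R ^ p, fun i => ⟨nu_nonneg p _, ?_⟩, ?_, fun a b hab => ?_⟩
  · have hi := ((SS Ω L Λ).equivFin.symm i).2
    have hi1 : (-L : ℤ) ≤ _ := (mem_Icc.1 (mem_product.1 hi).1).1
    have hi2 : -(L:ℝ) ≤ (((SS Ω L Λ).equivFin.symm i).1.1 : ℝ) := by exact_mod_cast hi1
    refine (tw_le (show _ ≤ p * L by nlinarith)).trans ((tw_le_exp (by positivity)).trans (le_trans ?_ hQ'))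
    exact Real.exp_le_exp.2 (by linarith)
  · exact (one_div_le_one_div_of_le Rp hRQ).trans (by gcongr)
  obtain ⟨h1, h2, h3⟩ := hh (a, b)
  have e1 : ∀ i, |(R⁻¹ * h i a - R⁻¹ * h i b) / d a b| = |gr d (h i) (a, b)| / R := fun i => by
    rw [← mul_sub, mul_div_assoc, abs_mul, abs_of_pos (inv_pos.2 R0), inv_mul_eq_div, gr]
  simp only [e1]
  rw [re fun i => nu p i * (|gr d (h i) (a, b)| / R) ^ p, re fun i => nu p i * (|gr d (h i) (a, b)| / R)]
  simp only [Real.div_rpow (abs_nonneg _) R0.le, ← mul_div_assoc, ← sum_div]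
  rw [← nrm_rpow (nu_nonneg p) hp0.ne' fun i => gr d (h i) (a, b)]
  have hV : nrm p (SS Ω L Λ) (nu p) (fun i => VV d φ L i (a, b)) = Gam p L ^ (1 / p) := by
    rw [nrm, VV_sum hp0 d φ L Λ (a, b) (hφ a b hab) fun ω => hΛ ω _]
  have hGp : (Gam p L ^ (1 / p)) ^ p = Gam p L := by rw [one_div, Real.rpow_inv_rpow (by linarith) hp0.ne']
  have G0 : 0 ≤ Gam p L ^ (1 / p) := Real.rpow_nonneg (by linarith) _
  have t1 := nrm_add (S := SS Ω L Λ) (nu_nonneg p) hp1.le (fun i => VV d φ L i (a, b) - gr d (h i) (a, b))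
    fun i => gr d (h i) (a, b)
  have t2 := nrm_add (S := SS Ω L Λ) (nu_nonneg p) hp1.le (fun i => VV d φ L i (a, b))
    fun i => -1 * (VV d φ L i (a, b) - gr d (h i) (a, b))
  rw [nrm_smul (nu_nonneg p) hp0.ne'] at t2
  simp only [sub_add_cancel, neg_mul, one_mul, neg_sub, add_sub_cancel, abs_neg, abs_one, hV] at t1 t2
  refine ⟨div_le_div_of_nonneg_right ?_ Rp.le, div_le_div_of_nonneg_right ?_ Rp.le, fun i => ?_, ?_⟩
  · calc _ ≤ (1 - η) ^ p * (Gam p L ^ (1 / p)) ^ p := by rw [hGp]; gcongr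
      _ = ((1 - η) * Gam p L ^ (1 / p)) ^ p := (Real.mul_rpow (by linarith) G0).symm
      _ ≤ _ := Real.rpow_le_rpow (mul_nonneg (by linarith) G0) (by linarith) hp0.le
  · calc _ ≤ ((1 + η) * Gam p L ^ (1 / p)) ^ p :=
          Real.rpow_le_rpow (nrm_nonneg (nu_nonneg p) _) (by linarith) hp0.le
      _ = (1 + η) ^ p * (Gam p L ^ (1 / p)) ^ p := Real.mul_rpow (by linarith) G0
      _ ≤ _ := by rw [hGp]; gcongr
  · rw [div_le_one R0, hR]
    exact h2 _ ((SS Ω L Λ).equivFin.symm i).2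
  · rw [div_le_iff₀ R0]
    refine h3.trans ?_
    have b1 : tw ((p - 1) * L) * cg (1 - p) ≤ Q * tw L := by
      have a1 : tw ((p - 1) * L) ≤ Real.exp (p * L) :=
        (tw_le (by nlinarith)).trans (tw_le_exp (by positivity))
      have a2 : cg (1 - p) ≤ Real.exp (cg (1 - p)) := by linarith [Real.add_one_le_exp (cg (1 - p))]
      calc _ ≤ Real.exp (p * L) * Real.exp (cg (1 - p)) := by gcongr
        _ ≤ Q := by rw [← Real.exp_add]; exact (Real.exp_le_exp.2 hpL).trans hQ'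
        _ ≤ _ := le_mul_of_one_le_right (by rw [hQ]; positivity) tL
    rw [hR, show Q * (9 * (K * (L * tw L))) = 9 * (K * (L * (Q * tw L))) by ring]
    gcongr

end Crest.Agent.H7.Lp
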