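import Mathlib

/-! States on preordered commutative monoids, and rank functions on matrices over a ring with the
rank condition. -/

set_option autoImplicit false

namespace Crest.Agent.H7.Qt

section State

variable {M : Type*} [AddCommMonoid M] [Preorder M]

/-- monotone, subadditive, normalised functions -/
structure Good (u : M) (p : M → ℝ) : Prop where
  mono : ∀ a b, a ≤ b → p a ≤ p b
  sub : ∀ a b, p (a + b) ≤ p a + p b
  zero : p 0 = 0
  unit : ∀ y, p (u + y) = p y + 1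

lemma good_sInf (u : M) (S : M → Set ℝ) (hne : ∀ a, (S a).Nonempty)
    (hnn : ∀ a, ∀ x ∈ S a, 0 ≤ x)
    (hmono : ∀ a b, a ≤ b → ∀ x ∈ S b, ∃ z ∈ S a, z ≤ x)
    (hsub : ∀ a b, ∀ x ∈ S a, ∀ y ∈ S b, ∃ z ∈ S (a + b), z ≤ x + y)
    (hzero : (0 : ℝ) ∈ S 0)
    (hu1 : ∀ y, ∀ x ∈ S y, ∃ z ∈ S (u + y), z ≤ x + 1)
    (hu2 : ∀ y, ∀ x ∈ S (u + y), ∃ z ∈ S y, z + 1 ≤ x) :
    Good u (fun a => sInf (S a)) := by
  have hb : ∀ a, BddBelow (S a) := fun a => ⟨0, hnn a⟩
  refine ⟨fun a b hab => ?_, fun a b => ?_, ?_, fun y => ?_⟩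
  · refine le_csInf (hne b) fun x hx => ?_
    obtain ⟨z, hz, hzx⟩ := hmono a b hab x hx
    exact (csInf_le (hb a) hz).trans hzx
  · have h1 : ∀ y ∈ S b, sInf (S (a + b)) - y ≤ sInf (S a) := by
      intro y hy
      refine le_csInf (hne a) fun x hx => ?_
      obtain ⟨z, hz, hzx⟩ := hsub a b x hx y hy
      have := csInf_le (hb _) hz
      linarith
    have h2 : sInf (S (a + b)) - sInf (S a) ≤ sInf (S b) :=
      le_csInf (hne b) fun y hy => by have := h1 y hy; linarith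
    linarith
  · exact le_antisymm (csInf_le (hb 0) hzero) (le_csInf (hne 0) (hnn 0))
  · apply le_antisymm
    · have : sInf (S (u + y)) - 1 ≤ sInf (S y) := by
        refine le_csInf (hne y) fun x hx => ?_
        obtain ⟨z, hz, hzx⟩ := hu1 y x hx
        have := csInf_le (hb _) hz
        linarith
      linarith
    · refine le_csInf (hne _) fun x hx => ?_
      obtain ⟨z, hz, hzx⟩ := hu2 y x hx
      have := csInf_le (hb _) hz
      linarith

lemma Good.nsmul_le {u : M} {p : M → ℝ} (h : Good u p) (n : ℕ) (y : M) :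
    p (n • y) ≤ n * p y := by
  induction n with
  | zero => simp [h.zero]
  | succ n ih =>
    rw [succ_nsmul]
    have := h.sub (n • y) y
    push_cast
    linarith

lemma Good.nsmul_unit {u : M} {p : M → ℝ} (h : Good u p) (n : ℕ) (y : M) :
    p (n • u + y) = p y + n := by
  induction n with
  | zero => simp
  | succ n ih =>
    rw [succ_nsmul', add_assoc, h.unit, ih]
    push_cast
    ring

theorem exists_state (add_mono : ∀ a b c : M, a ≤ b → a + c ≤ b + c) (zero_le : ∀ a : M, 0 ≤ a)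
    (u : M) (hunit : ∀ x : M, ∃ k : ℕ, x ≤ k • u) (rc : ∀ k l : ℕ, l • u ≤ k • u → l ≤ k) :
    ∃ r : M → ℝ, (∀ a b, r (a + b) = r a + r b) ∧ (∀ a b, a ≤ b → r a ≤ r b) ∧ r u = 1 ∧
      r 0 = 0 := by
  have add_mono2 : ∀ a b c d : M, a ≤ b → c ≤ d → a + c ≤ b + d := by
    intro a b c d h1 h2
    refine (add_mono a b c h1).trans ?_
    rw [add_comm b c, add_comm b d]
    exact add_mono _ _ _ h2
  have le_add : ∀ a b : M, b ≤ a + b := by
    intro a b
    simpa using add_mono 0 a b (zero_le a)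
  have nsmul_mono : ∀ (n : ℕ) (a b : M), a ≤ b → n • a ≤ n • b := by
    intro n a b h
    induction n with
    | zero => simp
    | succ n ih => rw [succ_nsmul, succ_nsmul]; exact add_mono2 _ _ _ _ ih h
  have hnn : ∀ p, Good u p → ∀ a, 0 ≤ p a := fun p hp a => hp.zero ▸ hp.mono _ _ (zero_le a)
  -- an initial good function
  have h0 : ∃ p, Good u p := by
    refine ⟨_, good_sInf u (fun y => {x | ∃ k l : ℕ, y + l • u ≤ k • u ∧ x = (k : ℝ) - l})
      ?_ ?_ ?_ ?_ ?_ ?_ ?_⟩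
    · intro a
      obtain ⟨k, hk⟩ := hunit a
      exact ⟨_, k, 0, by simpa using hk, rfl⟩
    · rintro a x ⟨k, l, h, rfl⟩
      have : l ≤ k := rc k l ((le_add a _).trans h)
      have : (l : ℝ) ≤ k := by exact_mod_cast this
      linarith
    · rintro a b hab x ⟨k, l, h, rfl⟩
      exact ⟨_, ⟨k, l, (add_mono _ _ _ hab).trans h, rfl⟩, le_rfl⟩
    · rintro a b x ⟨k, l, h, rfl⟩ y ⟨k', l', h', rfl⟩
      refine ⟨_, ⟨k + k', l + l', ?_, rfl⟩, ?_⟩
      · have := add_mono2 _ _ _ _ h h'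
        rw [add_nsmul, add_nsmul]
        convert this using 1
        abel
      · push_cast; linarith
    · exact ⟨0, 0, by simp, by simp⟩
    · rintro y x ⟨k, l, h, rfl⟩
      refine ⟨_, ⟨k + 1, l, ?_, rfl⟩, ?_⟩
      · have := add_mono _ _ u h
        rw [succ_nsmul]
        convert this using 1
        abel
      · push_cast; linarith
    · rintro y x ⟨k, l, h, rfl⟩
      refine ⟨_, ⟨k, l + 1, ?_, rfl⟩, ?_⟩
      · rw [succ_nsmul]
        convert h using 1
        abel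
      · push_cast; linarith
  obtain ⟨p0, hp0⟩ := h0
  -- a minimal good function
  have hmin : ∃ p, Good u p ∧ ∀ q, Good u q → q ≤ p → q = p := by
    have := zorn_le_nonempty₀ (α := (M → ℝ)ᵒᵈ) {p | Good u (OrderDual.ofDual p)} ?_
      (OrderDual.toDual p0) hp0
    · obtain ⟨p, -, hp⟩ := this
      refine ⟨OrderDual.ofDual p, hp.1, fun q hq hqp => ?_⟩
      have := hp.2 (y := OrderDual.toDual q) hq hqp
      exact le_antisymm hqp this
    · intro c hc hchain y hy
      have hg := good_sInf u (fun a => {x | ∃ q ∈ c, x = OrderDual.ofDual q a})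
        (fun a => ⟨_, y, hy, rfl⟩) ?_ ?_ ?_ ⟨y, hy, (hc hy).zero.symm⟩ ?_ ?_
      · refine ⟨OrderDual.toDual _, hg, fun z hz => ?_⟩
        intro a
        refine csInf_le ⟨0, ?_⟩ ⟨z, hz, rfl⟩
        rintro x ⟨q, hq, rfl⟩
        exact hnn _ (hc hq) a
      · rintro a x ⟨q, hq, rfl⟩
        exact hnn _ (hc hq) a
      · rintro a b hab x ⟨q, hq, rfl⟩
        exact ⟨_, ⟨q, hq, rfl⟩, (hc hq).mono _ _ hab⟩
      · rintro a b x ⟨q, hq, rfl⟩ y ⟨q', hq', rfl⟩
        rcases hchain.total hq hq' with h | h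
        · refine ⟨_, ⟨q', hq', rfl⟩, ?_⟩
          have h1 := (hc hq').sub a b
          have h2 : OrderDual.ofDual q' a ≤ OrderDual.ofDual q a := h a
          linarith
        · refine ⟨_, ⟨q, hq, rfl⟩, ?_⟩
          have h1 := (hc hq).sub a b
          have h2 : OrderDual.ofDual q b ≤ OrderDual.ofDual q' b := h b
          linarith
      · rintro a x ⟨q, hq, rfl⟩
        exact ⟨_, ⟨q, hq, rfl⟩, ((hc hq).unit a).le⟩
      · rintro a x ⟨q, hq, rfl⟩
        exact ⟨_, ⟨q, hq, rfl⟩, ((hc hq).unit a).ge⟩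
  obtain ⟨p, hp, hpmin⟩ := hmin
  -- homogeneity
  have hhom : ∀ (n : ℕ) (y : M), p (n • y) = n * p y := by
    have hg := good_sInf u (fun a => {x | ∃ n : ℕ, 0 < n ∧ x = p (n • a) / n})
      (fun a => ⟨_, 1, one_pos, rfl⟩) ?_ ?_ ?_ ⟨1, one_pos, by simp [hp.zero]⟩ ?_ ?_
    · have heq := hpmin _ hg (fun a => by
        refine csInf_le ⟨0, ?_⟩ ⟨1, one_pos, by simp⟩
        rintro x ⟨n, hn, rfl⟩
        exact div_nonneg (hnn _ hp _) (Nat.cast_nonneg _))
      intro n y
      rcases Nat.eq_zero_or_pos n with rfl | hn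
      · simp [hp.zero]
      refine le_antisymm (hp.nsmul_le n y) ?_
      have h1 : p y ≤ p (n • y) / n := by
        rw [← congrFun heq y]
        refine csInf_le ⟨0, ?_⟩ ⟨n, hn, rfl⟩
        rintro x ⟨n, hn, rfl⟩
        exact div_nonneg (hnn _ hp _) (Nat.cast_nonneg _)
      have hn' : (0 : ℝ) < n := by exact_mod_cast hn
      rw [le_div_iff₀ hn'] at h1
      linarith
    · rintro a x ⟨n, hn, rfl⟩
      exact div_nonneg (hnn _ hp _) (Nat.cast_nonneg _)
    · rintro a b hab x ⟨n, hn, rfl⟩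
      exact ⟨_, ⟨n, hn, rfl⟩, div_le_div_of_nonneg_right (hp.mono _ _ (nsmul_mono n _ _ hab))
        (Nat.cast_nonneg _)⟩
    · rintro a b x ⟨n, hn, rfl⟩ y ⟨k, hk, rfl⟩
      refine ⟨_, ⟨n * k, Nat.mul_pos hn hk, rfl⟩, ?_⟩
      have hn' : (0 : ℝ) < n := by exact_mod_cast hn
      have hk' : (0 : ℝ) < k := by exact_mod_cast hk
      have e : (n * k) • (a + b) = k • (n • a) + n • (k • b) := by
        rw [nsmul_add, ← mul_nsmul, ← mul_nsmul, mul_comm k n]
      have h1 := hp.sub (k • (n • a)) (n • (k • b))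
      have h2 := hp.nsmul_le k (n • a)
      have h3 := hp.nsmul_le n (k • b)
      rw [e, div_add_div _ _ hn'.ne' hk'.ne']
      push_cast
      refine div_le_div_of_nonneg_right ?_ (by positivity)
      nlinarith
    · rintro a x ⟨n, hn, rfl⟩
      refine ⟨_, ⟨n, hn, rfl⟩, ?_⟩
      have hn' : (0 : ℝ) < n := by exact_mod_cast hn
      rw [nsmul_add, hp.nsmul_unit, add_div, div_self hn'.ne']
    · rintro a x ⟨n, hn, rfl⟩
      refine ⟨_, ⟨n, hn, rfl⟩, ?_⟩
      have hn' : (0 : ℝ) < n := by exact_mod_cast hn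
      rw [nsmul_add, hp.nsmul_unit, add_div, div_self hn'.ne']
  -- additivity
  have hadd : ∀ x y, p y + p x ≤ p (y + x) := by
    intro x
    have hn0 : ∀ a (n : ℕ), 0 ≤ p (a + n • x) - n * p x := by
      intro a n
      have := hp.mono _ _ (le_add a (n • x))
      rw [hhom] at this
      linarith
    have hg := good_sInf u (fun a => {t | ∃ n : ℕ, t = p (a + n • x) - n * p x})
      (fun a => ⟨_, 0, rfl⟩) ?_ ?_ ?_ ⟨0, by simp [hp.zero]⟩ ?_ ?_
    · have heq := hpmin _ hg (fun a => by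
        refine csInf_le ⟨0, ?_⟩ ⟨0, by simp⟩
        rintro t ⟨n, rfl⟩
        exact hn0 a n)
      intro y
      have h1 : p y ≤ p (y + 1 • x) - (1 : ℕ) * p x := by
        rw [← congrFun heq y]
        refine csInf_le ⟨0, ?_⟩ ⟨1, rfl⟩
        rintro t ⟨n, rfl⟩
        exact hn0 y n
      simp only [one_smul, Nat.cast_one, one_mul] at h1
      linarith
    · rintro a t ⟨n, rfl⟩
      exact hn0 a n
    · rintro a b hab t ⟨n, rfl⟩
      refine ⟨_, ⟨n, rfl⟩, ?_⟩
      have := hp.mono _ _ (add_mono _ _ (n • x) hab)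
      linarith
    · rintro a b t ⟨n, rfl⟩ s ⟨k, rfl⟩
      refine ⟨_, ⟨n + k, rfl⟩, ?_⟩
      have e : a + b + (n + k) • x = (a + n • x) + (b + k • x) := by rw [add_nsmul]; abel
      have := hp.sub (a + n • x) (b + k • x)
      rw [e]
      push_cast
      linarith
    · rintro a t ⟨n, rfl⟩
      refine ⟨_, ⟨n, rfl⟩, ?_⟩
      rw [add_assoc, hp.unit]
      linarith
    · rintro a t ⟨n, rfl⟩
      refine ⟨_, ⟨n, rfl⟩, ?_⟩
      rw [add_assoc, hp.unit]
      linarith
  refine ⟨p, fun a b => le_antisymm (hp.sub a b) (hadd b a), hp.mono, ?_, hp.zero⟩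
  have := hp.unit 0
  rwa [add_zero, hp.zero, zero_add] at this

end State

section Matrices

variable (R : Type) [Ring R]

/-- the rank condition, in matrix form -/
def RC : Prop :=
  ∀ (ι κ : Type) [Fintype ι] [Fintype κ] [DecidableEq ι] (X : Matrix κ ι R) (Y : Matrix ι κ R),
    Y * X = 1 → Fintype.card ι ≤ Fintype.card κ

structure Obj where
  ι : Type
  [fin : Fintype ι]
  X : Matrix ι ι R

attribute [instance] Obj.fin

variable {R}

namespace Obj

instance : Preorder (Obj R) where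
  le a b := ∃ (C : Matrix a.ι b.ι R) (D : Matrix b.ι a.ι R), a.X = C * b.X * D
  le_refl a := by
    classical
    exact ⟨1, 1, by simp⟩
  le_trans a b c := by
    rintro ⟨C, D, h⟩ ⟨C', D', h'⟩
    exact ⟨C * C', D' * D, by rw [h, h']; simp only [Matrix.mul_assoc]⟩

lemma le_def (a b : Obj R) :
    a ≤ b ↔ ∃ (C : Matrix a.ι b.ι R) (D : Matrix b.ι a.ι R), a.X = C * b.X * D := Iff.rfl

lemma le_of_submatrix (a b : Obj R) (e f : a.ι → b.ι) (h : a.X = b.X.submatrix e f) : a ≤ b := by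
  classical
  refine ⟨(1 : Matrix b.ι b.ι R).submatrix e id, (1 : Matrix b.ι b.ι R).submatrix id f, ?_⟩
  rw [h]
  ext i j
  simp [Matrix.mul_apply, Matrix.one_apply]

def add (a b : Obj R) : Obj R := ⟨a.ι ⊕ b.ι, Matrix.fromBlocks a.X 0 0 b.X⟩

def zero : Obj R := ⟨Empty, 0⟩

lemma add_mono {a b c d : Obj R} (h1 : a ≤ b) (h2 : c ≤ d) : add a c ≤ add b d := by
  obtain ⟨C, D, h⟩ := h1
  obtain ⟨C', D', h'⟩ := h2
  refine ⟨Matrix.fromBlocks C 0 0 C', Matrix.fromBlocks D 0 0 D', ?_⟩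
  show Matrix.fromBlocks a.X 0 0 c.X = Matrix.fromBlocks C 0 0 C' *
    (Matrix.fromBlocks b.X 0 0 d.X : Matrix (b.ι ⊕ d.ι) (b.ι ⊕ d.ι) R) *
      (Matrix.fromBlocks D 0 0 D' : Matrix (b.ι ⊕ d.ι) (a.ι ⊕ c.ι) R)
  simp [Matrix.fromBlocks_multiply, h, h']

lemma add_comm_le (a b : Obj R) : add a b ≤ add b a :=
  le_of_submatrix _ _ Sum.swap Sum.swap (by
    ext (i | i) (j | j) <;> simp [add])

lemma add_assoc_le (a b c : Obj R) : add (add a b) c ≤ add a (add b c) :=
  le_of_submatrix _ _ (Equiv.sumAssoc _ _ _) (Equiv.sumAssoc _ _ _) (by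
    ext ((i | i) | i) ((j | j) | j) <;> simp [add])

lemma add_assoc_ge (a b c : Obj R) : add a (add b c) ≤ add (add a b) c :=
  le_of_submatrix _ _ (Equiv.sumAssoc _ _ _).symm (Equiv.sumAssoc _ _ _).symm (by
    ext (i | i | i) (j | j | j) <;> simp [add])

lemma zero_le (a : Obj R) : zero ≤ a := ⟨0, 0, by ext i; exact i.elim⟩

lemma add_zero_le (a : Obj R) : add a zero ≤ a :=
  le_of_submatrix _ _ (Sum.elim id Empty.elim) (Sum.elim id Empty.elim) (by
    ext (i | i) (j | j)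
    · simp [add]
    · exact j.elim
    · exact i.elim
    · exact i.elim)

lemma le_add_zero (a : Obj R) : a ≤ add a zero :=
  le_of_submatrix _ _ Sum.inl Sum.inl (by ext i j; simp [add])

end Obj

/-- the monoid of matrices up to mutual factorisation -/
def Cls (R : Type) [Ring R] := Antisymmetrization (Obj R) (· ≤ ·)

noncomputable instance : PartialOrder (Cls R) :=
  inferInstanceAs (PartialOrder (Antisymmetrization (Obj R) (· ≤ ·)))

def mk (a : Obj R) : Cls R := toAntisymmetrization (· ≤ ·) a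

lemma mk_le {a b : Obj R} : mk a ≤ mk b ↔ a ≤ b := toAntisymmetrization_le_toAntisymmetrization_iff

lemma mk_eq {a b : Obj R} (h1 : a ≤ b) (h2 : b ≤ a) : mk a = mk b :=
  le_antisymm (mk_le.2 h1) (mk_le.2 h2)

lemma ind {p : Cls R → Prop} (a : Cls R) (h : ∀ a, p (mk a)) : p a :=
  Quotient.inductionOn' a h

instance : Add (Cls R) where
  add := Quotient.map₂' Obj.add fun _ _ h _ _ h' =>
    ⟨Obj.add_mono h.1 h'.1, Obj.add_mono h.2 h'.2⟩

instance : Zero (Cls R) := ⟨mk Obj.zero⟩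

lemma mk_add (a b : Obj R) : mk a + mk b = mk (a.add b) := rfl

instance : AddCommMonoid (Cls R) where
  add_assoc a b c := by
    induction a using ind; induction b using ind; induction c using ind
    exact mk_eq (Obj.add_assoc_le _ _ _) (Obj.add_assoc_ge _ _ _)
  zero_add a := by
    induction a using ind
    exact mk_eq ((Obj.add_comm_le _ _).trans (Obj.add_zero_le _))
      ((Obj.le_add_zero _).trans (Obj.add_comm_le _ _))
  add_zero a := by
    induction a using ind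
    exact mk_eq (Obj.add_zero_le _) (Obj.le_add_zero _)
  add_comm a b := by
    induction a using ind; induction b using ind
    exact mk_eq (Obj.add_comm_le _ _) (Obj.add_comm_le _ _)
  nsmul := nsmulRec

lemma nsmul_one (k : ℕ) :
    k • mk (⟨Unit, 1⟩ : Obj R) = mk ⟨Fin k, 1⟩ := by
  induction k with
  | zero =>
    rw [zero_nsmul]
    exact mk_eq (Obj.zero_le _) ⟨0, 0, by ext i; exact i.elim0⟩
  | succ k ih =>
    rw [succ_nsmul, ih, mk_add]
    let e : Fin k ⊕ Unit ≃ Fin (k + 1) :=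
      (Equiv.sumCongr (Equiv.refl _) (Equiv.ofUnique Unit (Fin 1))).trans finSumFinEquiv
    have h1 : (Obj.add (⟨Fin k, 1⟩ : Obj R) ⟨Unit, 1⟩).X = (1 : Matrix (Fin k ⊕ Unit) (Fin k ⊕ Unit) R) :=
      Matrix.fromBlocks_one
    refine mk_eq (Obj.le_of_submatrix _ _ e e ?_) (Obj.le_of_submatrix _ _ e.symm e.symm ?_)
    · rw [h1]; exact (Matrix.submatrix_one_equiv e).symm
    · rw [h1]; exact (Matrix.submatrix_one_equiv e.symm).symm

theorem exists_rank (h : RC R) :
    ∃ r : Obj R → ℝ, (∀ a b, r (a.add b) = r a + r b) ∧ (∀ a b, a ≤ b → r a ≤ r b) ∧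
      r ⟨Unit, 1⟩ = 1 ∧ ∀ a, 0 ≤ r a := by
  have := exists_state (M := Cls R) ?_ ?_ (mk ⟨Unit, 1⟩) ?_ ?_
  · obtain ⟨r, h1, h2, h3, h4⟩ := this
    refine ⟨fun a => r (mk a), fun a b => h1 (mk a) (mk b), fun a b hab => h2 _ _ (mk_le.2 hab),
      h3, fun a => ?_⟩
    exact h4.ge.trans (h2 _ _ (mk_le.2 (Obj.zero_le a)))
  · intro a b c hab
    induction a using ind; induction b using ind; induction c using ind
    exact mk_le.2 (Obj.add_mono (mk_le.1 hab) le_rfl)
  · intro a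
    induction a using ind
    exact mk_le.2 (Obj.zero_le _)
  · intro a
    induction a using ind with | _ a => ?_
    classical
    refine ⟨Fintype.card a.ι, ?_⟩
    rw [nsmul_one, mk_le]
    refine le_trans (b := ⟨a.ι, 1⟩) ⟨a.X, 1, by simp⟩ ?_
    exact Obj.le_of_submatrix _ _ (Fintype.equivFin _) (Fintype.equivFin _)
      (Matrix.submatrix_one_equiv _).symm
  · intro k l hkl
    rw [nsmul_one, nsmul_one, mk_le] at hkl
    obtain ⟨C, D, e⟩ := hkl
    have := h (Fin l) (Fin k) D C (by simpa using e.symm)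
    simpa using this

/-- A rank function on a ring. -/
structure IsRank {B : Type*} [Ring B] (r : B → ℝ) : Prop where
  nonneg : ∀ x, 0 ≤ r x
  le_of_eq : ∀ x c y d, x = c * y * d → r x ≤ r y
  add_le : ∀ x y, r (x + y) ≤ r x + r y
  orth : ∀ x a b c d, a * x * d = 0 → c * x * b = 0 → r (a * x * b) + r (c * x * d) ≤ r x

theorem exists_rank_two (h : RC R) :
    ∃ r : Matrix (Fin 2) (Fin 2) R → ℝ, IsRank r ∧ r (Matrix.single 0 0 1) = 1 := by
  obtain ⟨r, h1, h2, h3, h4⟩ := exists_rank h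
  refine ⟨fun X => r ⟨Fin 2, X⟩, ⟨fun _ => h4 _, fun x c y d e => h2 _ _ ⟨c, d, e⟩, fun x y => ?_,
    fun x a b c d e1 e2 => ?_⟩, ?_⟩
  · rw [← h1]
    refine h2 _ _ ⟨Matrix.fromCols 1 1, Matrix.fromRows 1 1, ?_⟩
    show x + y = (Matrix.fromCols 1 1 : Matrix (Fin 2) (Fin 2 ⊕ Fin 2) R) *
      (Matrix.fromBlocks x 0 0 y : Matrix (Fin 2 ⊕ Fin 2) (Fin 2 ⊕ Fin 2) R) *
      (Matrix.fromRows 1 1 : Matrix (Fin 2 ⊕ Fin 2) (Fin 2) R)
    simp [Matrix.fromCols_mul_fromBlocks, Matrix.fromCols_mul_fromRows]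
  · rw [← h1]
    refine h2 _ _ ⟨Matrix.fromRows a c, Matrix.fromCols b d, ?_⟩
    show Matrix.fromBlocks (a * x * b) 0 0 (c * x * d) =
      (Matrix.fromRows a c : Matrix (Fin 2 ⊕ Fin 2) (Fin 2) R) * x *
      (Matrix.fromCols b d : Matrix (Fin 2) (Fin 2 ⊕ Fin 2) R)
    rw [Matrix.fromRows_mul, Matrix.fromRows_mul_fromCols, e1, e2]
  · rw [← h3]
    apply le_antisymm
    · refine h2 _ _ ⟨Matrix.single 0 () 1, Matrix.single () 0 1, ?_⟩
      simp [Matrix.single_mul_single_same]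
    · exact h2 _ _ (Obj.le_of_submatrix _ _ (fun _ => 0) (fun _ => 0) (by ext i j; simp))

end Matrices

end Crest.Agent.H7.Qt
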