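import Mathlib
import Crest.Prelude.Def_Quasitrace
import Crest.Agent.H7.QtA

/-! From a rank function on a C⋆-algebra to a 1-quasitrace. -/

set_option autoImplicit false

open MeasureTheory Set TopologicalSpace
open scoped ENNReal NNReal

namespace Crest.Agent.H7.Qt

variable {B : Type*} [CStarAlgebra B] [PartialOrder B] [StarOrderedRing B]

lemma IsRank.zero {B : Type*} [Ring B] {r : B → ℝ} (hr : IsRank r) : r 0 = 0 := by
  have h1 := hr.orth 0 0 0 0 0 (by simp) (by simp)
  have h2 := hr.nonneg 0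
  simp only [mul_zero] at h1
  linarith

noncomputable def dd (r : B → ℝ) (h : B) (t : ℝ) : ℝ≥0∞ :=
  ⨆ (ε : ℝ) (_ : 0 < ε), ENNReal.ofReal (r ((h - algebraMap ℝ B (t + ε))⁺))

noncomputable def tp (r : B → ℝ) (h : B) : ℝ := (∫⁻ t in Ioi (0 : ℝ), dd r h t).toReal

noncomputable def tsa (r : B → ℝ) (h : B) : ℝ := tp r h - tp r (-h)

section Calc

variable {X : Type*} [TopologicalSpace X] (ψ : C(X, ℝ) →ₐ[ℝ] B) (hψ : ∀ F, star (ψ F) = ψ F)
include hψ

lemma psi_nonneg {F : C(X, ℝ)} (hF : ∀ x, 0 ≤ F x) : 0 ≤ ψ F := by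
  let G : C(X, ℝ) := ⟨fun x => Real.sqrt (F x), by fun_prop⟩
  have : F = G * G := by
    ext x
    simp [G, Real.mul_self_sqrt (hF x)]
  rw [this, map_mul]
  nth_rewrite 1 [← hψ G]
  exact star_mul_self_nonneg _

lemma psi_posPart (F : C(X, ℝ)) (c : ℝ) (G : C(X, ℝ)) (hG : ∀ x, G x = max (F x - c) 0) :
    (ψ F - algebraMap ℝ B c)⁺ = ψ G := by
  let G' : C(X, ℝ) := ⟨fun x => max (c - F x) 0, by fun_prop⟩
  refine (CFC.posPart_negPart_unique (b := ψ G) (c := ψ G') ?_ ?_ ?_ ?_).1
  · rw [← ψ.commutes, ← map_sub, ← map_sub]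
    congr 1
    ext x
    simp only [ContinuousMap.sub_apply, hG, G', ContinuousMap.coe_mk, algebraMap_apply,
      smul_eq_mul, mul_one]
    rcases le_total (F x) c with h | h
    · rw [max_eq_right (by linarith), max_eq_left (by linarith)]; ring
    · rw [max_eq_left (by linarith), max_eq_right (by linarith)]; ring
  · rw [← map_mul, ← map_zero ψ]
    congr 1
    ext x
    simp only [ContinuousMap.mul_apply, hG, G', ContinuousMap.coe_mk, ContinuousMap.zero_apply]
    rcases le_total (F x) c with h | h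
    · rw [max_eq_right (by linarith), zero_mul]
    · rw [max_eq_right (b := 0) (a := c - F x) (by linarith), mul_zero]
  · exact psi_nonneg ψ hψ fun x => by rw [hG]; exact le_max_right _ _
  · exact psi_nonneg ψ hψ fun x => le_max_right _ _

omit hψ in
noncomputable def content [CompactSpace X] [T2Space X] {r : B → ℝ} (hr : IsRank r) : Content X where
  toFun K := ⨅ g : {g : C(X, ℝ) // (∀ x, 0 ≤ g x) ∧ ∀ x ∈ K, 0 < g x}, (⟨r (ψ g.1), hr.nonneg _⟩ : ℝ≥0)
  mono' K₁ K₂ h := by
    haveI : Nonempty {g : C(X, ℝ) // (∀ x, 0 ≤ g x) ∧ ∀ x ∈ K₂, 0 < g x} :=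
      ⟨⟨1, fun x => by simp, fun x _ => by simp⟩⟩
    refine le_ciInf fun g => ?_
    exact ciInf_le_of_le (OrderBot.bddBelow _) ⟨g.1, g.2.1, fun x hx => g.2.2 x (h hx)⟩ le_rfl
  sup_le' K₁ K₂ := by
    haveI : Nonempty {g : C(X, ℝ) // (∀ x, 0 ≤ g x) ∧ ∀ x ∈ K₁, 0 < g x} :=
      ⟨⟨1, fun x => by simp, fun x _ => by simp⟩⟩
    haveI : Nonempty {g : C(X, ℝ) // (∀ x, 0 ≤ g x) ∧ ∀ x ∈ K₂, 0 < g x} :=
      ⟨⟨1, fun x => by simp, fun x _ => by simp⟩⟩
    refine NNReal.le_iInf_add_iInf fun g₁ g₂ => ?_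
    refine ciInf_le_of_le (OrderBot.bddBelow _) ⟨g₁.1 + g₂.1, fun x => ?_, fun x hx => ?_⟩ ?_
    · exact add_nonneg (g₁.2.1 x) (g₂.2.1 x)
    · rcases (show x ∈ (K₁ : Set X) ∪ K₂ from hx) with hx | hx
      · exact add_pos_of_pos_of_nonneg (g₁.2.2 x hx) (g₂.2.1 x)
      · exact add_pos_of_nonneg_of_pos (g₁.2.1 x) (g₂.2.2 x hx)
    · rw [← NNReal.coe_le_coe]
      simp only [map_add, NNReal.coe_mk, NNReal.coe_add]
      exact hr.add_le _ _
  sup_disjoint' K₁ K₂ hd h₁ h₂ := by
    haveI : Nonempty {g : C(X, ℝ) // (∀ x, 0 ≤ g x) ∧ ∀ x ∈ K₁, 0 < g x} :=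
      ⟨⟨1, fun x => by simp, fun x _ => by simp⟩⟩
    haveI : Nonempty {g : C(X, ℝ) // (∀ x, 0 ≤ g x) ∧ ∀ x ∈ K₂, 0 < g x} :=
      ⟨⟨1, fun x => by simp, fun x _ => by simp⟩⟩
    haveI : Nonempty {g : C(X, ℝ) // (∀ x, 0 ≤ g x) ∧ ∀ x ∈ K₁ ⊔ K₂, 0 < g x} :=
      ⟨⟨1, fun x => by simp, fun x _ => by simp⟩⟩
    apply le_antisymm
    · refine NNReal.le_iInf_add_iInf fun g₁ g₂ => ?_
      refine ciInf_le_of_le (OrderBot.bddBelow _) ⟨g₁.1 + g₂.1, fun x => ?_, fun x hx => ?_⟩ ?_
      · exact add_nonneg (g₁.2.1 x) (g₂.2.1 x)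
      · rcases (show x ∈ (K₁ : Set X) ∪ K₂ from hx) with hx | hx
        · exact add_pos_of_pos_of_nonneg (g₁.2.2 x hx) (g₂.2.1 x)
        · exact add_pos_of_nonneg_of_pos (g₁.2.1 x) (g₂.2.2 x hx)
      · rw [← NNReal.coe_le_coe]
        simp only [map_add, NNReal.coe_mk, NNReal.coe_add]
        exact hr.add_le _ _
    · refine le_ciInf fun g => ?_
      obtain ⟨f, hf0, hf1, -⟩ := exists_continuous_zero_one_of_isClosed h₁ h₂ hd
      let u₁ : C(X, ℝ) := ⟨fun x => max (1 / 2 - f x) 0, by fun_prop⟩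
      let u₂ : C(X, ℝ) := ⟨fun x => max (f x - 1 / 2) 0, by fun_prop⟩
      have hu : ∀ x, u₁ x * u₂ x = 0 := by
        intro x
        simp only [u₁, u₂, ContinuousMap.coe_mk]
        rcases le_total (f x) (1 / 2) with h | h
        · rw [max_eq_right (a := f x - 1 / 2) (by linarith), mul_zero]
        · rw [max_eq_right (by linarith), zero_mul]
      have e1 : ψ u₁ * ψ g.1 * ψ u₂ = 0 := by
        rw [← map_mul, ← map_mul, ← map_zero ψ]
        congr 1
        ext x
        simp only [ContinuousMap.mul_apply, ContinuousMap.zero_apply]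
        linear_combination g.1 x * hu x
      have e2 : ψ u₂ * ψ g.1 * ψ u₁ = 0 := by
        rw [← map_mul, ← map_mul, ← map_zero ψ]
        congr 1
        ext x
        simp only [ContinuousMap.mul_apply, ContinuousMap.zero_apply]
        linear_combination g.1 x * hu x
      have key := hr.orth (ψ g.1) (ψ u₁) (ψ u₁) (ψ u₂) (ψ u₂) e1 e2
      rw [← map_mul, ← map_mul, ← map_mul, ← map_mul] at key
      have p1 : (∀ x, 0 ≤ (u₁ * g.1 * u₁) x) ∧ ∀ x ∈ K₁, 0 < (u₁ * g.1 * u₁) x := by
        refine ⟨fun x => ?_, fun x hx => ?_⟩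
        · simp only [ContinuousMap.mul_apply]
          nlinarith [g.2.1 x, mul_self_nonneg (u₁ x)]
        · have h0 : f x = 0 := hf0 hx
          have h1 : u₁ x = 1 / 2 := by simp [u₁, h0]
          have h2 := g.2.2 x (show x ∈ (K₁ : Set X) ∪ K₂ from Or.inl hx)
          simp only [ContinuousMap.mul_apply, h1]
          positivity
      have p2 : (∀ x, 0 ≤ (u₂ * g.1 * u₂) x) ∧ ∀ x ∈ K₂, 0 < (u₂ * g.1 * u₂) x := by
        refine ⟨fun x => ?_, fun x hx => ?_⟩
        · simp only [ContinuousMap.mul_apply]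
          nlinarith [g.2.1 x, mul_self_nonneg (u₂ x)]
        · have h0 : f x = 1 := hf1 hx
          have h1 : u₂ x = 1 / 2 := by simp only [u₂, h0, ContinuousMap.coe_mk]; norm_num
          have h2 := g.2.2 x (show x ∈ (K₁ : Set X) ∪ K₂ from Or.inr hx)
          simp only [ContinuousMap.mul_apply, h1]
          positivity
      refine le_trans (add_le_add (ciInf_le (OrderBot.bddBelow _) ⟨_, p1⟩)
        (ciInf_le (OrderBot.bddBelow _) ⟨_, p2⟩)) ?_
      rw [← NNReal.coe_le_coe]
      exact key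

theorem represent [CompactSpace X] [T2Space X] [MeasurableSpace X] [BorelSpace X] {r : B → ℝ}
    (hr : IsRank r) :
    ∃ μ : Measure X, IsFiniteMeasure μ ∧ ∀ F : C(X, ℝ), tsa r (ψ F) = ∫ x, F x ∂μ := by
  set c := content ψ hr with hc
  have hfin : IsFiniteMeasure c.measure := inferInstance
  have hlev : ∀ (F : C(X, ℝ)) (t : ℝ), c.measure {x | t < F x} = dd r (ψ F) t := by
    intro F t
    have hU : IsOpen {x | t < F x} := isOpen_lt continuous_const F.continuous
    rw [c.measure_apply hU.measurableSet, c.outerMeasure_of_isOpen _ hU]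
    apply le_antisymm
    · refine iSup₂_le fun K hK => ?_
      rcases (K : Set X).eq_empty_or_nonempty with h0 | hne
      · have : K = ⊥ := Compacts.ext h0
        rw [this, c.empty]
        exact zero_le
      obtain ⟨x₀, hx₀, hmin⟩ := K.isCompact.exists_isMinOn hne F.continuous.continuousOn
      have ht : t < F x₀ := hK hx₀
      let G : C(X, ℝ) := ⟨fun x => max (F x - (t + (F x₀ - t) / 2)) 0, by fun_prop⟩
      refine le_iSup₂_of_le ((F x₀ - t) / 2) (by linarith) ?_
      rw [psi_posPart ψ hψ F _ G fun x => rfl]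
      have : c.toFun K ≤ ⟨r (ψ G), hr.nonneg _⟩ := by
        have p1 : (∀ x, 0 ≤ G x) ∧ ∀ x ∈ K, 0 < G x := by
          refine ⟨fun x => le_max_right _ _, fun x hx => ?_⟩
          have : F x₀ ≤ F x := hmin hx
          exact lt_max_of_lt_left (by linarith)
        exact ciInf_le_of_le (OrderBot.bddBelow _) ⟨G, p1⟩ le_rfl
      rw [ENNReal.ofReal_eq_coe_nnreal (hr.nonneg _)]
      exact ENNReal.coe_le_coe.2 this
    · refine iSup₂_le fun ε hε => ?_
      let K : Compacts X := ⟨{x | t + ε ≤ F x}, (isClosed_le continuous_const F.continuous).isCompact⟩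
      refine le_trans ?_ (c.le_innerContent K _ fun x (hx : t + ε ≤ F x) =>
        (show t < F x by linarith))
      let G : C(X, ℝ) := ⟨fun x => max (F x - (t + ε)) 0, by fun_prop⟩
      rw [psi_posPart ψ hψ F _ G fun x => rfl, ENNReal.ofReal_eq_coe_nnreal (hr.nonneg _)]
      refine ENNReal.coe_le_coe.2 ?_
      haveI : Nonempty {g : C(X, ℝ) // (∀ x, 0 ≤ g x) ∧ ∀ x ∈ K, 0 < g x} :=
        ⟨⟨1, fun x => by simp, fun x _ => by simp⟩⟩
      refine le_ciInf fun g => ?_
      -- `G` is a multiple of `g`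
      let H : C(X, ℝ) := ⟨fun x => max (t + ε - F x) 0, by fun_prop⟩
      have hpos : ∀ x, 0 < g.1 x + H x := by
        intro x
        rcases le_or_gt (t + ε) (F x) with h | h
        · exact add_pos_of_pos_of_nonneg (g.2.2 x h) (le_max_right _ _)
        · exact add_pos_of_nonneg_of_pos (g.2.1 x) (lt_max_of_lt_left (by linarith))
      let w : C(X, ℝ) := ⟨fun x => G x / (g.1 x + H x),
        G.continuous.div (by fun_prop) fun x => (hpos x).ne'⟩
      have hw : G = w * g.1 * 1 := by
        ext x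
        simp only [mul_one, ContinuousMap.mul_apply, w, ContinuousMap.coe_mk]
        rcases le_or_gt (t + ε) (F x) with h | h
        · have h1 : H x = 0 := max_eq_right (by linarith)
          have h2 := (g.2.2 x h).ne'
          rw [h1, add_zero, div_mul_cancel₀ _ h2]
        · have h1 : G x = 0 := max_eq_right (by linarith)
          rw [h1, zero_div, zero_mul]
      rw [← NNReal.coe_le_coe]
      exact hr.le_of_eq _ (ψ w) _ (ψ 1) (by rw [← map_mul, ← map_mul, ← hw])
  have htp : ∀ F : C(X, ℝ), tp r (ψ F) = (∫⁻ x, ENNReal.ofReal (F x) ∂c.measure).toReal := by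
    intro F
    have h1 := lintegral_eq_lintegral_meas_lt c.measure (f := fun x => max (F x) 0)
      (Filter.Eventually.of_forall fun x => le_max_right _ _)
      (Continuous.aemeasurable (by fun_prop))
    have h2 : ∀ x, ENNReal.ofReal (max (F x) 0) = ENNReal.ofReal (F x) := by
      intro x
      rcases le_total (F x) 0 with h | h
      · rw [max_eq_right h, ENNReal.ofReal_of_nonpos h, ENNReal.ofReal_zero]
      · rw [max_eq_left h]
    simp only [h2] at h1
    rw [h1, tp]
    congr 1
    refine setLIntegral_congr_fun measurableSet_Ioi fun t ht => ?_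
    rw [← hlev]
    congr 1
    ext x
    simp only [mem_ofPred_eq, lt_max_iff]
    exact ⟨Or.inl, fun h => h.resolve_right (not_lt.2 (le_of_lt ht))⟩
  refine ⟨c.measure, hfin, fun F => ?_⟩
  have hint : Integrable (fun x => F x) c.measure :=
    F.continuous.integrable_of_hasCompactSupport (HasCompactSupport.of_compactSpace _)
  rw [integral_eq_lintegral_pos_part_sub_lintegral_neg_part hint, tsa, htp, ← map_neg, htp]
  rfl

end Calc

/-- real-linearity on commuting pairs -/
theorem tsa_lin {r : B → ℝ} (hr : IsRank r) {h k : B} (hh : IsSelfAdjoint h) (hk : IsSelfAdjoint k)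
    (hc : h * k = k * h) (α β : ℝ) :
    tsa r ((α : ℂ) • h + (β : ℂ) • k) = α * tsa r h + β * tsa r k := by
  set n := h + Complex.I • k with hn
  have hsn : star n = h - Complex.I • k := by
    rw [hn, star_add, star_smul, hh.star_eq, hk.star_eq, Complex.star_def, Complex.conj_I, neg_smul,
      sub_eq_add_neg]
  have hN : IsStarNormal n := by
    constructor
    rw [hsn, hn]
    simp only [Commute, SemiconjBy, sub_mul, mul_add, add_mul, mul_sub, mul_smul_comm,
      smul_mul_assoc, hc]
    module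
  let φ := cfcHom (R := ℂ) hN
  let ψ : C(spectrum ℂ n, ℝ) →ₐ[ℝ] B :=
    (φ.toAlgHom.restrictScalars ℝ).comp
      (Complex.ofRealAm.compLeftContinuous ℝ Complex.continuous_ofReal)
  have hψa : ∀ F : C(spectrum ℂ n, ℝ), ψ F = φ ⟨fun x => (F x : ℂ), by fun_prop⟩ := fun F => rfl
  have hψ : ∀ F, star (ψ F) = ψ F := by
    intro F
    rw [hψa, ← map_star]
    congr 1
    ext x
    simp
  letI : MeasurableSpace (spectrum ℂ n) := borel _
  haveI : BorelSpace (spectrum ℂ n) := ⟨rfl⟩
  obtain ⟨μ, hμ, hrep⟩ := represent ψ hψ hr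
  let Fr : C(spectrum ℂ n, ℝ) := ⟨fun x => (x : ℂ).re, by fun_prop⟩
  let Fi : C(spectrum ℂ n, ℝ) := ⟨fun x => (x : ℂ).im, by fun_prop⟩
  have hid : φ ((ContinuousMap.id ℂ).restrict (spectrum ℂ n)) = n := cfcHom_id hN
  have h1 : ψ Fr = h := by
    have : ψ Fr = φ ((2⁻¹ : ℂ) • ((ContinuousMap.id ℂ).restrict (spectrum ℂ n) +
        star ((ContinuousMap.id ℂ).restrict (spectrum ℂ n)))) := by
      rw [hψa]
      congr 1
      ext x
      simp [Fr, Complex.add_conj]
    rw [this, map_smul, map_add, map_star, hid, hsn, hn]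
    module
  have h2 : ψ Fi = k := by
    have : ψ Fi = φ ((-Complex.I / 2) • ((ContinuousMap.id ℂ).restrict (spectrum ℂ n) -
        star ((ContinuousMap.id ℂ).restrict (spectrum ℂ n)))) := by
      rw [hψa]
      congr 1
      ext x
      simp only [Fi, ContinuousMap.coe_mk, ContinuousMap.smul_apply, ContinuousMap.sub_apply,
        ContinuousMap.restrict_apply, ContinuousMap.id_apply, ContinuousMap.star_apply,
        Complex.star_def, Complex.sub_conj, smul_eq_mul]
      push_cast
      linear_combination ((x : ℂ).im : ℂ) * Complex.I_mul_I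
    rw [this, map_smul, map_sub, map_star, hid, hsn, hn]
    have : h + Complex.I • k - (h - Complex.I • k) = (2 * Complex.I) • k := by module
    rw [this, smul_smul]
    have : -Complex.I / 2 * (2 * Complex.I) = 1 := by
      linear_combination (-1 : ℂ) * Complex.I_mul_I
    rw [this, one_smul]
  have h3 : (α : ℂ) • h + (β : ℂ) • k = ψ (α • Fr + β • Fi) := by
    rw [map_add, map_smul, map_smul, h1, h2, Complex.coe_smul, Complex.coe_smul]
  have hint : ∀ F : C(spectrum ℂ n, ℝ), Integrable (fun x => F x) μ := fun F =>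
    F.continuous.integrable_of_hasCompactSupport (HasCompactSupport.of_compactSpace _)
  rw [h3, hrep, ← h1, ← h2, hrep, hrep, ← integral_const_mul, ← integral_const_mul,
    ← integral_add ((hint Fr).const_mul α) ((hint Fi).const_mul β)]
  rfl

lemma rank_star_mul {r : B → ℝ} (hr : IsRank r) (x : B) {t ε : ℝ} (ht : 0 < t) (hε : 0 < ε) :
    r ((star x * x - algebraMap ℝ B (t + ε))⁺) ≤ r ((x * star x - algebraMap ℝ B t)⁺) := by
  set a := star x * x with ha
  have hsa : IsSelfAdjoint a := IsSelfAdjoint.star_mul_self x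
  let φ := cfcHom (R := ℝ) hsa
  let ψ : C(spectrum ℝ a, ℝ) →ₐ[ℝ] B := φ.toAlgHom
  have hψ : ∀ F, star (ψ F) = ψ F := by
    intro F
    show star (φ F) = φ F
    rw [← map_star]
    congr 1
  let s : C(spectrum ℝ a, ℝ) := (ContinuousMap.id ℝ).restrict (spectrum ℝ a)
  have hs : ψ s = a := cfcHom_id hsa
  let G : C(spectrum ℝ a, ℝ) := ⟨fun p => max (s p - (t + ε)) 0, by fun_prop⟩
  let Q : C(spectrum ℝ a, ℝ) := ⟨fun p => min 1 (max 0 ((s p - t - ε / 2) * (2 / ε))), by fun_prop⟩
  set y := (x * star x - algebraMap ℝ B t)⁺ with hy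
  have hb : IsSelfAdjoint (x * star x - algebraMap ℝ B t) :=
    (IsSelfAdjoint.mul_star_self x).sub (IsSelfAdjoint.algebraMap B (IsSelfAdjoint.all t))
  have h1 : star (x * ψ Q) * (x * star x - algebraMap ℝ B t) * (x * ψ Q) ≤
      star (x * ψ Q) * y * (x * ψ Q) :=
    star_left_conjugate_le_conjugate (CFC.le_posPart hb) _
  have h2 : star (x * ψ Q) * (x * star x - algebraMap ℝ B t) * (x * ψ Q) =
      ψ (Q * (s * s - t • s) * Q) := by
    rw [map_mul, map_mul, map_sub, map_mul, map_smul, hs, star_mul, hψ,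
      Algebra.algebraMap_eq_smul_one]
    generalize ψ Q = q
    simp only [ha, mul_sub, sub_mul, mul_assoc, mul_smul_comm, smul_mul_assoc, one_mul]
  set δ : ℝ := min 1 ((t + ε / 2) * (ε / 2)) with hδ
  have hδ0 : 0 < δ := lt_min one_pos (by positivity)
  set z := star (x * ψ Q) * y * (x * ψ Q) + (1 - ψ Q * ψ Q) with hz
  have h3 : algebraMap ℝ B δ ≤ z := by
    refine le_trans ?_ (add_le_add_left h1 _)
    rw [h2, ← sub_nonneg, ← map_mul, ← map_one ψ, ← map_sub, ← map_add, ← ψ.commutes, ← map_sub]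
    refine psi_nonneg ψ hψ fun p => ?_
    simp only [ContinuousMap.sub_apply, ContinuousMap.add_apply, ContinuousMap.mul_apply,
      ContinuousMap.smul_apply, ContinuousMap.one_apply, algebraMap_apply,
      smul_eq_mul, mul_one]
    have hQ0 : 0 ≤ Q p := le_min zero_le_one (le_max_left _ _)
    have hQ1 : Q p ≤ 1 := min_le_left _ _
    have hd1 : δ ≤ 1 := min_le_left _ _
    have hd2 : δ ≤ (t + ε / 2) * (ε / 2) := min_le_right _ _
    rcases le_total (s p) (t + ε / 2) with h | h
    · have : Q p = 0 := by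
        have : (s p - t - ε / 2) * (2 / ε) ≤ 0 :=
          mul_nonpos_of_nonpos_of_nonneg (by linarith) (by positivity)
        simp only [Q, ContinuousMap.coe_mk]
        rw [max_eq_left this, min_eq_right zero_le_one]
      rw [this]
      linarith
    · have h4 : δ ≤ s p * s p - t * s p := by nlinarith
      have h5 : Q p * Q p ≤ 1 := by nlinarith
      nlinarith [mul_nonneg (mul_nonneg hQ0 hQ0) (sub_nonneg.2 h4),
        mul_nonneg (sub_nonneg.2 h5) (sub_nonneg.2 hd1)]
  have hunit : IsUnit z := by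
    refine CStarAlgebra.isUnit_of_le (algebraMap ℝ B δ) h3 ⟨?_, ?_⟩
    · rw [← ψ.commutes]
      exact psi_nonneg ψ hψ fun p => by simpa using hδ0.le
    · exact (IsUnit.mk0 δ hδ0.ne').map _
  obtain ⟨u, hu⟩ := hunit
  have h4 : ψ G * (1 - ψ Q * ψ Q) = 0 := by
    rw [← map_mul, ← map_one ψ, ← map_sub, ← map_mul, ← map_zero ψ]
    congr 1
    ext p
    simp only [ContinuousMap.sub_apply, ContinuousMap.mul_apply, ContinuousMap.one_apply,
      ContinuousMap.zero_apply]
    rcases le_total (s p) (t + ε) with h | h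
    · have : G p = 0 := max_eq_right (by linarith)
      rw [this, zero_mul]
    · have : Q p = 1 := by
        have : 1 ≤ (s p - t - ε / 2) * (2 / ε) := by
          rw [mul_div_assoc', le_div_iff₀ hε]
          linarith
        exact min_eq_left (le_max_of_le_right this)
      rw [this]
      ring
  rw [← hs, psi_posPart ψ hψ s _ G fun p => rfl]
  refine hr.le_of_eq _ (ψ G * star (x * ψ Q)) _ (x * ψ Q * (↑u⁻¹ : B)) ?_
  have h5 : ψ G * z = ψ G * star (x * ψ Q) * y * (x * ψ Q) := by
    rw [hz, mul_add, h4, add_zero]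
    simp only [mul_assoc]
  rw [← mul_assoc, ← h5, ← hu, mul_assoc, Units.mul_inv, mul_one]

lemma tp_star_mul {r : B → ℝ} (hr : IsRank r) (x : B) : tp r (star x * x) = tp r (x * star x) := by
  have key : ∀ (x : B) (t : ℝ), 0 < t → dd r (star x * x) t ≤ dd r (x * star x) t := by
    intro x t ht
    refine iSup₂_le fun ε hε => le_iSup₂_of_le (ε / 2) (by linarith) ?_
    refine ENNReal.ofReal_le_ofReal ?_
    have := rank_star_mul hr x (t := t + ε / 2) (ε := ε / 2) (by linarith) (by linarith)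
    rwa [add_assoc, add_halves] at this
  unfold tp
  congr 1
  refine setLIntegral_congr_fun measurableSet_Ioi fun t ht => le_antisymm (key x t ht) ?_
  simpa using key (star x) t ht

lemma tp_of_nonpos {r : B → ℝ} (hr : IsRank r) {h : B} (hh : h ≤ 0) : tp r h = 0 := by
  have : ∫⁻ t in Ioi (0 : ℝ), dd r h t = ∫⁻ t in Ioi (0 : ℝ), 0 := by
    refine setLIntegral_congr_fun measurableSet_Ioi fun t ht => ?_
    refine le_antisymm (iSup₂_le fun ε hε => ?_) zero_le
    have h0 : 0 ≤ algebraMap ℝ B (t + ε) := by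
      rw [Algebra.algebraMap_eq_smul_one]
      exact smul_nonneg (add_pos ht hε).le zero_le_one
    have h1 : h - algebraMap ℝ B (t + ε) ≤ 0 := sub_nonpos.2 (hh.trans h0)
    rw [(CFC.posPart_eq_zero_iff _ (by simpa using (neg_nonneg.2 h1).isSelfAdjoint.neg)).2 h1, hr.zero, ENNReal.ofReal_zero]
  rw [tp, this]
  simp

lemma tp_nonneg (r : B → ℝ) (h : B) : 0 ≤ tp r h := ENNReal.toReal_nonneg

lemma tsa_zero {r : B → ℝ} : tsa r 0 = 0 := by simp [tsa]

lemma tsa_proj {r : B → ℝ} (hr : IsRank r) {p : B} (hp : star p = p) (hpp : p * p = p) :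
    tsa r p = r p := by
  have hp0 : 0 ≤ p := by
    rw [← hpp]
    nth_rewrite 1 [← hp]
    exact star_mul_self_nonneg _
  have hq0 : 0 ≤ 1 - p := by
    have : 1 - p = star (1 - p) * (1 - p) := by
      rw [star_sub, star_one, hp, sub_mul, mul_sub, mul_sub, hpp]; simp
    rw [this]
    exact star_mul_self_nonneg _
  have hpos : ∀ c : ℝ, 0 < c → (p - algebraMap ℝ B c)⁺ = (max (1 - c) 0) • p := by
    intro c hc
    refine (CFC.posPart_negPart_unique (c := (max (c - 1) 0) • p + c • (1 - p)) ?_ ?_ ?_ ?_).1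
    · rw [Algebra.algebraMap_eq_smul_one]
      rcases le_total c 1 with h | h
      · rw [max_eq_left (by linarith), max_eq_right (by linarith)]; module
      · rw [max_eq_right (by linarith), max_eq_left (by linarith)]; module
    · rcases le_total c 1 with h | h
      · rw [max_eq_right (a := c - 1) (by linarith)]
        simp [mul_sub, hpp]
      · rw [max_eq_right (a := 1 - c) (by linarith)]
        simp
    · exact smul_nonneg (le_max_right _ _) hp0
    · exact add_nonneg (smul_nonneg (le_max_right _ _) hp0) (smul_nonneg hc.le hq0)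
  have hdd : ∀ t ∈ Ioi (0 : ℝ), dd r p t = (Iio (1 : ℝ)).indicator (fun _ => ENNReal.ofReal (r p)) t := by
    intro t ht
    have ht : 0 < t := ht
    by_cases h1 : t < 1
    · rw [indicator_of_mem (show t ∈ Iio 1 from h1)]
      apply le_antisymm
      · refine iSup₂_le fun ε hε => ENNReal.ofReal_le_ofReal ?_
        rw [hpos _ (add_pos ht hε)]
        exact hr.le_of_eq _ ((max (1 - (t + ε)) 0) • (1 : B)) _ 1 (by simp)
      · refine le_iSup₂_of_le ((1 - t) / 2) (by linarith) (ENNReal.ofReal_le_ofReal ?_)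
        rw [hpos _ (by linarith), max_eq_left (by linarith)]
        refine hr.le_of_eq _ ((1 - (t + (1 - t) / 2))⁻¹ • (1 : B)) _ 1 ?_
        have : (1 - (t + (1 - t) / 2)) ≠ 0 := by linarith
        simp [smul_smul, this]
    · rw [indicator_of_notMem (show t ∉ Iio 1 from h1)]
      refine le_antisymm (iSup₂_le fun ε hε => ?_) zero_le
      rw [hpos _ (add_pos ht hε), max_eq_right (by linarith), zero_smul, hr.zero,
        ENNReal.ofReal_zero]
  rw [tsa, tp_of_nonpos hr (neg_nonpos.2 hp0), sub_zero, tp,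
    setLIntegral_congr_fun measurableSet_Ioi hdd, lintegral_indicator measurableSet_Iio,
    Measure.restrict_restrict measurableSet_Iio, setLIntegral_const, Iio_inter_Ioi]
  simp [hr.nonneg]

noncomputable def reP (x : B) : B := (2⁻¹ : ℂ) • (x + star x)

noncomputable def imP (x : B) : B := (-Complex.I / 2) • (x - star x)

noncomputable def tau (r : B → ℝ) (x : B) : ℂ := tsa r (reP x) + Complex.I * tsa r (imP x)

omit [PartialOrder B] [StarOrderedRing B] in
lemma reP_sa (x : B) : IsSelfAdjoint (reP x) := by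
  simp [IsSelfAdjoint, reP, add_comm]

omit [PartialOrder B] [StarOrderedRing B] in
lemma imP_sa (x : B) : IsSelfAdjoint (imP x) := by
  simp only [IsSelfAdjoint, imP, star_smul, star_sub, star_star, Complex.star_def, map_div₀, map_neg,
    Complex.conj_I, map_ofNat]
  module

omit [PartialOrder B] [StarOrderedRing B] in
lemma reP_imP {h k : B} (hh : IsSelfAdjoint h) (hk : IsSelfAdjoint k) :
    reP (h + Complex.I • k) = h ∧ imP (h + Complex.I • k) = k := by
  have hsn : star (h + Complex.I • k) = h - Complex.I • k := by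
    rw [star_add, star_smul, hh.star_eq, hk.star_eq, Complex.star_def, Complex.conj_I, neg_smul,
      sub_eq_add_neg]
  constructor
  · rw [reP, hsn]; module
  · rw [imP, hsn]
    have : h + Complex.I • k - (h - Complex.I • k) = (2 * Complex.I) • k := by module
    rw [this, smul_smul]
    have : -Complex.I / 2 * (2 * Complex.I) = 1 := by
      linear_combination (-1 : ℂ) * Complex.I_mul_I
    rw [this, one_smul]

lemma tau_sa {r : B → ℝ} {h : B} (hh : IsSelfAdjoint h) : tau r h = tsa r h := by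
  have := reP_imP hh (IsSelfAdjoint.zero B)
  rw [smul_zero, add_zero] at this
  rw [tau, this.1, this.2, tsa_zero]
  simp

omit [PartialOrder B] [StarOrderedRing B] in
lemma reP_add_imP (x : B) : reP x + Complex.I • imP x = x := by
  rw [reP, imP, smul_smul]
  have : Complex.I * (-Complex.I / 2) = 2⁻¹ := by
    linear_combination (-1 / 2 : ℂ) * Complex.I_mul_I
  rw [this]
  module

theorem tau_isOneQuasitrace {r : B → ℝ} (hr : IsRank r) :
    Crest.OpAlg.IsOneQuasitrace (tau r) := by
  refine ⟨fun x => ?_, fun h k hh hk => ?_, fun S hS => ?_⟩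
  · rw [tau_sa (IsSelfAdjoint.star_mul_self x), tau_sa (IsSelfAdjoint.mul_star_self x), tsa, tsa,
      tp_of_nonpos hr (neg_nonpos.2 (star_mul_self_nonneg x)),
      tp_of_nonpos hr (neg_nonpos.2 (mul_star_self_nonneg x)), tp_star_mul hr]
    refine ⟨rfl, Complex.ofReal_im _, ?_⟩
    rw [Complex.ofReal_re, sub_zero]
    exact tp_nonneg _ _
  · rw [tau_sa hh, tau_sa hk, tau, (reP_imP hh hk).1, (reP_imP hh hk).2]
  · have hre : ∀ x ∈ S, reP x ∈ S := fun x hx => S.smul_mem (add_mem hx (star_mem hx)) _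
    have him : ∀ x ∈ S, imP x ∈ S := fun x hx => S.smul_mem (sub_mem hx (star_mem hx)) _
    constructor
    · intro x hx y hy
      have e1 : reP (x + y) = ((1 : ℝ) : ℂ) • reP x + ((1 : ℝ) : ℂ) • reP y := by
        simp only [reP, star_add, Complex.ofReal_one]; module
      have e2 : imP (x + y) = ((1 : ℝ) : ℂ) • imP x + ((1 : ℝ) : ℂ) • imP y := by
        simp only [imP, star_add, Complex.ofReal_one]; module
      rw [tau, e1, e2, tsa_lin hr (reP_sa x) (reP_sa y) (hS _ (hre x hx) _ (hre y hy)),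
        tsa_lin hr (imP_sa x) (imP_sa y) (hS _ (him x hx) _ (him y hy)), tau, tau]
      push_cast
      ring
    · intro c x hx
      have hc := hS _ (hre x hx) _ (him x hx)
      have hs : ∀ α β : ℝ, IsSelfAdjoint ((α : ℂ) • reP x + (β : ℂ) • imP x) := by
        intro α β
        simp [IsSelfAdjoint, (reP_sa x).star_eq, (imP_sa x).star_eq]
      have e : c • x = (((c.re : ℝ) : ℂ) • reP x + ((-c.im : ℝ) : ℂ) • imP x) +
          Complex.I • (((c.im : ℝ) : ℂ) • reP x + ((c.re : ℝ) : ℂ) • imP x) := by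
        conv_lhs => rw [← reP_add_imP x, ← Complex.re_add_im c]
        push_cast
        match_scalars
        · ring
        · linear_combination (c.im : ℂ) * Complex.I_mul_I
      rw [e, tau, (reP_imP (hs _ _) (hs _ _)).1, (reP_imP (hs _ _) (hs _ _)).2,
        tsa_lin hr (reP_sa x) (imP_sa x) hc, tsa_lin hr (reP_sa x) (imP_sa x) hc, tau]
      conv_rhs => rw [← Complex.re_add_im c]
      push_cast
      linear_combination (-(c.im : ℂ) * (tsa r (imP x) : ℂ)) * Complex.I_mul_I

end Crest.Agent.H7.Qt
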