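import Mathlib
import Crest.Prelude.Def_Quasitrace
import Crest.Agent.H7.QtB

/-! The rank condition gives a normalised 2-quasitrace; the final assembly. -/

set_option autoImplicit false

open Crest.OpAlg

namespace Crest.Agent.H7.Qt

section Alg

variable {A B : Type*} [Ring A] [StarRing A] [Algebra ℂ A] [StarModule ℂ A]
  [Ring B] [StarRing B] [Algebra ℂ B] [StarModule ℂ B]

lemma qt_comp (φ : A →⋆ₙₐ[ℂ] B) {τ : B → ℂ} (h : IsOneQuasitrace τ) :
    IsOneQuasitrace (fun x => τ (φ x)) := by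
  obtain ⟨h1, h2, h3⟩ := h
  refine ⟨fun x => ?_, fun h k hh hk => ?_, fun S hS => ?_⟩
  · simpa only [map_mul, map_star] using h1 (φ x)
  · simp only [map_add, map_smul]
    exact h2 _ _ (by rw [IsSelfAdjoint, ← map_star, hh.star_eq])
      (by rw [IsSelfAdjoint, ← map_star, hk.star_eq])
  · let S' : StarSubalgebra ℂ B :=
      { carrier := {z | ∃ x ∈ S, ∃ c : ℂ, z = φ x + c • (1 : B)}
        mul_mem' := by
          rintro _ _ ⟨x, hx, c, rfl⟩ ⟨y, hy, d, rfl⟩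
          refine ⟨x * y + d • x + c • y, add_mem (add_mem (mul_mem hx hy) (S.smul_mem hx _))
            (S.smul_mem hy _), c * d, ?_⟩
          simp only [map_add, map_mul, map_smul, add_mul, mul_add, mul_smul_comm, smul_mul_assoc,
            mul_one, one_mul]
          module
        add_mem' := by
          rintro _ _ ⟨x, hx, c, rfl⟩ ⟨y, hy, d, rfl⟩
          refine ⟨x + y, add_mem hx hy, c + d, ?_⟩
          simp only [map_add]
          module
        algebraMap_mem' := fun c => ⟨0, zero_mem _, c, by simp [Algebra.algebraMap_eq_smul_one]⟩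
        star_mem' := by
          rintro _ ⟨x, hx, c, rfl⟩
          exact ⟨star x, star_mem hx, star c, by simp [map_star]⟩ }
    have hmem : ∀ x ∈ S, φ x ∈ S' := fun x hx => ⟨x, hx, 0, by simp⟩
    have hcomm : ∀ x ∈ S', ∀ y ∈ S', x * y = y * x := by
      rintro _ ⟨x, hx, c, rfl⟩ _ ⟨y, hy, d, rfl⟩
      have : φ x * φ y = φ y * φ x := by rw [← map_mul, ← map_mul, hS x hx y hy]
      simp only [add_mul, mul_add, mul_smul_comm, smul_mul_assoc, mul_one, one_mul, this]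
      module
    obtain ⟨h4, h5⟩ := h3 S' hcomm
    refine ⟨fun x hx y hy => ?_, fun c x hx => ?_⟩
    · simp only [map_add]
      exact h4 _ (hmem x hx) _ (hmem y hy)
    · simp only [map_smul]
      exact h5 c _ (hmem x hx)

lemma exists_comm_subalg (s : Set A) (hs : ∀ x ∈ s, star x = x)
    (hc : ∀ x ∈ s, ∀ y ∈ s, x * y = y * x) :
    ∃ S : StarSubalgebra ℂ A, (∀ x ∈ s, x ∈ S) ∧ ∀ x ∈ S, ∀ y ∈ S, x * y = y * x := by
  let C1 := StarSubalgebra.centralizer ℂ s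
  have h1 : ∀ x ∈ s, x ∈ C1 := fun x hx =>
    (StarSubalgebra.mem_centralizer_iff ℂ).2 fun g hg => ⟨hc g hg x hx, by rw [hs g hg, hc g hg x hx]⟩
  refine ⟨StarSubalgebra.centralizer ℂ (C1 : Set A), fun x hx => ?_, fun x hx y hy => ?_⟩
  · refine (StarSubalgebra.mem_centralizer_iff ℂ).2 fun g hg => ⟨?_, ?_⟩
    · exact (((StarSubalgebra.mem_centralizer_iff ℂ).1 hg x hx).1).symm
    · exact (((StarSubalgebra.mem_centralizer_iff ℂ).1 (star_mem hg : star g ∈ C1) x hx).1).symm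
  · have hx' : x ∈ C1 := (StarSubalgebra.mem_centralizer_iff ℂ).2 fun g hg =>
      (StarSubalgebra.mem_centralizer_iff ℂ).1 hx g (h1 g hg)
    exact ((StarSubalgebra.mem_centralizer_iff ℂ).1 hy x hx').1

lemma qt_affine {τ : A → ℂ} (h : IsOneQuasitrace τ) {x : A} (hx : star x = x) (α β : ℂ) :
    τ (α • (1 : A) + β • x) = α * τ 1 + β * τ x := by
  obtain ⟨S, h1, h2⟩ := exists_comm_subalg {x} (by simpa using hx) (by simp)
  obtain ⟨h4, h5⟩ := h.2.2 S h2
  have hx := h1 x rfl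
  rw [h4 _ (S.smul_mem (one_mem _) _) _ (S.smul_mem hx _), h5 _ _ (one_mem _), h5 _ _ hx]

lemma qt_sum {τ : A → ℂ} (h : IsOneQuasitrace τ) {ι : Type*} (s : Finset ι) (x : ι → A)
    (hs : ∀ i, star (x i) = x i) (hc : ∀ i j, x i * x j = x j * x i) :
    τ (∑ i ∈ s, x i) = ∑ i ∈ s, τ (x i) := by
  classical
  obtain ⟨S, h1, h2⟩ := exists_comm_subalg (Set.range x) (by rintro _ ⟨i, rfl⟩; exact hs i)
    (by rintro _ ⟨i, rfl⟩ _ ⟨j, rfl⟩; exact hc i j)
  obtain ⟨h4, h5⟩ := h.2.2 S h2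
  induction s using Finset.induction_on with
  | empty => simpa using h5 0 0 (zero_mem _)
  | insert a s ha ih =>
    rw [Finset.sum_insert ha, Finset.sum_insert ha,
      h4 _ (h1 _ ⟨a, rfl⟩) _ (sum_mem fun i _ => h1 _ ⟨i, rfl⟩), ih]

/-- the corner embedding -/
def corner {n : Type*} [Fintype n] [DecidableEq n] (i : n) : A →⋆ₙₐ[ℂ] Matrix n n A where
  toFun x := Matrix.single i i x
  map_smul' c x := by simp [Matrix.smul_single]
  map_zero' := by simp
  map_add' x y := by simp [Matrix.single_add]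
  map_mul' x y := by simp [Matrix.single_mul_single_same]
  map_star' x := by simp [Matrix.star_eq_conjTranspose, Matrix.conjTranspose_single]

lemma qt_diag {n : Type*} [Fintype n] [DecidableEq n] {τ : Matrix n n A → ℂ}
    (h : IsOneQuasitrace τ) (i₀ : n) (y : n → A) (hy : ∀ i, star (y i) = y i) :
    τ (Matrix.diagonal fun i => y i * y i) = ∑ i, τ (Matrix.single i₀ i₀ (y i * y i)) := by
  have e : (Matrix.diagonal fun i => y i * y i) = ∑ i, Matrix.single i i (y i * y i) := by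
    ext a b
    simp only [Matrix.diagonal_apply, Matrix.sum_apply, Matrix.single_apply]
    split_ifs with hab
    · subst hab; simp
    · refine (Finset.sum_eq_zero fun i _ => if_neg ?_).symm
      rintro ⟨rfl, rfl⟩
      exact hab rfl
  rw [e, qt_sum h]
  · refine Finset.sum_congr rfl fun i _ => ?_
    have := (h.1 (Matrix.single i₀ i (y i))).1
    simpa [Matrix.star_eq_conjTranspose, Matrix.conjTranspose_single, Matrix.single_mul_single_same,
      hy] using this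
  · intro i
    simp [Matrix.star_eq_conjTranspose, Matrix.conjTranspose_single, hy]
  · intro i j
    by_cases hij : i = j
    · subst hij; rfl
    · rw [Matrix.single_mul_single_of_ne _ _ _ _ hij, Matrix.single_mul_single_of_ne _ _ _ _ (Ne.symm hij)]

end Alg

lemma IsRank.comp {A B : Type*} [Ring A] [Ring B] {r : B → ℝ} (hr : IsRank r) (f : A →+* B) :
    IsRank (fun x => r (f x)) where
  nonneg _ := hr.nonneg _
  le_of_eq x c y d e := hr.le_of_eq _ (f c) _ (f d) (by rw [e, map_mul, map_mul])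
  add_le x y := by simpa only [map_add] using hr.add_le (f x) (f y)
  orth x a b c d e1 e2 := by
    simpa only [map_mul] using hr.orth (f x) (f a) (f b) (f c) (f d)
      (by rw [← map_mul, ← map_mul, e1, map_zero]) (by rw [← map_mul, ← map_mul, e2, map_zero])

lemma exists_qt_of_equiv {M B : Type*} [Ring M] [StarRing M] [Algebra ℂ M] [StarModule ℂ M]
    [CStarAlgebra B] [PartialOrder B] [StarOrderedRing B] (E : M ≃⋆ₐ[ℂ] B) {r : M → ℝ}
    (hr : IsRank r) :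
    ∃ τ : M → ℂ, IsOneQuasitrace τ ∧ ∀ p, star p = p → p * p = p → τ p = r p := by
  have hr' := hr.comp (E.symm : B →+* M)
  refine ⟨_, qt_comp (E : M →⋆ₙₐ[ℂ] B) (tau_isOneQuasitrace hr'), fun p h1 h2 => ?_⟩
  have hs : star (E p) = E p := by rw [← map_star, h1]
  have hp : E p * E p = E p := by rw [← map_mul, h2]
  show tau _ (E p) = r p
  rw [tau_sa hs, tsa_proj hr' hs hp]
  show ((r (E.symm (E p)) : ℝ) : ℂ) = r p
  rw [E.symm_apply_apply]

theorem exists_quasitrace (A : Type) [CStarAlgebra A] (h : RC A) :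
    ∃ τ : A → ℂ, IsNormalizedTwoQuasitrace τ := by
  let _ := CStarAlgebra.spectralOrder A
  have _ := CStarAlgebra.spectralOrderedRing A
  obtain ⟨r, hr, hr1⟩ := exists_rank_two h
  obtain ⟨τ, h1, h2⟩ := exists_qt_of_equiv (B := CStarMatrix (Fin 2) (Fin 2) A)
    CStarMatrix.ofMatrixStarAlgEquiv hr
  refine ⟨fun x => τ (Matrix.single 0 0 x), qt_comp (corner (0 : Fin 2)) h1, ?_, τ, h1,
    fun x => rfl⟩
  have := h2 (Matrix.single 0 0 1)
    (by simp [Matrix.star_eq_conjTranspose, Matrix.conjTranspose_single])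
    (by simp [Matrix.single_mul_single_same])
  rw [hr1] at this
  simpa using this

lemma RC.of_hom {A B : Type} [Ring A] [Ring B] (f : A →+* B) (h : RC B) : RC A := by
  intro ι κ _ _ _ X Y e
  refine h ι κ (X.map f) (Y.map f) ?_
  rw [← Matrix.map_mul, e, Matrix.map_one _ (map_zero f) (map_one f)]

lemma RC.matrix {A : Type} [Ring A] (h : RC A) (n : ℕ) [NeZero n] :
    RC (Matrix (Fin n) (Fin n) A) := by
  intro ι κ _ _ _ X Y e
  have := h (ι × Fin n) (κ × Fin n) (Matrix.comp _ _ _ _ _ X) (Matrix.comp _ _ _ _ _ Y) (by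
    ext ⟨i, a⟩ ⟨j, b⟩
    have := congrFun (congrFun (congrFun (congrFun e i) j) a) b
    simp only [Matrix.mul_apply, Matrix.sum_apply] at this
    simp only [Matrix.mul_apply, Matrix.comp_apply, Fintype.sum_prod_type, this, Matrix.one_apply,
      Prod.mk.injEq]
    by_cases hij : i = j <;> simp [hij, Matrix.one_apply])
  simp only [Fintype.card_prod, Fintype.card_fin] at this
  exact Nat.le_of_mul_le_mul_right this (Nat.pos_of_ne_zero (NeZero.ne n))

theorem final (A : Type) [CStarAlgebra A] [TopologicalSpace.SeparableSpace A] (hRC : RC A)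
    (v : Fin 5 → A) (h2 : ∀ j, v j * star (v j) = 1 - star (v j) * v j)
    (hn : ‖∑ j, star (v j) * v j‖ ≤ 2) :
    ∃ (A : Type) (_ : CStarAlgebra A), TopologicalSpace.SeparableSpace A ∧
      (∃ τ : A → ℂ, Crest.OpAlg.IsNormalizedTwoQuasitrace τ) ∧
      ∃ a b : A, (∃ x : A, a = star x * x) ∧ ‖a‖ ≤ 1 ∧ (∃ y : A, b = star y * y) ∧ ‖b‖ ≤ 1 ∧
        ∀ τ : A → ℂ, Crest.OpAlg.IsNormalizedTwoQuasitrace τ →
          (1 : ℝ) / 144 ≤ (τ (a + b) - τ a - τ b).re := by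
  let _ := CStarAlgebra.spectralOrder A
  have _ := CStarAlgebra.spectralOrderedRing A
  let E : Matrix (Fin 4) (Fin 4) A ≃⋆ₐ[ℂ] CStarMatrix (Fin 4) (Fin 4) A :=
    CStarMatrix.ofMatrixStarAlgEquiv
  set f : Fin 5 → A := fun j => star (v j) * v j with hf
  have hf0 : ∀ j, 0 ≤ f j := fun j => star_mul_self_nonneg _
  have hf1 : ∀ j, f j ≤ 1 := fun j => by
    rw [← sub_nonneg, ← h2]; exact mul_star_self_nonneg _
  have hsum : f 0 + f 1 + f 2 + f 3 + f 4 ≤ (2 : ℂ) • (1 : A) := by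
    have h1 : IsSelfAdjoint (∑ j, f j) := (Finset.sum_nonneg fun j _ => hf0 j).isSelfAdjoint
    have h3 := h1.le_algebraMap_norm_self
    rw [Fin.sum_univ_five] at h3 hn
    refine h3.trans ?_
    rw [Algebra.algebraMap_eq_smul_one, show (2 : ℂ) • (1 : A) = (2 : ℝ) • (1 : A) by
      rw [← Complex.coe_smul]; simp]
    exact smul_le_smul_of_nonneg_right hn zero_le_one
  -- square roots of diagonal matrices
  have hsq : ∀ d : Fin 4 → A, (∀ i, 0 ≤ d i) →
      ∃ y : Fin 4 → A, (∀ i, star (y i) = y i) ∧ d = fun i => y i * y i := fun d hd =>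
    ⟨fun i => CFC.sqrt (d i), fun i => (CFC.sqrt_nonneg (d i)).isSelfAdjoint.star_eq,
      funext fun i => (CFC.sqrt_mul_sqrt_self (d i) (hd i)).symm⟩
  have hpos : ∀ d : Fin 4 → A, (∀ i, 0 ≤ d i) →
      ∃ x, E (Matrix.diagonal d) = star x * x := by
    intro d hd
    obtain ⟨y, hy, rfl⟩ := hsq d hd
    refine ⟨E (Matrix.diagonal y), ?_⟩
    rw [← map_star, ← map_mul, Matrix.star_eq_conjTranspose, Matrix.diagonal_conjTranspose,
      Matrix.diagonal_mul_diagonal]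
    congr 2
    ext i
    simp [hy]
  have hnorm : ∀ d : Fin 4 → A, (∀ i, 0 ≤ d i) → (∀ i, d i ≤ 1) → ‖E (Matrix.diagonal d)‖ ≤ 1 := by
    intro d h0 h1
    obtain ⟨x, hx⟩ := hpos d h0
    obtain ⟨y, hy⟩ := hpos (fun i => 1 - d i) fun i => sub_nonneg.2 (h1 i)
    rw [CStarAlgebra.norm_le_one_iff_of_nonneg _ (hx ▸ star_mul_self_nonneg x), ← sub_nonneg,
      ← map_one E, ← map_sub, ← Matrix.diagonal_one, Matrix.diagonal_sub, hy]
    exact star_mul_self_nonneg y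
  have hhalf : ∀ x : A, 0 ≤ x → x ≤ (2 : ℂ) • (1 : A) →
      0 ≤ (1 : ℂ) • (1 : A) + (-2⁻¹ : ℂ) • x ∧ (1 : ℂ) • (1 : A) + (-2⁻¹ : ℂ) • x ≤ 1 := by
    intro x h0 h1
    constructor
    · have : (1 : ℂ) • (1 : A) + (-2⁻¹ : ℂ) • x = (2⁻¹ : ℝ) • ((2 : ℂ) • (1 : A) - x) := by
        rw [← Complex.coe_smul]; push_cast; module
      rw [this]
      exact smul_nonneg (by norm_num) (sub_nonneg.2 h1)
    · rw [← sub_nonneg]
      have : 1 - ((1 : ℂ) • (1 : A) + (-2⁻¹ : ℂ) • x) = (2⁻¹ : ℝ) • x := by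
        rw [← Complex.coe_smul]; push_cast; module
      rw [this]
      exact smul_nonneg (by norm_num) h0
  let s : Fin 4 → A := ![f 0, f 0 + f 1, f 0 + f 1 + f 2, f 0 + f 1 + f 2 + f 3]
  let g : Fin 4 → A := ![f 1, f 2, f 3, f 4]
  have hs0 : ∀ i, 0 ≤ s i := by
    intro i
    fin_cases i
    · exact hf0 _
    · exact add_nonneg (hf0 _) (hf0 _)
    · exact add_nonneg (add_nonneg (hf0 _) (hf0 _)) (hf0 _)
    · exact add_nonneg (add_nonneg (add_nonneg (hf0 _) (hf0 _)) (hf0 _)) (hf0 _)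
  have hg0 : ∀ i, 0 ≤ g i := by
    intro i
    fin_cases i <;> exact hf0 _
  have hsg : ∀ i, s i + g i ≤ (2 : ℂ) • (1 : A) := by
    intro i
    refine le_trans ?_ hsum
    fin_cases i
    · exact le_add_of_le_of_nonneg (le_add_of_le_of_nonneg (le_add_of_nonneg_right (hf0 _))
        (hf0 _)) (hf0 _)
    · exact le_add_of_le_of_nonneg (le_add_of_nonneg_right (hf0 _)) (hf0 _)
    · exact le_add_of_nonneg_right (hf0 _)
    · exact le_rfl
  have hs2 : ∀ i, s i ≤ (2 : ℂ) • (1 : A) := fun i => (le_add_of_nonneg_right (hg0 i)).trans (hsg i)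
  have hg2 : ∀ i, g i ≤ (2 : ℂ) • (1 : A) := fun i => (le_add_of_nonneg_left (hs0 i)).trans (hsg i)
  let a : Fin 4 → A := fun i => (1 : ℂ) • (1 : A) + (-2⁻¹ : ℂ) • s i
  let b : Fin 4 → A := fun i => (1 : ℂ) • (1 : A) + (-2⁻¹ : ℂ) • g i
  have ha0 : ∀ i, 0 ≤ a i := fun i => (hhalf _ (hs0 i) (hs2 i)).1
  have hb0 : ∀ i, 0 ≤ b i := fun i => (hhalf _ (hg0 i) (hg2 i)).1
  refine ⟨CStarMatrix (Fin 4) (Fin 4) A, inferInstance,
    inferInstanceAs (TopologicalSpace.SeparableSpace (Fin 4 → Fin 4 → A)),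
    exists_quasitrace _ (RC.of_hom (E.symm : CStarMatrix (Fin 4) (Fin 4) A →+* _) (hRC.matrix 4)),
    E (Matrix.diagonal a), E (Matrix.diagonal b), hpos a ha0,
    hnorm a ha0 fun i => (hhalf _ (hs0 i) (hs2 i)).2, hpos b hb0,
    hnorm b hb0 fun i => (hhalf _ (hg0 i) (hg2 i)).2, ?_⟩
  rintro τ ⟨hτ, hτ1, -⟩
  have hτ' := qt_comp (E : Matrix (Fin 4) (Fin 4) A →⋆ₙₐ[ℂ] CStarMatrix (Fin 4) (Fin 4) A) hτ
  have ht := qt_comp (corner (0 : Fin 4)) hτ'
  set t : A → ℂ := fun x => τ (E (Matrix.single 0 0 x)) with htdef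
  change IsOneQuasitrace t at ht
  have hdiag : ∀ d : Fin 4 → A, (∀ i, 0 ≤ d i) → τ (E (Matrix.diagonal d)) = ∑ i, t (d i) := by
    intro d hd
    obtain ⟨y, hy, rfl⟩ := hsq d hd
    exact qt_diag hτ' 0 y hy
  have ht1 : t 1 = 4⁻¹ := by
    have := hdiag (fun _ => 1) fun _ => zero_le_one
    rw [Matrix.diagonal_one, map_one, hτ1] at this
    simp only [Finset.sum_const, Finset.card_univ, Fintype.card_fin, nsmul_eq_mul] at this
    push_cast at this
    linear_combination (-4⁻¹ : ℂ) * this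
  have htf : ∀ j, t (f j) = 8⁻¹ := by
    intro j
    have h1 := (ht.1 (v j)).1
    have h3 := qt_affine ht (hf0 j).isSelfAdjoint.star_eq 1 (-1)
    rw [h2, show 1 - star (v j) * v j = (1 : ℂ) • (1 : A) + (-1 : ℂ) • f j by simp [sub_eq_add_neg, hf],
      h3, ht1] at h1
    change t (f j) = _ at h1
    linear_combination (2⁻¹ : ℂ) * h1
  have hab : ∀ i, a i + b i = (2 : ℂ) • (1 : A) + (-2⁻¹ : ℂ) • (s i + g i) := by
    intro i
    simp only [a, b]
    module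
  have hlast : 0 ≤ (t ((2 : ℂ) • (1 : A) + (-1 : ℂ) • (s 3 + g 3))).re := by
    have h0 : 0 ≤ (2 : ℂ) • (1 : A) + (-1 : ℂ) • (s 3 + g 3) := by
      rw [neg_smul, one_smul, ← sub_eq_add_neg]
      exact sub_nonneg.2 (hsg 3)
    have := (ht.1 (CFC.sqrt ((2 : ℂ) • (1 : A) + (-1 : ℂ) • (s 3 + g 3)))).2.2
    rwa [(CFC.sqrt_nonneg _).isSelfAdjoint.star_eq, CFC.sqrt_mul_sqrt_self _ h0] at this
  rw [qt_affine ht (add_nonneg (hs0 3) (hg0 3)).isSelfAdjoint.star_eq, ht1] at hlast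
  rw [← map_add, Matrix.diagonal_add, hdiag _ fun i => add_nonneg (ha0 i) (hb0 i), hdiag a ha0,
    hdiag b hb0]
  simp only [hab]
  simp only [a, b, qt_affine ht (add_nonneg (hs0 _) (hg0 _)).isSelfAdjoint.star_eq,
    qt_affine ht (hs0 _).isSelfAdjoint.star_eq, qt_affine ht (hg0 _).isSelfAdjoint.star_eq, ht1,
    Fin.sum_univ_four]
  have e0 : t (s 0) = 8⁻¹ := htf 0
  have e1 : t (g 0) = 8⁻¹ := htf 1
  have e2 : t (g 1) = 8⁻¹ := htf 2
  have e3 : t (g 2) = 8⁻¹ := htf 3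
  have e4 : t (g 3) = 8⁻¹ := htf 4
  have e5 : t (s 0 + g 0) = t (s 1) := rfl
  have e6 : t (s 1 + g 1) = t (s 2) := rfl
  have e7 : t (s 2 + g 2) = t (s 3) := rfl
  rw [e0, e1, e2, e3, e4, e5, e6, e7]
  generalize t (s 3 + g 3) = z at hlast ⊢
  have : (2 * 4⁻¹ + -2⁻¹ * t (s 1) + (2 * 4⁻¹ + -2⁻¹ * t (s 2)) + (2 * 4⁻¹ + -2⁻¹ * t (s 3)) +
      (2 * 4⁻¹ + -2⁻¹ * z) -
      (1 * 4⁻¹ + -2⁻¹ * 8⁻¹ + (1 * 4⁻¹ + -2⁻¹ * t (s 1)) + (1 * 4⁻¹ + -2⁻¹ * t (s 2)) +
        (1 * 4⁻¹ + -2⁻¹ * t (s 3))) -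
      (1 * 4⁻¹ + -2⁻¹ * 8⁻¹ + (1 * 4⁻¹ + -2⁻¹ * 8⁻¹) + (1 * 4⁻¹ + -2⁻¹ * 8⁻¹) +
        (1 * 4⁻¹ + -2⁻¹ * 8⁻¹)) : ℂ) = ((16⁻¹ : ℝ) : ℂ) + ((2⁻¹ : ℝ) : ℂ) * (2 * 4⁻¹ + -1 * z) := by
    push_cast
    ring
  rw [this, Complex.add_re, Complex.ofReal_re, Complex.re_ofReal_mul]
  linarith

end Crest.Agent.H7.Qt
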