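import Mathlib

/-! The inertia count. -/

set_option autoImplicit false

open Module
open scoped InnerProductSpace

namespace Crest.Agent.H7.Qt

section Spec

variable {W : Type*} [NormedAddCommGroup W] [InnerProductSpace ℂ W] [FiniteDimensional ℂ W]

lemma spec_split {A : W →ₗ[ℂ] W} (hA : A.IsSymmetric) :
    ∃ (lam : Fin (finrank ℂ W) → ℝ) (b : OrthonormalBasis (Fin (finrank ℂ W)) ℂ W),
      (∀ k, lam k = (⟪b k, A (b k)⟫_ℂ).re) ∧
      ∀ K : Finset (Fin (finrank ℂ W)), ∃ N : Submodule ℂ W, finrank ℂ N = K.card ∧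
        ∀ c ∈ N, ∃ a : Fin (finrank ℂ W) → ℝ, (∀ k, 0 ≤ a k) ∧
          (⟪c, A c⟫_ℂ).re = ∑ k ∈ K, lam k * a k ∧ ‖c‖ ^ 2 = ∑ k ∈ K, a k := by
  classical
  let b := hA.eigenvectorBasis rfl
  let lam := hA.eigenvalues rfl
  have hb : ∀ k, A (b k) = (lam k : ℂ) • b k := hA.apply_eigenvectorBasis rfl
  refine ⟨lam, b, fun k => ?_, fun K => ?_⟩
  · rw [hb, inner_smul_right, inner_self_eq_norm_sq_to_K, b.orthonormal.1]
    simp
  · refine ⟨Submodule.span ℂ (Set.range fun k : K => b k), ?_, fun c hc => ?_⟩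
    · have := finrank_span_eq_card (b.orthonormal.linearIndependent.comp
        (Subtype.val : K → _) Subtype.val_injective)
      rw [Fintype.card_coe] at this
      exact this
    · have h0 : ∀ k, k ∉ K → ⟪b k, c⟫_ℂ = 0 := by
        intro k hk
        induction hc using Submodule.span_induction with
        | mem x hx =>
          obtain ⟨l, rfl⟩ := hx
          exact b.orthonormal.2 (fun h => hk (h ▸ l.2))
        | zero => simp
        | add x y _ _ hx hy => rw [inner_add_right, hx, hy, add_zero]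
        | smul a x _ hx => rw [inner_smul_right, hx, mul_zero]
      refine ⟨fun k => ‖⟪b k, c⟫_ℂ‖ ^ 2, fun k => by positivity, ?_, ?_⟩
      · rw [← b.sum_inner_mul_inner c (A c), Complex.re_sum]
        symm
        refine Finset.sum_subset_zero_on_sdiff (Finset.subset_univ _) (fun k hk => ?_) fun k _ => ?_
        · rw [← inner_conj_symm c (b k), h0 k (Finset.mem_sdiff.1 hk).2]
          simp
        · rw [← hA, hb, inner_smul_left, ← inner_conj_symm c (b k), Complex.conj_ofReal,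
            mul_left_comm, Complex.conj_mul', ← Complex.ofReal_pow, ← Complex.ofReal_mul,
            Complex.ofReal_re]
      · rw [← b.sum_sq_norm_inner_right c]
        symm
        refine Finset.sum_subset (Finset.subset_univ _) fun k _ hk => ?_
        rw [h0 k hk]
        simp

lemma sign_split (A : W →ₗ[ℂ] W) :
    ∃ P P' : Submodule ℂ W, finrank ℂ P + finrank ℂ P' = finrank ℂ W ∧
      (∀ u ∈ P, 0 ≤ (⟪u, A u⟫_ℂ).re) ∧ ∀ w ∈ P', (⟪w, A w⟫_ℂ).re ≤ 0 := by
  classical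
  have hS : (A + LinearMap.adjoint A).IsSymmetric := by
    intro x y
    simp only [LinearMap.add_apply, inner_add_left, inner_add_right, LinearMap.adjoint_inner_left,
      LinearMap.adjoint_inner_right]
    ring
  have hre : ∀ u, (⟪u, (A + LinearMap.adjoint A) u⟫_ℂ).re = 2 * (⟪u, A u⟫_ℂ).re := by
    intro u
    rw [LinearMap.add_apply, inner_add_right, LinearMap.adjoint_inner_right, Complex.add_re,
      ← inner_conj_symm (A u) u, Complex.conj_re]
    ring
  obtain ⟨lam, b, -, h⟩ := spec_split hS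
  obtain ⟨P, hP, hP2⟩ := h (Finset.univ.filter fun k => 0 ≤ lam k)
  obtain ⟨P', hP', hP2'⟩ := h (Finset.univ.filter fun k => ¬ 0 ≤ lam k)
  refine ⟨P, P', ?_, fun u hu => ?_, fun u hu => ?_⟩
  · rw [hP, hP', Finset.card_filter_add_card_filter_not]
    simp
  · obtain ⟨a, ha, h1, -⟩ := hP2 u hu
    rw [hre] at h1
    have : 0 ≤ ∑ k ∈ Finset.univ.filter fun k => 0 ≤ lam k, lam k * a k :=
      Finset.sum_nonneg fun k hk => mul_nonneg (Finset.mem_filter.1 hk).2 (ha k)
    linarith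
  · obtain ⟨a, ha, h1, -⟩ := hP2' u hu
    rw [hre] at h1
    have : ∑ k ∈ Finset.univ.filter fun k => ¬ 0 ≤ lam k, lam k * a k ≤ 0 :=
      Finset.sum_nonpos fun k hk =>
        mul_nonpos_of_nonpos_of_nonneg (not_le.1 (Finset.mem_filter.1 hk).2).le (ha k)
    linarith

lemma orth_part (Z : W →ₗ[ℂ] W) (P P' : Submodule ℂ W) :
    ∃ P0 : Submodule ℂ W, P0 ≤ P ∧ finrank ℂ P ≤ finrank ℂ P0 + finrank ℂ P' ∧
      ∀ u ∈ P0, ∀ w ∈ P', ⟪w, Z u⟫_ℂ = 0 := by
  let g : P →ₗ[ℂ] P' := (P'.orthogonalProjectionOnto : W →ₗ[ℂ] P') ∘ₗ Z ∘ₗ P.subtype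
  refine ⟨(LinearMap.ker g).map P.subtype, Submodule.map_subtype_le _ _, ?_, ?_⟩
  · rw [Submodule.finrank_map_subtype_eq]
    have h1 := g.finrank_range_add_finrank_ker
    have h2 := (LinearMap.range g).finrank_le
    omega
  · rintro _ ⟨u, hu, rfl⟩ w hw
    have : P'.orthogonalProjectionOnto (Z u) = 0 := hu
    rw [Submodule.orthogonalProjectionOnto_eq_zero_iff] at this
    exact this w hw

variable {F : Type*} [NormedAddCommGroup F] [InnerProductSpace ℂ F] [FiniteDimensional ℂ F]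

omit [FiniteDimensional ℂ W] in
lemma exists_onb (σ : W →ₗ[ℂ] F) (hσ : Function.Injective σ) (P0 : Submodule ℂ W) :
    ∃ b : Fin (finrank ℂ P0) → W, (∀ s, b s ∈ P0) ∧ Orthonormal ℂ fun s => σ (b s) := by
  have e : finrank ℂ (P0.map σ) = finrank ℂ P0 :=
    (Submodule.equivMapOfInjective σ hσ P0).finrank_eq.symm
  let o := (stdOrthonormalBasis ℂ (P0.map σ)).reindex (finCongr e)
  have h : ∀ s, ∃ w ∈ P0, σ w = (o s : F) := fun s => (o s).2
  choose b hb1 hb2 using h
  refine ⟨b, hb1, ?_⟩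
  simp only [hb2]
  exact o.orthonormal.comp_linearIsometry (P0.map σ).subtypeₗᵢ

lemma half {S : Type*} [Fintype S] (x : S → F) (hx : ∀ s, ‖x s‖ = 1) :
    ∃ N : Submodule ℂ (EuclideanSpace ℂ S), Fintype.card S ≤ 2 * finrank ℂ N ∧
      ∀ c ∈ N, ‖∑ s, c s • x s‖ ^ 2 ≤ 2 * ‖c‖ ^ 2 := by
  classical
  let ι : EuclideanSpace ℂ S →ₗ[ℂ] F :=
    { toFun := fun c => ∑ s, c s • x s
      map_add' := fun c d => by simp [add_smul, Finset.sum_add_distrib]
      map_smul' := fun a c => by simp [Finset.smul_sum, smul_smul] }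
  have hS : (LinearMap.adjoint ι ∘ₗ ι).IsSymmetric := by
    intro x y
    simp only [LinearMap.comp_apply, LinearMap.adjoint_inner_left, LinearMap.adjoint_inner_right]
  have hre : ∀ c, (⟪c, (LinearMap.adjoint ι ∘ₗ ι) c⟫_ℂ).re = ‖ι c‖ ^ 2 := by
    intro c
    rw [LinearMap.comp_apply, LinearMap.adjoint_inner_right, inner_self_eq_norm_sq_to_K]
    simp [← Complex.ofReal_pow]
  obtain ⟨lam, b, h1, h⟩ := spec_split hS
  have hnn : ∀ k, 0 ≤ lam k := fun k => by rw [h1, hre]; positivity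
  have hsum : ∑ k, lam k = Fintype.card S := by
    have e1 := LinearMap.trace_eq_sum_inner (LinearMap.adjoint ι ∘ₗ ι) b
    have e2 := LinearMap.trace_eq_sum_inner (LinearMap.adjoint ι ∘ₗ ι) (EuclideanSpace.basisFun S ℂ)
    have e3 := congrArg Complex.re (e1.symm.trans e2)
    rw [Complex.re_sum, Complex.re_sum] at e3
    simp only [h1]
    rw [e3]
    simp only [hre]
    have : ∀ s, ι (EuclideanSpace.basisFun S ℂ s) = x s := by
      intro s
      simp [ι, Pi.single_apply]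
    simp only [this, hx]
    simp
  obtain ⟨N, hN, hN2⟩ := h (Finset.univ.filter fun k => lam k ≤ 2)
  refine ⟨N, ?_, fun c hc => ?_⟩
  · have h2 := Finset.card_filter_add_card_filter_not (s := Finset.univ) (fun k => lam k ≤ 2)
    have h3 : ((Finset.univ.filter fun k => ¬ lam k ≤ 2).card : ℝ) * 2 ≤ ∑ k, lam k := by
      refine le_trans ?_ (Finset.sum_le_sum_of_subset_of_nonneg (Finset.filter_subset
        (fun k => ¬ lam k ≤ 2) _) fun k _ _ => hnn k)
      rw [← nsmul_eq_mul, ← Finset.sum_const]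
      exact Finset.sum_le_sum fun k hk => (not_le.1 (Finset.mem_filter.1 hk).2).le
    rw [hsum] at h3
    have h4 : (Finset.univ.filter fun k => ¬ lam k ≤ 2).card * 2 ≤ Fintype.card S := by
      exact_mod_cast h3
    simp only [Finset.card_univ, Fintype.card_fin, finrank_euclideanSpace] at h2
    omega
  · obtain ⟨a, ha, h2, h3⟩ := hN2 c hc
    rw [hre] at h2
    change ‖ι c‖ ^ 2 ≤ _
    rw [h2, h3, Finset.mul_sum]
    exact Finset.sum_le_sum fun k hk =>
      mul_le_mul_of_nonneg_right (Finset.mem_filter.1 hk).2 (ha k)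

theorem inertia {C : Type*} [Fintype C] [DecidableEq C] {Y : Type*} [AddCommGroup Y] [Module ℂ Y]
    [FiniteDimensional ℂ Y] (A Z : C → W →ₗ[ℂ] W) (τ : (C → W) →ₗ[ℂ] F)
    (hτ : Function.Injective τ) (πu πw : Y →ₗ[ℂ] (C → W))
    (hY : 3 * (Fintype.card C * finrank ℂ W) < 2 * finrank ℂ Y) :
    ∃ y, y ≠ 0 ∧ 0 ≤ ∑ j, (⟪πu y j, A j (πu y j)⟫_ℂ).re - ∑ j, (⟪πw y j, A j (πw y j)⟫_ℂ).re +
      ∑ j, (⟪πw y j, Z j (πu y j)⟫_ℂ).re +
      (2 * ∑ j, ‖τ (Pi.single j (πu y j))‖ ^ 2 - ‖τ (πu y)‖ ^ 2) := by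
  choose P P' hPP hP hP' using fun j => sign_split (A j)
  choose P0 hP0 hP0d hP0o using fun j => orth_part (Z j) (P j) (P' j)
  have hσ : ∀ j, Function.Injective (τ ∘ₗ LinearMap.single ℂ (fun _ : C => W) j) := fun j =>
    hτ.comp (Pi.single_injective (M := fun _ : C => W) j)
  choose b hb hbo using fun j => exists_onb _ (hσ j) (P0 j)
  let S := Σ j, Fin (finrank ℂ (P0 j))
  let x : S → F := fun s => τ (Pi.single s.1 (b s.1 s.2))
  obtain ⟨N, hN, hN2⟩ := half x fun s => (hbo s.1).1 s.2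
  let κu : EuclideanSpace ℂ S →ₗ[ℂ] (C → W) :=
    { toFun := fun c j => ∑ s, c ⟨j, s⟩ • b j s
      map_add' := fun c d => by ext j : 1; simp [add_smul, Finset.sum_add_distrib]
      map_smul' := fun a c => by ext j : 1; simp [Finset.smul_sum, smul_smul] }
  have hκ1 : ∀ c j, τ (Pi.single j (κu c j)) = ∑ s, c ⟨j, s⟩ • x ⟨j, s⟩ := by
    intro c j
    change (τ ∘ₗ LinearMap.single ℂ (fun _ : C => W) j) (∑ s, c ⟨j, s⟩ • b j s) = _
    rw [map_sum]
    simp only [map_smul]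
    rfl
  have hκ2 : ∀ c, ∑ j, ‖τ (Pi.single j (κu c j))‖ ^ 2 = ‖c‖ ^ 2 := by
    intro c
    rw [EuclideanSpace.norm_sq_eq, Fintype.sum_sigma]
    refine Finset.sum_congr rfl fun j _ => ?_
    rw [hκ1]
    have := (hbo j).inner_sum (fun s => c ⟨j, s⟩) (fun s => c ⟨j, s⟩) Finset.univ
    rw [inner_self_eq_norm_sq_to_K] at this
    simp only [Complex.conj_mul'] at this
    apply Complex.ofReal_injective
    push_cast
    exact this
  have hκ3 : ∀ c, τ (κu c) = ∑ s, c s • x s := by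
    intro c
    rw [Fintype.sum_sigma, ← Finset.univ_sum_single (κu c), map_sum]
    exact Finset.sum_congr rfl fun j _ => hκ1 c j
  let κw : (∀ j, P' j) →ₗ[ℂ] (C → W) := LinearMap.pi fun j => (P' j).subtype ∘ₗ LinearMap.proj j
  let Θ : (Y × N × (∀ j, P' j)) →ₗ[ℂ] (C → W) × (C → W) :=
    LinearMap.prod (πu ∘ₗ LinearMap.fst _ _ _ - κu ∘ₗ N.subtype ∘ₗ LinearMap.fst _ _ _ ∘ₗ
        LinearMap.snd _ _ _)
      (πw ∘ₗ LinearMap.fst _ _ _ - κw ∘ₗ LinearMap.snd _ _ _ ∘ₗ LinearMap.snd _ _ _)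
  have hnot : ¬ Function.Injective Θ := by
    intro h
    have h1 := LinearMap.finrank_le_finrank_of_injective h
    simp only [finrank_prod, finrank_pi_fintype, Finset.sum_const, Finset.card_univ,
      smul_eq_mul] at h1
    have h2 : Fintype.card S = ∑ j, finrank ℂ (P0 j) := by simp [S]
    have h3 : ∑ j, finrank ℂ (P j) ≤ ∑ j, finrank ℂ (P0 j) + ∑ j, finrank ℂ (P' j) := by
      rw [← Finset.sum_add_distrib]
      exact Finset.sum_le_sum fun j _ => hP0d j
    have h4 : ∑ j, finrank ℂ (P j) + ∑ j, finrank ℂ (P' j) = Fintype.card C * finrank ℂ W := by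
      rw [← Finset.sum_add_distrib]
      simp [hPP]
    omega
  rw [injective_iff_map_eq_zero] at hnot
  push Not at hnot
  obtain ⟨⟨y, c, w⟩, h0, hne⟩ := hnot
  have e1 : πu y = κu c := sub_eq_zero.1 (congrArg Prod.fst h0)
  have e2 : πw y = κw w := sub_eq_zero.1 (congrArg Prod.snd h0)
  have hu : ∀ j, κu c j ∈ P0 j := fun j =>
    Submodule.sum_mem (t := Finset.univ) _ fun s _ =>
      Submodule.smul_mem _ ((c : EuclideanSpace ℂ S) ⟨j, s⟩) (hb j s)
  have hw : ∀ j, κw w j ∈ P' j := fun j => (w j).2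
  refine ⟨y, ?_, ?_⟩
  · rintro rfl
    apply hne
    rw [map_zero] at e1 e2
    have h1 : c = 0 := by
      have := hκ2 c
      rw [← e1] at this
      simp only [Pi.zero_apply, Pi.single_zero, map_zero, norm_zero] at this
      have h5 : ‖(c : EuclideanSpace ℂ S)‖ = 0 := by simpa using this.symm
      exact Subtype.ext (norm_eq_zero.1 h5)
    have h2 : w = 0 := by
      funext j
      exact Subtype.ext (congrFun e2 j).symm
    rw [h1, h2]
    rfl
  · rw [e1, e2, hκ2, hκ3]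
    have h1 : 0 ≤ ∑ j, (⟪κu c j, A j (κu c j)⟫_ℂ).re :=
      Finset.sum_nonneg fun j _ => hP j _ (hP0 j (hu j))
    have h2 : ∑ j, (⟪κw w j, A j (κw w j)⟫_ℂ).re ≤ 0 :=
      Finset.sum_nonpos fun j _ => hP' j _ (hw j)
    have h3 : ∑ j, (⟪κw w j, Z j (κu c j)⟫_ℂ).re = 0 :=
      Finset.sum_eq_zero fun j _ => by rw [hP0o j _ (hu j) _ (hw j), Complex.zero_re]
    have h4 := hN2 c c.2
    linarith

end Spec

end Crest.Agent.H7.Qt
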