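import Mathlib
import Crest.Agent.H7.QtD

/-! Semidefinite duality: a linear system with few equations has a solution by vectors with the
Gram relations. -/

set_option autoImplicit false

open Module Matrix
open scoped InnerProductSpace ComplexConjugate ComplexOrder MatrixOrder

namespace Crest.Agent.H7.Qt

abbrev Idx (I C J : Type) := I ⊕ Bool × C × J

lemma sgn_sum {C J : Type} [Fintype C] [Fintype J] [DecidableEq C] (g : C × J → C × J → ℂ) :
    ∑ p, ∑ q, (if p.1 = q.1 then 1 else -1) * g p q =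
      2 * ∑ j, ∑ l, ∑ l', g (j, l) (j, l') - ∑ p, ∑ q, g p q := by
  have h1 : ∑ j, ∑ l, ∑ l', g (j, l) (j, l') = ∑ p, ∑ q, if p.1 = q.1 then g p q else 0 := by
    simp only [Fintype.sum_prod_type]
    refine Finset.sum_congr rfl fun j _ => Finset.sum_congr rfl fun l _ => ?_
    rw [Finset.sum_comm]
    simp
  rw [h1, Finset.mul_sum, ← Finset.sum_sub_distrib]
  refine Finset.sum_congr rfl fun p _ => ?_
  rw [Finset.mul_sum, ← Finset.sum_sub_distrib]
  refine Finset.sum_congr rfl fun q _ => ?_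
  split_ifs <;> ring

lemma norm_sum_sq {P F : Type*} [Fintype P] [NormedAddCommGroup F] [InnerProductSpace ℂ F]
    (c : P → ℂ) (x : P → F) :
    ‖∑ p, c p • x p‖ ^ 2 = (∑ p, ∑ q, c p * conj (c q) * ⟪x q, x p⟫_ℂ).re := by
  rw [← inner_self_eq_norm_sq (𝕜 := ℂ), inner_sum]
  simp only [sum_inner, inner_smul_left, inner_smul_right]
  change (∑ p, _ : ℂ).re = _
  congr 1
  refine Finset.sum_congr rfl fun p _ => ?_
  rw [Finset.mul_sum]
  refine Finset.sum_congr rfl fun q _ => ?_
  ring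

lemma exists_tau {P : Type} [Fintype P] [DecidableEq P] (T : P → P → ℂ)
    (hT : ∀ c : P → ℂ, 0 ≤ (∑ p, ∑ q, c p * conj (c q) * T p q).re) {ε : ℝ} (hε : 0 ≤ ε) :
    ∃ τ : (P → ℂ) →ₗ[ℂ] EuclideanSpace ℂ P, ∀ c,
      ‖τ c‖ ^ 2 = (∑ p, ∑ q, c p * conj (c q) * T p q).re + ε * ∑ p, ‖c p‖ ^ 2 := by
  let Tm : Matrix P P ℂ := Matrix.of fun q p => T p q
  let H : Matrix P P ℂ := (2⁻¹ : ℂ) • (Tm + Tmᴴ) + (ε : ℂ) • (1 : Matrix P P ℂ)
  have h1 : ∀ c : P → ℂ, star c ⬝ᵥ (Tm *ᵥ c) = ∑ p, ∑ q, c p * conj (c q) * T p q := by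
    intro c
    rw [Finset.sum_comm]
    simp only [dotProduct, mulVec, Tm, Matrix.of_apply, Finset.mul_sum, Pi.star_apply,
      Complex.star_def]
    exact Finset.sum_congr rfl fun q _ => Finset.sum_congr rfl fun p _ => by ring
  have h2 : ∀ c : P → ℂ, star c ⬝ᵥ (H *ᵥ c) =
      (((∑ p, ∑ q, c p * conj (c q) * T p q).re + ε * ∑ p, ‖c p‖ ^ 2 : ℝ) : ℂ) := by
    intro c
    have e1 : star c ⬝ᵥ (Tmᴴ *ᵥ c) = conj (star c ⬝ᵥ (Tm *ᵥ c)) := by
      rw [dotProduct_mulVec, ← star_mulVec, ← Complex.star_def, star_dotProduct]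
    have e2 : star c ⬝ᵥ c = ((∑ p, ‖c p‖ ^ 2 : ℝ) : ℂ) := by
      simp only [dotProduct, Pi.star_apply, Complex.star_def, Complex.conj_mul']
      push_cast
      rfl
    simp only [H, add_mulVec, smul_mulVec, one_mulVec, dotProduct_add, dotProduct_smul, e1, e2, h1,
      smul_eq_mul, Complex.add_conj]
    push_cast
    ring
  have hH : H.PosSemidef := by
    rw [posSemidef_iff_dotProduct_mulVec]
    refine ⟨?_, fun c => ?_⟩
    · simp [IsHermitian, H, add_comm]
    · rw [h2]
      exact Complex.zero_le_real.2 (add_nonneg (hT c) (by positivity))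
  obtain ⟨B, hB⟩ := CStarAlgebra.nonneg_iff_eq_star_mul_self.mp hH.nonneg
  refine ⟨(WithLp.linearEquiv 2 ℂ (P → ℂ)).symm.toLinearMap ∘ₗ B.mulVecLin, fun c => ?_⟩
  apply Complex.ofReal_injective
  rw [← h2, hB, star_eq_conjTranspose, ← mulVec_mulVec, dotProduct_mulVec, ← star_mulVec,
    EuclideanSpace.norm_sq_eq]
  simp only [dotProduct, Pi.star_apply, Complex.star_def, Complex.conj_mul']
  push_cast
  rfl

section KL

variable {I C J E : Type} [Fintype I] [Fintype C] [Fintype J] [Fintype E] [DecidableEq I]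
  [DecidableEq C] [DecidableEq J]

abbrev KK (C J : Type) := (C × J × J) ⊕ (C × J × J) ⊕ ((C × J) × (C × J))

def Lam : Matrix (Idx I C J) (Idx I C J) ℂ →ₗ[ℂ] (KK C J → ℂ) where
  toFun G := Sum.elim
    (fun k => G (.inr (true, k.1, k.2.1)) (.inr (true, k.1, k.2.2)) -
      G (.inr (false, k.1, k.2.1)) (.inr (false, k.1, k.2.2)))
    (Sum.elim (fun k => G (.inr (true, k.1, k.2.1)) (.inr (false, k.1, k.2.2)))
      (fun k => (if k.1.1 = k.2.1 then 1 else -1) * G (.inr (true, k.1)) (.inr (true, k.2))))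
  map_add' G G' := by
    ext (k | k | k) <;> simp only [Sum.elim_inl, Sum.elim_inr, Matrix.add_apply, Pi.add_apply] <;>
      ring
  map_smul' a G := by
    ext (k | k | k) <;> simp <;> ring

lemma trace_mul_conj (B : Matrix (Idx I C J) (Idx I C J) ℂ) :
    (B * Bᴴ).trace.re = ∑ i, ∑ t, ‖B i t‖ ^ 2 := by
  simp only [trace, diag, mul_apply, conjTranspose_apply, Complex.star_def, Complex.mul_conj',
    Complex.re_sum, ← Complex.ofReal_pow, Complex.ofReal_re]

theorem KL (N : Matrix E (Idx I C J) ℂ)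
    (h : 2 * Fintype.card E < 2 * Fintype.card I + Fintype.card C * Fintype.card J) :
    ∃ x : Idx I C J → EuclideanSpace ℂ (Idx I C J),
      (∀ e, ∑ i, N e i • x i = 0) ∧ (∃ i, x i ≠ 0) ∧
      (∀ j l l', ⟪x (.inr (true, j, l')), x (.inr (true, j, l))⟫_ℂ =
        ⟪x (.inr (false, j, l')), x (.inr (false, j, l))⟫_ℂ) ∧
      (∀ j l l', ⟪x (.inr (false, j, l')), x (.inr (true, j, l))⟫_ℂ = 0) ∧
      ∀ c : C → J → ℂ, ‖∑ j, ∑ l, c j l • x (.inr (true, j, l))‖ ^ 2 ≤
        2 * ∑ j, ‖∑ l, c j l • x (.inr (true, j, l))‖ ^ 2 := by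
  by_contra hno
  let S0 : Set (Matrix (Idx I C J) (Idx I C J) ℂ) := {B | N * B = 0 ∧ ∑ i, ∑ t, ‖B i t‖ ^ 2 = 1}
  let S : Set (KK C J → ℂ) := (fun B => Lam (B * Bᴴ)) '' S0
  let T : Set (KK C J → ℂ) := {m | (∀ k, m (.inl k) = 0) ∧ (∀ k, m (.inr (.inl k)) = 0) ∧
    ∀ c : C × J → ℂ, 0 ≤ (∑ p, ∑ q, c p * conj (c q) * m (.inr (.inr (p, q)))).re}
  have hS0 : IsCompact S0 := by
    have h1 : IsCompact (Set.pi Set.univ fun _ : Idx I C J => Set.pi Set.univ fun _ : Idx I C J =>
        Metric.closedBall (0 : ℂ) 1) :=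
      isCompact_univ_pi fun _ => isCompact_univ_pi fun _ => isCompact_closedBall _ _
    refine h1.of_isClosed_subset ?_ ?_
    · exact (isClosed_eq (by fun_prop) continuous_const).inter
        (isClosed_eq (by fun_prop) continuous_const)
    · rintro B ⟨-, hB⟩ i - t -
      rw [mem_closedBall_zero_iff]
      have h2 : ‖B i t‖ ^ 2 ≤ ∑ t, ‖B i t‖ ^ 2 :=
        Finset.single_le_sum (f := fun t => ‖B i t‖ ^ 2) (fun _ _ => by positivity)
          (Finset.mem_univ t)
      have h3 : ∑ t, ‖B i t‖ ^ 2 ≤ ∑ i, ∑ t, ‖B i t‖ ^ 2 :=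
        Finset.single_le_sum (f := fun i => ∑ t, ‖B i t‖ ^ 2) (fun _ _ => by positivity)
          (Finset.mem_univ i)
      nlinarith [norm_nonneg (B i t)]
  have hScomp : IsCompact S := by
    refine hS0.image ?_
    exact (LinearMap.continuous_of_finiteDimensional Lam).comp (by fun_prop)
  have hmemS : ∀ G : Matrix (Idx I C J) (Idx I C J) ℂ, G.PosSemidef → N * G = 0 →
      G.trace.re = 1 → Lam G ∈ S := by
    intro G h1 h2 h3
    obtain ⟨B, hB⟩ := CStarAlgebra.nonneg_iff_eq_mul_star_self.mp h1.nonneg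
    rw [star_eq_conjTranspose] at hB
    refine ⟨B, ⟨?_, ?_⟩, by simp only [hB]⟩
    · rw [← self_mul_conjTranspose_eq_zero, conjTranspose_mul, ← Matrix.mul_assoc,
        Matrix.mul_assoc N, ← hB, h2, Matrix.zero_mul]
    · rw [← trace_mul_conj, ← hB, h3]
  have hSconv : Convex ℝ S := by
    rintro _ ⟨B, ⟨hB1, hB2⟩, rfl⟩ _ ⟨B', ⟨hB1', hB2'⟩, rfl⟩ a b ha hb hab
    have := hmemS ((a : ℂ) • (B * Bᴴ) + (b : ℂ) • (B' * B'ᴴ)) ?_ ?_ ?_
    · rwa [map_add, map_smul, map_smul, Complex.coe_smul, Complex.coe_smul] at this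
    · exact ((posSemidef_self_mul_conjTranspose B).smul (Complex.zero_le_real.2 ha)).add
        ((posSemidef_self_mul_conjTranspose B').smul (Complex.zero_le_real.2 hb))
    · rw [Matrix.mul_add, Matrix.mul_smul, Matrix.mul_smul, ← Matrix.mul_assoc, ← Matrix.mul_assoc,
        hB1, hB1']
      simp
    · rw [trace_add, trace_smul, trace_smul, smul_eq_mul, smul_eq_mul, Complex.add_re,
        Complex.re_ofReal_mul, Complex.re_ofReal_mul, trace_mul_conj, trace_mul_conj, hB2, hB2']
      linarith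
  have hTclosed : IsClosed T := by
    simp only [T, Set.ofPred_and, Set.ofPred_forall]
    refine (isClosed_iInter fun k => isClosed_eq (by fun_prop) continuous_const).inter
      ((isClosed_iInter fun k => isClosed_eq (by fun_prop) continuous_const).inter
        (isClosed_iInter fun c => isClosed_le continuous_const (by fun_prop)))
  have hTcone : ∀ m ∈ T, ∀ a : ℝ, 0 ≤ a → a • m ∈ T := by
    rintro m ⟨h1, h2, h3⟩ a ha
    refine ⟨fun k => by simp [h1], fun k => by simp [h2], fun c => ?_⟩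
    have : ∑ p, ∑ q, c p * conj (c q) * (a • m) (.inr (.inr (p, q))) =
        (a : ℂ) * ∑ p, ∑ q, c p * conj (c q) * m (.inr (.inr (p, q))) := by
      simp only [Finset.mul_sum, Pi.smul_apply, Complex.real_smul]
      exact Finset.sum_congr rfl fun p _ => Finset.sum_congr rfl fun q _ => by ring
    rw [this, Complex.re_ofReal_mul]
    exact mul_nonneg ha (h3 c)
  have hTconv : Convex ℝ T := by
    intro m hm m' hm' a b ha hb _
    obtain ⟨h1, h2, h3⟩ := hTcone m hm a ha
    obtain ⟨h1', h2', h3'⟩ := hTcone m' hm' b hb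
    refine ⟨fun k => by rw [Pi.add_apply, h1, h1', add_zero],
      fun k => by rw [Pi.add_apply, h2, h2', add_zero], fun c => ?_⟩
    simp only [Pi.add_apply, mul_add, Finset.sum_add_distrib, Complex.add_re]
    exact add_nonneg (h3 c) (h3' c)
  have hdisj : Disjoint S T := by
    rw [Set.disjoint_left]
    rintro _ ⟨B, ⟨hB1, hB2⟩, rfl⟩ ⟨h1, h2, h3⟩
    apply hno
    let x : Idx I C J → EuclideanSpace ℂ (Idx I C J) := fun i => WithLp.toLp 2 (B i)
    have hx : ∀ i i', (B * Bᴴ) i i' = ⟪x i', x i⟫_ℂ := by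
      intro i i'
      simp [x, mul_apply, PiLp.inner_apply]
    refine ⟨x, fun e => ?_, ?_, fun j l l' => ?_, fun j l l' => ?_, fun c => ?_⟩
    · ext t
      have := congrFun (congrFun hB1 e) t
      simpa [x, mul_apply] using this
    · by_contra h0
      push Not at h0
      have : ∀ i t, B i t = 0 := fun i t => by simpa [x] using congrArg (fun v => v t) (h0 i)
      simp [this] at hB2
    · rw [← hx, ← hx]
      exact sub_eq_zero.1 (h1 (j, l, l'))
    · rw [← hx]
      exact h2 (j, l, l')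
    · have h4 := h3 fun p => c p.1 p.2
      have h5 : ∀ p q : C × J, c p.1 p.2 * conj (c q.1 q.2) * Lam (B * Bᴴ) (.inr (.inr (p, q))) =
          (if p.1 = q.1 then 1 else -1) * (c p.1 p.2 * conj (c q.1 q.2) *
            ⟪x (.inr (true, q)), x (.inr (true, p))⟫_ℂ) := by
        intro p q
        rw [← hx]
        simp only [Lam, LinearMap.coe_mk, AddHom.coe_mk, Sum.elim_inr]
        ring
      simp only [h5] at h4
      rw [sgn_sum] at h4
      have h6 := norm_sum_sq (fun p : C × J => c p.1 p.2) fun p => x (.inr (true, p))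
      rw [Fintype.sum_prod_type] at h6
      simp only [norm_sum_sq, h6]
      rw [← Complex.re_sum]
      simp only [Complex.sub_re, Complex.mul_re, Complex.re_ofNat, Complex.im_ofNat, zero_mul,
        sub_zero] at h4
      linarith
  obtain ⟨f, u, v, hfS, huv, hfT⟩ :=
    RCLike.geometric_hahn_banach_compact_closed (𝕜 := ℂ) hSconv hScomp hTconv hTclosed hdisj
  have hT0 : (0 : KK C J → ℂ) ∈ T := ⟨fun _ => rfl, fun _ => rfl, fun c => by simp⟩
  have hu : u < 0 := by
    have := hfT 0 hT0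
    simp only [map_zero] at this
    linarith
  have hfT' : ∀ m ∈ T, 0 ≤ (f m).re := by
    intro m hm
    by_contra hneg
    push Not at hneg
    have hv : v < 0 := by simpa using hfT 0 hT0
    have h1 := hfT _ (hTcone m hm (v / (f m).re) (div_nonneg_of_nonpos hv.le hneg.le))
    rw [← Complex.coe_smul, map_smul, smul_eq_mul] at h1
    change v < (_ * f m).re at h1
    rw [Complex.re_ofReal_mul, div_mul_cancel₀ _ hneg.ne] at h1
    exact lt_irrefl _ h1
  set F : KK C J → ℂ := fun k => f (Pi.single k 1) with hF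
  have hf : ∀ m, f m = ∑ k, m k * F k := by
    intro m
    conv_lhs => rw [← Finset.univ_sum_single m, map_sum]
    refine Finset.sum_congr rfl fun k _ => ?_
    rw [hF, ← smul_eq_mul, ← map_smul, ← Pi.single_smul, smul_eq_mul, mul_one]
  have hFT : ∀ c : C × J → ℂ,
      0 ≤ (∑ p, ∑ q, c p * conj (c q) * F (.inr (.inr (p, q)))).re := by
    intro c
    have := hfT' (Sum.elim 0 (Sum.elim 0 fun k => c k.1 * conj (c k.2)))
      ⟨fun _ => rfl, fun _ => rfl, fun d => ?_⟩
    · rw [hf] at this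
      simpa [Fintype.sum_sum_type, Fintype.sum_prod_type (α₂ := C × J)] using this
    · have : ∑ p, ∑ q, d p * conj (d q) * (c p * conj (c q)) =
          (∑ p, d p * c p) * conj (∑ p, d p * c p) := by
        rw [map_sum, Finset.sum_mul_sum]
        exact Finset.sum_congr rfl fun p _ => Finset.sum_congr rfl fun q _ => by
          rw [map_mul]; ring
      simp only [Sum.elim_inr]
      rw [this, Complex.mul_conj', ← Complex.ofReal_pow, Complex.ofReal_re]
      positivity
  obtain ⟨τ, hτ⟩ := exists_tau (fun p q => F (.inr (.inr (p, q)))) hFT (neg_nonneg.2 hu.le)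
  let unc : (C → EuclideanSpace ℂ J) →ₗ[ℂ] (C × J → ℂ) :=
    { toFun := fun w p => w p.1 p.2
      map_add' := fun _ _ => rfl
      map_smul' := fun _ _ => rfl }
  let pr : Bool → (LinearMap.ker N.mulVecLin →ₗ[ℂ] (C → EuclideanSpace ℂ J)) := fun s =>
    { toFun := fun y j => WithLp.toLp 2 fun l => y.1 (.inr (s, j, l))
      map_add' := fun _ _ => rfl
      map_smul' := fun _ _ => rfl }
  have hinj : Function.Injective (τ ∘ₗ unc) := by
    rw [injective_iff_map_eq_zero]
    intro w hw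
    have h1 := hτ (unc w)
    have h2 := hFT (unc w)
    rw [LinearMap.comp_apply] at hw
    rw [hw, norm_zero] at h1
    have h3 : 0 ≤ ∑ p, ‖unc w p‖ ^ 2 := by positivity
    have h4 : ∑ p, ‖unc w p‖ ^ 2 = 0 := by nlinarith
    rw [Finset.sum_eq_zero_iff_of_nonneg fun _ _ => by positivity] at h4
    ext j l
    have h5 : unc w (j, l) = 0 := by simpa using h4 (j, l) (Finset.mem_univ _)
    exact h5
  have hdim : 3 * (Fintype.card C * finrank ℂ (EuclideanSpace ℂ J)) <
      2 * finrank ℂ (LinearMap.ker N.mulVecLin) := by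
    have h1 := N.mulVecLin.finrank_range_add_finrank_ker
    have h2 := (LinearMap.range N.mulVecLin).finrank_le
    simp only [finrank_fintype_fun_eq_card, Fintype.card_sum, Fintype.card_prod,
      Fintype.card_bool] at h1 h2
    rw [finrank_euclideanSpace]
    omega
  obtain ⟨y, hy0, hy⟩ := inertia
    (fun j => toEuclideanLin (Matrix.of fun l' l => F (.inl (j, l, l'))))
    (fun j => toEuclideanLin (Matrix.of fun l' l => F (.inr (.inl (j, l, l')))))
    (τ ∘ₗ unc) hinj (pr true) (pr false) hdim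
  obtain ⟨y, hyN⟩ := y
  have hyN' : N *ᵥ y = 0 := hyN
  set s : ℝ := ∑ i, ‖y i‖ ^ 2 with hs
  have hs0 : 0 < s := by
    refine lt_of_le_of_ne (by positivity) fun h0 => hy0 ?_
    rw [hs, eq_comm, Finset.sum_eq_zero_iff_of_nonneg fun _ _ => by positivity] at h0
    ext i
    simpa using h0 i (Finset.mem_univ _)
  have h1 := hfS _ (hmemS (((s⁻¹ : ℝ) : ℂ) • vecMulVec y (star y))
    ((posSemidef_vecMulVec_self_star y).smul (Complex.zero_le_real.2 (inv_nonneg.2 hs0.le)))
    (by rw [Matrix.mul_smul, mul_vecMulVec, hyN']; simp) (by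
      rw [trace_smul, smul_eq_mul, Complex.re_ofReal_mul, trace_vecMulVec]
      simp only [dotProduct, Pi.star_apply, Complex.star_def, Complex.mul_conj', Complex.re_sum,
        ← Complex.ofReal_pow, Complex.ofReal_re]
      exact inv_mul_cancel₀ hs0.ne'))
  rw [map_smul, map_smul, smul_eq_mul] at h1
  change (_ * f _).re < u at h1
  rw [Complex.re_ofReal_mul, inv_mul_lt_iff₀ hs0, hf] at h1
  have hin : ∀ (g : J → J → ℂ) (a b : J → ℂ), ⟪WithLp.toLp 2 b,
      toEuclideanLin (Matrix.of fun l' l => g l l') (WithLp.toLp 2 a)⟫_ℂ =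
      ∑ l, ∑ l', a l * conj (b l') * g l l' := by
    intro g a b
    rw [Finset.sum_comm]
    simp only [PiLp.inner_apply, toLpLin_toLp, toLin'_apply, mulVec, dotProduct, Matrix.of_apply,
      RCLike.inner_apply, Finset.sum_mul]
    exact Finset.sum_congr rfl fun _ _ => Finset.sum_congr rfl fun _ _ => by ring
  have hsing : ∀ j, ‖τ (unc (Pi.single j (WithLp.toLp 2 fun l => y (.inr (true, j, l)))))‖ ^ 2 =
      (∑ l, ∑ l', y (.inr (true, j, l)) * conj (y (.inr (true, j, l'))) *
        F (.inr (.inr ((j, l), (j, l'))))).re + -u * ∑ l, ‖y (.inr (true, j, l))‖ ^ 2 := by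
    intro j
    have e : ∀ p : C × J, unc (Pi.single j (WithLp.toLp 2 fun l => y (.inr (true, j, l)))) p =
        if p.1 = j then y (.inr (true, p)) else 0 := by
      rintro ⟨i, l⟩
      by_cases hij : i = j
      · subst hij; simp [unc]
      · simp [unc, hij]
    rw [hτ]
    simp only [e, Fintype.sum_prod_type]
    congr 2
    · rw [Finset.sum_eq_single j (fun i _ hi => by simp [hi]) (by simp)]
      refine Finset.sum_congr rfl fun l _ => ?_
      rw [Finset.sum_eq_single j (fun i _ hi => by simp [hi]) (by simp)]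
      simp
    · rw [Finset.sum_eq_single j (fun i _ hi => by simp [hi]) (by simp)]
      simp
  have hall := hτ fun p => y (.inr (true, p))
  have hsgn := sgn_sum fun p q => y (.inr (true, p)) * conj (y (.inr (true, q))) *
    F (.inr (.inr (p, q)))
  have hle : ∑ p : C × J, ‖y (.inr (true, p))‖ ^ 2 ≤ s := by
    rw [hs, Fintype.sum_sum_type, Fintype.sum_prod_type (α₁ := Bool), Fintype.sum_bool]
    have : 0 ≤ ∑ i, ‖y (.inl i)‖ ^ 2 := by positivity
    have : 0 ≤ ∑ p : C × J, ‖y (.inr (false, p))‖ ^ 2 := by positivity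
    linarith
  simp only [pr, LinearMap.coe_mk, AddHom.coe_mk, LinearMap.comp_apply, hin, hsing] at hy
  have e1 : unc (fun j => WithLp.toLp 2 fun l => y (.inr (true, j, l))) =
    fun p => y (.inr (true, p)) := rfl
  rw [e1, hall] at hy
  have e2 : ∑ k, Lam (vecMulVec y (star y)) k * F k =
      (∑ j, ∑ l, ∑ l', y (.inr (true, j, l)) * conj (y (.inr (true, j, l'))) * F (.inl (j, l, l')) -
      ∑ j, ∑ l, ∑ l', y (.inr (false, j, l)) * conj (y (.inr (false, j, l'))) *
        F (.inl (j, l, l'))) +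
      (∑ j, ∑ l, ∑ l', y (.inr (true, j, l)) * conj (y (.inr (false, j, l'))) *
        F (.inr (.inl (j, l, l'))) +
      ∑ p : C × J, ∑ q : C × J, (if p.1 = q.1 then 1 else -1) * (y (.inr (true, p)) *
        conj (y (.inr (true, q))) * F (.inr (.inr (p, q))))) := by
    rw [Fintype.sum_sum_type, Fintype.sum_sum_type, Fintype.sum_prod_type (α₂ := C × J)]
    simp only [Lam, LinearMap.coe_mk, AddHom.coe_mk, Sum.elim_inr, Sum.elim_inl, vecMulVec_apply,
      Pi.star_apply, Complex.star_def, sub_mul, Finset.sum_sub_distrib, mul_assoc]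
    simp only [Fintype.sum_prod_type (α₁ := C) (α₂ := J × J), Fintype.sum_prod_type (α₁ := J)]
  rw [e2, hsgn] at h1
  simp only [Complex.add_re, Complex.sub_re, Complex.mul_re, Complex.re_ofNat, Complex.im_ofNat,
    zero_mul, sub_zero] at h1
  rw [Complex.re_sum, Complex.re_sum, Complex.re_sum, Complex.re_sum] at h1
  rw [Finset.sum_add_distrib, ← Finset.mul_sum, ← Fintype.sum_prod_type'
    (f := fun j l => ‖y (.inr (true, j, l))‖ ^ 2)] at hy
  have e3 : ∑ p : C × J, ‖y (.inr (true, p.1, p.2))‖ ^ 2 = ∑ p : C × J, ‖y (.inr (true, p))‖ ^ 2 :=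
    rfl
  rw [e3] at hy
  nlinarith

end KL

end Crest.Agent.H7.Qt
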