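import Mathlib

/-! Extension of finite Gram data to a representation on a Hilbert space. -/

set_option autoImplicit false

open Module TopologicalSpace
open scoped InnerProductSpace ComplexConjugate

namespace Crest.Agent.H7.Qt

noncomputable abbrev L2 := lp (fun _ : ℕ => ℂ) 2

instance : SecondCountableTopology L2 := by
  have h1 : IsSeparable (Set.range (default : HilbertBasis ℕ ℂ L2)) :=
    (Set.countable_range _).isSeparable
  have h2 := (h1.span (R := ℂ)).closure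
  rw [← Submodule.topologicalClosure_coe, HilbertBasis.dense_span, Submodule.top_coe,
    isSeparable_univ_iff] at h2
  exact UniformSpace.secondCountable_of_separable _

lemma exists_equiv_L2 (G : Type*) [NormedAddCommGroup G] [InnerProductSpace ℂ G] [CompleteSpace G]
    [SeparableSpace G] (x : ℕ → G) (hx : Orthonormal ℂ x) : Nonempty (L2 ≃ₗᵢ[ℂ] G) := by
  obtain ⟨w, b, hb⟩ := exists_hilbertBasis ℂ G
  have ho := b.orthonormal
  have hc : Countable w := by
    have : (Set.univ : Set w).PairwiseDisjoint fun i => Metric.ball (b i) (1 / 2) := by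
      intro i _ j _ hij
      refine Metric.ball_disjoint_ball ?_
      rw [dist_eq_norm]
      have h1 : ‖b i - b j‖ ^ 2 = 2 := by
        rw [@norm_sub_sq ℂ, ho.1, ho.1, ho.2 hij]
        norm_num
      nlinarith [norm_nonneg (b i - b j)]
    have := this.countable_of_isOpen (fun _ _ => Metric.isOpen_ball)
      fun _ _ => Metric.nonempty_ball.2 (by norm_num)
    exact Set.countable_univ_iff.1 this
  have hi : Infinite w := by
    by_contra h
    rw [not_infinite_iff_finite] at h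
    have := Fintype.ofFinite w
    have := Module.Finite.of_basis b.toOrthonormalBasis.toBasis
    exact Module.Finite.not_linearIndependent_of_infinite x hx.linearIndependent
  obtain ⟨e⟩ : Nonempty (ℕ ≃ w) := nonempty_equiv_of_countable
  have hsp : ⊤ ≤ (Submodule.span ℂ (Set.range (b ∘ e))).topologicalClosure := by
    rw [EquivLike.range_comp, b.dense_span]
  exact ⟨(HilbertBasis.mk (ho.comp e e.injective) hsp).repr.symm⟩

/-- five operators with `v v⋆ = 1 - v⋆ v` and `‖∑ v⋆ v‖ ≤ 2` -/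
structure Rep where
  H : Type
  [i1 : NormedAddCommGroup H]
  [i2 : InnerProductSpace ℂ H]
  [i3 : CompleteSpace H]
  [i4 : Nontrivial H]
  v : Fin 5 → H →L[ℂ] H
  rel : ∀ j, v j * star (v j) = 1 - star (v j) * v j
  bound : ‖∑ j, star (v j) * v j‖ ≤ 2

attribute [instance] Rep.i1 Rep.i2 Rep.i3 Rep.i4

section Adj

variable {K K' H : Type*} [NormedAddCommGroup K] [InnerProductSpace ℂ K] [CompleteSpace K]
  [NormedAddCommGroup K'] [InnerProductSpace ℂ K'] [CompleteSpace K']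
  [NormedAddCommGroup H] [InnerProductSpace ℂ H] [CompleteSpace H]

lemma adj_self (x : K →L[ℂ] H) (h : ∀ k k', ⟪x k, x k'⟫_ℂ = ⟪k, k'⟫_ℂ) (k : K) :
    ContinuousLinearMap.adjoint x (x k) = k :=
  ext_inner_left ℂ fun z => by rw [ContinuousLinearMap.adjoint_inner_right, h]

omit [CompleteSpace K'] in
lemma adj_orth (x : K →L[ℂ] H) (y : K' →L[ℂ] H) (h : ∀ k k', ⟪x k, y k'⟫_ℂ = 0) (k : K') :
    ContinuousLinearMap.adjoint x (y k) = 0 :=
  ext_inner_left ℂ fun z => by rw [ContinuousLinearMap.adjoint_inner_right, h, inner_zero_right]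

end Adj

section Ext

variable {W H : Type*} [NormedAddCommGroup W] [InnerProductSpace ℂ W] [CompleteSpace W]
  [NormedAddCommGroup H] [InnerProductSpace ℂ H] [CompleteSpace H] [SecondCountableTopology H]

open ContinuousLinearMap in
lemma exists_v (a a' : W →L[ℂ] H) (t s : L2 →L[ℂ] H)
    (haa : ∀ k k', ⟪a k, a k'⟫_ℂ = ⟪k, k'⟫_ℂ) (ha'a' : ∀ k k', ⟪a' k, a' k'⟫_ℂ = ⟪k, k'⟫_ℂ)
    (htt : ∀ k k', ⟪t k, t k'⟫_ℂ = ⟪k, k'⟫_ℂ) (hss : ∀ k k', ⟪s k, s k'⟫_ℂ = ⟪k, k'⟫_ℂ)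
    (ha'a : ∀ k k', ⟪a' k, a k'⟫_ℂ = 0) (hat : ∀ k k', ⟪a k, t k'⟫_ℂ = 0)
    (ha't : ∀ k k', ⟪a' k, t k'⟫_ℂ = 0) (has : ∀ k k', ⟪a k, s k'⟫_ℂ = 0)
    (ha's : ∀ k k', ⟪a' k, s k'⟫_ℂ = 0) (hts : ∀ k k', ⟪t k, s k'⟫_ℂ = 0) :
    ∃ v : H →L[ℂ] H, v * star v = 1 - star v * v ∧
      (∀ ξ, (star v * v) ξ = a (adjoint a ξ) + t (adjoint t ξ)) ∧
      (∀ w, v (a w) = a' w) ∧ (∀ w, v (a' w) = 0) ∧ (∀ w, star v (a' w) = a w) ∧
      ∀ w, star v (a w) = 0 := by
  let G : Submodule ℂ H := (LinearMap.range a.toLinearMap ⊔ LinearMap.range a'.toLinearMap ⊔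
    LinearMap.range t.toLinearMap)ᗮ
  have hG : ∀ h, h ∈ G ↔ (∀ k, ⟪a k, h⟫_ℂ = 0) ∧ (∀ k, ⟪a' k, h⟫_ℂ = 0) ∧ ∀ k, ⟪t k, h⟫_ℂ = 0 := by
    intro h
    simp only [G, ← Submodule.inf_orthogonal, Submodule.mem_inf, Submodule.mem_orthogonal,
      LinearMap.mem_range, forall_exists_index, forall_apply_eq_imp_iff, and_assoc]
    rfl
  have ho : Orthonormal ℂ fun n : ℕ =>
      (⟨s ((default : HilbertBasis ℕ ℂ L2) n), (hG _).2 ⟨fun _ => has _ _, fun _ => ha's _ _,
        fun _ => hts _ _⟩⟩ : G) := by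
    have := (default : HilbertBasis ℕ ℂ L2).orthonormal
    rw [orthonormal_iff_ite] at this ⊢
    intro i j
    rw [← this, ← hss]
    rfl
  obtain ⟨θ⟩ := exists_equiv_L2 G _ ho
  let t' : L2 →L[ℂ] H := G.subtypeL ∘L θ.toContinuousLinearEquiv.toContinuousLinearMap
  have ht't' : ∀ k k', ⟪t' k, t' k'⟫_ℂ = ⟪k, k'⟫_ℂ := fun k k' => θ.inner_map_map k k'
  have hat' : ∀ k k', ⟪a k, t' k'⟫_ℂ = 0 := fun k k' => ((hG _).1 (θ k').2).1 k
  have ha't' : ∀ k k', ⟪a' k, t' k'⟫_ℂ = 0 := fun k k' => ((hG _).1 (θ k').2).2.1 k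
  have htt' : ∀ k k', ⟪t k, t' k'⟫_ℂ = 0 := fun k k' => ((hG _).1 (θ k').2).2.2 k
  have sw : ∀ {x y : H}, ⟪x, y⟫_ℂ = 0 → ⟪y, x⟫_ℂ = 0 := fun h => inner_eq_zero_symm.1 h
  have e1 := adj_self a haa
  have e2 := adj_self a' ha'a'
  have e3 := adj_self t htt
  have e4 := adj_self t' ht't'
  have f1 := adj_orth a' a ha'a
  have f2 := adj_orth a a' fun _ _ => sw (ha'a _ _)
  have f3 := adj_orth t a fun _ _ => sw (hat _ _)
  have f4 := adj_orth t a' fun _ _ => sw (ha't _ _)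
  have f5 := adj_orth t' a fun _ _ => sw (hat' _ _)
  have f6 := adj_orth t' a' fun _ _ => sw (ha't' _ _)
  have f7 := adj_orth a t hat
  have f8 := adj_orth a' t' ha't'
  let v : H →L[ℂ] H := a' ∘L adjoint a + t' ∘L adjoint t
  have hv : ∀ ξ, v ξ = a' (adjoint a ξ) + t' (adjoint t ξ) := fun ξ => rfl
  have hv' : ∀ ξ, star v ξ = a (adjoint a' ξ) + t (adjoint t' ξ) := by
    intro ξ
    simp [v, star_eq_adjoint, adjoint_comp]
  have h1 : ∀ ξ, (star v * v) ξ = a (adjoint a ξ) + t (adjoint t ξ) := by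
    intro ξ
    simp [hv, hv', e2, e4, f6, f8]
  have h2 : ∀ ξ, (v * star v) ξ = a' (adjoint a' ξ) + t' (adjoint t' ξ) := by
    intro ξ
    simp [hv, hv', e1, e3, f3, f7]
  refine ⟨v, ?_, h1, fun w => by simp [hv, e1, f3], fun w => by simp [hv, f2, f4],
    fun w => by simp [hv', e2, f6], fun w => by simp [hv', f1, f5]⟩
  ext ξ
  rw [sub_apply, h1, h2, one_apply_eq_self, eq_comm, ← sub_eq_zero]
  set η := ξ - (a (adjoint a ξ) + t (adjoint t ξ)) - (a' (adjoint a' ξ) + t' (adjoint t' ξ)) with hη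
  have hηG : η ∈ G := by
    refine (hG _).2 ⟨fun k => ?_, fun k => ?_, fun k => ?_⟩
    · simp [hη, inner_sub_right, inner_add_right, haa, hat, hat', sw (ha'a _ _), adjoint_inner_right]
    · simp [hη, inner_sub_right, inner_add_right, ha'a', ha'a, ha't, ha't', adjoint_inner_right]
    · simp [hη, inner_sub_right, inner_add_right, htt, htt', sw (hat _ _), sw (ha't _ _),
        adjoint_inner_right]
  have hηt : ∀ k, ⟪t' k, η⟫_ℂ = 0 := by
    intro k
    simp [hη, inner_sub_right, inner_add_right, ht't', sw (hat' _ _), sw (ha't' _ _),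
      sw (htt' _ _), adjoint_inner_right]
  have := hηt (θ.symm ⟨η, hηG⟩)
  have e : t' (θ.symm ⟨η, hηG⟩) = η := by simp [t']
  rwa [e, inner_self_eq_zero] at this

end Ext

open ContinuousLinearMap in
theorem exists_rep {E : Type} [NormedAddCommGroup E] [InnerProductSpace ℂ E] [FiniteDimensional ℂ E]
    {J : Type} [Fintype J] (σ : Bool → Fin 5 → J → E)
    (h1 : ∀ j l l', ⟪σ true j l', σ true j l⟫_ℂ = ⟪σ false j l', σ false j l⟫_ℂ)
    (h2 : ∀ j l l', ⟪σ false j l', σ true j l⟫_ℂ = 0)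
    (h3 : ∀ c : Fin 5 → J → ℂ, ‖∑ j, ∑ l, c j l • σ true j l‖ ^ 2 ≤
      2 * ∑ j, ‖∑ l, c j l • σ true j l‖ ^ 2) :
    ∃ (R : Rep) (ι : E →ₗ[ℂ] R.H), Function.Injective ι ∧ ∀ j l,
      R.v j (ι (σ true j l)) = ι (σ false j l) ∧ R.v j (ι (σ false j l)) = 0 ∧
      star (R.v j) (ι (σ false j l)) = ι (σ true j l) ∧ star (R.v j) (ι (σ true j l)) = 0 := by
  classical
  have : CompleteSpace E := FiniteDimensional.complete ℂ E
  have : ProperSpace E := FiniteDimensional.proper ℂ E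
  let H := WithLp 2 (E × PiLp 2 (fun _ : Fin 5 => L2))
  let ι : E →L[ℂ] H := (WithLp.prodContinuousLinearEquiv 2 ℂ _ _).symm.toContinuousLinearMap ∘L
    ContinuousLinearMap.inl ℂ _ _
  let t : Fin 5 → L2 →L[ℂ] H := fun j =>
    (WithLp.prodContinuousLinearEquiv 2 ℂ _ _).symm.toContinuousLinearMap ∘L
    ContinuousLinearMap.inr ℂ _ _ ∘L
    (PiLp.continuousLinearEquiv 2 ℂ _).symm.toContinuousLinearMap ∘L
    ContinuousLinearMap.single ℂ (fun _ : Fin 5 => L2) j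
  have hι : ∀ e, ι e = WithLp.toLp 2 (e, 0) := fun e => rfl
  have ht : ∀ j u, t j u = WithLp.toLp 2 (0, WithLp.toLp 2 (Pi.single j u)) := fun j u => rfl
  have hιι : ∀ e e', ⟪ι e, ι e'⟫_ℂ = ⟪e, e'⟫_ℂ := fun e e' => by simp [hι, H]
  have hιt : ∀ e j u, ⟪ι e, t j u⟫_ℂ = 0 := fun e j u => by simp [hι, ht, H]
  have htt : ∀ i j u u', ⟪t i u, t j u'⟫_ℂ = if i = j then ⟪u, u'⟫_ℂ else 0 := by
    intro i j u u'
    simp only [ht, H, WithLp.prod_inner_apply, inner_zero_left, zero_add, PiLp.inner_apply]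
    rw [Finset.sum_eq_single i (fun k _ hk => by simp [hk]) (by simp)]
    split_ifs with h
    · subst h; simp
    · simp [h]
  let α : Bool → Fin 5 → ((J → ℂ) →ₗ[ℂ] E) := fun b j => Fintype.linearCombination ℂ (σ b j)
  have hα : ∀ b j c, α b j c = ∑ l, c l • σ b j l := fun b j c => rfl
  have hα1 : ∀ j c c', ⟪α true j c, α true j c'⟫_ℂ = ⟪α false j c, α false j c'⟫_ℂ := by
    intro j c c'
    simp only [hα, sum_inner, inner_sum, inner_smul_left, inner_smul_right, h1]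
  have hα2 : ∀ j c c', ⟪α false j c, α true j c'⟫_ℂ = 0 := by
    intro j c c'
    simp [hα, sum_inner, inner_sum, inner_smul_left, inner_smul_right, h2]
  let W : Fin 5 → Submodule ℂ E := fun j => LinearMap.range (α true j)
  have hρ : ∀ j, ∃ ρ : W j →ₗ[ℂ] (J → ℂ), ∀ w, α true j (ρ w) = w := by
    intro j
    obtain ⟨ρ, hρ⟩ := (α true j).rangeRestrict.exists_rightInverse_of_surjective
      (LinearMap.range_rangeRestrict _)
    exact ⟨ρ, fun w => congrArg Subtype.val (LinearMap.congr_fun hρ w)⟩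
  choose ρ hρ using hρ
  let a : ∀ j, W j →L[ℂ] H := fun j => ι ∘L (W j).subtypeL
  let a' : ∀ j, W j →L[ℂ] H := fun j => ι ∘L LinearMap.toContinuousLinearMap (α false j ∘ₗ ρ j)
  have ha : ∀ j w, a j w = ι (α true j (ρ j w)) := fun j w => by rw [hρ]; rfl
  have ha0 : ∀ j w, a j w = ι w := fun j w => rfl
  have ha' : ∀ j w, a' j w = ι (α false j (ρ j w)) := fun j w => rfl
  have haa : ∀ j k k', ⟪a j k, a j k'⟫_ℂ = ⟪k, k'⟫_ℂ := fun j k k' => hιι _ _
  have hj : ∀ j : Fin 5, j ≠ j + 1 := by decide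
  choose v hv1 hv2 hv3 hv4 hv5 hv6 using fun j => exists_v (a j) (a' j) (t j) (t (j + 1)) (haa j)
    (fun k k' => by rw [ha', ha', hιι, ← hα1, ← hιι, ← ha, ← ha, haa])
    (fun k k' => by simp [htt]) (fun k k' => by simp [htt])
    (fun k k' => by rw [ha', ha, hιι, hα2]) (fun k k' => hιt _ _ _) (fun k k' => hιt _ _ _)
    (fun k k' => hιt _ _ _) (fun k k' => hιt _ _ _) (fun k k' => by rw [htt, if_neg (hj j)])
  have hnt : Nontrivial H := by
    refine nontrivial_of_ne (t 0 ((default : HilbertBasis ℕ ℂ L2) 0)) 0 fun h => ?_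
    have := htt 0 0 ((default : HilbertBasis ℕ ℂ L2) 0) ((default : HilbertBasis ℕ ℂ L2) 0)
    rw [h, inner_zero_left, if_pos rfl, eq_comm, inner_self_eq_zero] at this
    exact (default : HilbertBasis ℕ ℂ L2).orthonormal.ne_zero 0 this
  have hb : ‖∑ j, star (v j) * v j‖ ≤ 2 := by
    refine opNorm_le_bound _ (by norm_num) fun ξ => ?_
    set w : ∀ j, W j := fun j => adjoint (a j) ξ with hw
    set u : Fin 5 → L2 := fun j => adjoint (t j) ξ with hu
    have e1 : (∑ j, star (v j) * v j) ξ = ∑ j, (a j (w j) + t j (u j)) := by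
      rw [sum_apply]
      exact Finset.sum_congr rfl fun j _ => hv2 j ξ
    have e2 : ∑ j, (a j (w j) + t j (u j)) =
        WithLp.toLp 2 (∑ j, (w j : E), WithLp.toLp 2 u) := by
      rw [Finset.sum_add_distrib]
      simp only [ha0, ← map_sum]
      have : ∑ j, t j (u j) = WithLp.toLp 2 (0, WithLp.toLp 2 u) := by
        simp only [t, ContinuousLinearMap.comp_apply, ← map_sum]
        have : ∑ j, ContinuousLinearMap.single ℂ (fun _ : Fin 5 => L2) j (u j) = u :=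
          Finset.univ_sum_single u
        rw [this]
        rfl
      rw [this, hι, ← WithLp.toLp_add, Prod.mk_add_mk, add_zero, zero_add]
    have e3 : ‖(∑ j, star (v j) * v j) ξ‖ ^ 2 = ‖∑ j, (w j : E)‖ ^ 2 + ∑ j, ‖u j‖ ^ 2 := by
      rw [e1, e2, WithLp.prod_norm_sq_eq_of_L2, PiLp.norm_sq_eq_of_L2]
      rfl
    have e4 : ‖∑ j, (w j : E)‖ ^ 2 ≤ 2 * ∑ j, ‖w j‖ ^ 2 := by
      have := h3 fun j => ρ j (w j)
      simp only [← hα, hρ] at this
      exact this
    have e5 : ∑ j, ‖w j‖ ^ 2 + ∑ j, ‖u j‖ ^ 2 = (⟪ξ, (∑ j, star (v j) * v j) ξ⟫_ℂ).re := by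
      rw [e1, inner_sum, Complex.re_sum, ← Finset.sum_add_distrib]
      refine Finset.sum_congr rfl fun j _ => ?_
      rw [inner_add_right, ← adjoint_inner_left (a j), ← adjoint_inner_left (t j), Complex.add_re,
        ← inner_self_eq_norm_sq (𝕜 := ℂ), ← inner_self_eq_norm_sq (𝕜 := ℂ)]
      rfl
    have e6 : (⟪ξ, (∑ j, star (v j) * v j) ξ⟫_ℂ).re ≤ ‖ξ‖ * ‖(∑ j, star (v j) * v j) ξ‖ :=
      (Complex.re_le_norm _).trans (norm_inner_le_norm _ _)
    have e7 : 0 ≤ ∑ j, ‖u j‖ ^ 2 := by positivity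
    by_contra hlt
    push Not at hlt
    nlinarith [norm_nonneg ξ]
  refine ⟨⟨H, v, hv1, hb⟩, ι.toLinearMap, fun e e' h => ?_, fun j l => ?_⟩
  · have := congrArg (fun z : H => (WithLp.ofLp z).1) h
    exact this
  · have hmem : σ true j l ∈ W j := ⟨Pi.single l 1, by simp [α]⟩
    have g1 : ι (σ true j l) = a j ⟨_, hmem⟩ := rfl
    have g2 : ι (σ false j l) = a' j ⟨_, hmem⟩ := by
      rw [ha']
      congr 1
      have g3 := hα1 j (ρ j ⟨_, hmem⟩ - Pi.single l 1) (ρ j ⟨_, hmem⟩ - Pi.single l 1)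
      have g4 : α true j (ρ j ⟨_, hmem⟩ - Pi.single l 1) = 0 := by
        rw [map_sub, hρ]; simp [α]
      rw [g4, inner_zero_left, eq_comm, inner_self_eq_zero, map_sub, sub_eq_zero] at g3
      rw [g3]
      simp [α]
    change v j (ι _) = ι _ ∧ v j (ι _) = 0 ∧ star (v j) (ι _) = ι _ ∧ star (v j) (ι _) = 0
    rw [g1, g2]
    exact ⟨hv3 j _, hv4 j _, hv5 j _, hv6 j _⟩

end Crest.Agent.H7.Qt
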