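import Mathlib
import Crest.Agent.H7.QtC
import Crest.Agent.H7.QtE
import Crest.Agent.H7.QtF

/-! The universal algebra and its rank condition. -/

set_option autoImplicit false

open Module TopologicalSpace
open scoped InnerProductSpace ENNReal

namespace Crest.Agent.H7.Qt

abbrev Lt := Fin 5 × Bool

section Words

variable {B : Type*} [Ring B] [StarRing B]

def gen (v : Fin 5 → B) (l : Lt) : B := if l.2 then v l.1 else star (v l.1)

def word (v : Fin 5 → B) (w : List Lt) : B := (w.map (gen v)).prod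

lemma word_nil (v : Fin 5 → B) : word v [] = 1 := rfl

lemma word_cons (v : Fin 5 → B) (l : Lt) (w : List Lt) : word v (l :: w) = gen v l * word v w := by
  simp [word]

lemma word_append (v : Fin 5 → B) (w w' : List Lt) : word v (w ++ w') = word v w * word v w' := by
  simp [word]

lemma star_word (v : Fin 5 → B) (w : List Lt) : ∃ w', star (word v w) = word v w' := by
  induction w with
  | nil => exact ⟨[], by simp [word_nil]⟩
  | cons l w ih =>
    obtain ⟨w', h⟩ := ih
    refine ⟨w' ++ [(l.1, !l.2)], ?_⟩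
    rw [word_cons, star_mul, h, word_append, word_cons, word_nil, mul_one]
    congr 1
    rcases l with ⟨j, _ | _⟩ <;> simp [gen]

lemma map_word {B' : Type*} [Ring B'] [StarRing B'] [Algebra ℂ B] [Algebra ℂ B'] (φ : B →⋆ₐ[ℂ] B')
    (v : Fin 5 → B) (w : List Lt) : φ (word v w) = word (fun j => φ (v j)) w := by
  induction w with
  | nil => simp [word_nil]
  | cons l w ih =>
    rw [word_cons, word_cons, map_mul, ih]
    congr 1
    rcases l with ⟨j, _ | _⟩ <;> simp [gen, map_star]

end Words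

theorem kernel_rep (n m : ℕ) (h : m < n) (P : Fin m → Fin n → (List Lt →₀ ℂ)) :
    ∃ (R : Rep) (ξ : Fin n → R.H), ξ ≠ 0 ∧
      ∀ i, ∑ k, Finsupp.linearCombination ℂ (word R.v) (P i k) (ξ k) = 0 := by
  classical
  obtain ⟨Lb, hLb⟩ : ∃ Lb : ℕ, ∀ i k, ∀ w ∈ (P i k).support, w.length ≤ Lb :=
    ⟨Finset.univ.sup fun p : Fin m × Fin n => (P p.1 p.2).support.sup List.length, fun i k w hw =>
      (Finset.le_sup (f := List.length) hw).trans (Finset.le_sup
        (f := fun p : Fin m × Fin n => (P p.1 p.2).support.sup List.length) (Finset.mem_univ (i, k)))⟩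
  let W := {w : List Lt // w.length ≤ Lb}
  have : Finite W := List.finite_length_le Lt Lb
  let _ : Fintype W := Fintype.ofFinite W
  let J := Fin n × W × Bool
  let node : Fin n → List Lt → Idx (Fin n) (Fin 5) J := fun k w =>
    match w with
    | [] => .inl k
    | l :: w => if h : w.length ≤ Lb then .inr (!l.2, l.1, (k, ⟨w, h⟩, l.2)) else .inl k
  let N : (Fin m ⊕ Fin n × W × Fin 5) → (Idx (Fin n) (Fin 5) J) → ℂ :=
    Sum.elim (fun i => ∑ k, Finsupp.linearCombination ℂ (fun w => Pi.single (node k w) (1 : ℂ))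
        (P i k))
      fun e => Pi.single (node e.1 e.2.1.1) 1 - Pi.single (.inr (true, e.2.2, (e.1, e.2.1, true))) 1
        - Pi.single (.inr (false, e.2.2, (e.1, e.2.1, false))) 1
  obtain ⟨x, hx1, hx2, hx3, hx4, hx5⟩ := KL (Matrix.of N) (by
    simp only [J, Fintype.card_sum, Fintype.card_prod, Fintype.card_fin, Fintype.card_bool]
    nlinarith)
  obtain ⟨R, ι, hι, hR⟩ := exists_rep (fun b j l => x (.inr (b, j, l))) hx3 hx4 hx5
  let Λ : (Idx (Fin n) (Fin 5) J → ℂ) →ₗ[ℂ] R.H := ι ∘ₗ Fintype.linearCombination ℂ x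
  have hΛ : ∀ i, Λ (Pi.single i 1) = ι (x i) := fun i => by simp [Λ]
  have hΛN : ∀ e, Λ (N e) = 0 := fun e => by
    have : Fintype.linearCombination ℂ x (N e) = 0 := hx1 e
    simp only [Λ, LinearMap.comp_apply, this, map_zero]
  have hnode : ∀ k w, w.length ≤ Lb + 1 → ι (x (node k w)) = word R.v w (ι (x (.inl k))) := by
    intro k w
    induction w with
    | nil => intro _; rfl
    | cons l w ih =>
      intro hw
      have hw' : w.length ≤ Lb := by simpa using hw
      have h1 := hΛN (.inr (k, ⟨w, hw'⟩, l.1))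
      simp only [N, Sum.elim_inr, map_sub, hΛ] at h1
      rw [sub_sub, sub_eq_zero] at h1
      rw [word_cons]
      change _ = gen R.v l (word R.v w _)
      rw [← ih (by omega), h1, map_add]
      obtain ⟨g1, -, -, g4⟩ := hR l.1 (k, ⟨w, hw'⟩, true)
      obtain ⟨-, g2, g3, -⟩ := hR l.1 (k, ⟨w, hw'⟩, false)
      rcases l with ⟨j, _ | _⟩
      · simp only [gen, node, dif_pos hw', Bool.false_eq_true, if_false, Bool.not_false] at g3 g4 ⊢
        rw [g3, g4, zero_add]
      · simp only [gen, node, dif_pos hw', if_true, Bool.not_true] at g1 g2 ⊢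
        rw [g1, g2, add_zero]
  refine ⟨R, fun k => ι (x (.inl k)), fun h0 => ?_, fun i => ?_⟩
  · obtain ⟨i, hi⟩ := hx2
    apply hi
    have h1 : ∀ k w, w.length ≤ Lb + 1 → x (node k w) = 0 := by
      intro k w hw
      apply hι
      rw [hnode k w hw, show ι (x (.inl k)) = 0 from congrFun h0 k, map_zero, map_zero]
    rcases i with k | ⟨b, j, k, w, c⟩
    · exact h1 k [] (by simp)
    · have h2 := h1 k ((j, c) :: w.1) (by simpa using w.2)
      simp only [node, dif_pos w.2] at h2
      have h3 := hx3 j (k, w, c) (k, w, c)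
      rcases b with _ | _ <;> rcases c with _ | _
      · rw [show x (.inr (true, j, (k, w, false))) = 0 from h2, inner_zero_left, eq_comm,
          inner_self_eq_zero] at h3
        exact h3
      · exact h2
      · exact h2
      · rw [show x (.inr (false, j, (k, w, true))) = 0 from h2, inner_zero_left,
          inner_self_eq_zero] at h3
        exact h3
  · rw [← hΛN (.inl i)]
    simp only [N, Sum.elim_inl, map_sum]
    refine Finset.sum_congr rfl fun k _ => ?_
    simp only [Finsupp.linearCombination_apply, Finsupp.sum, map_sum, map_smul, hΛ, sum_apply,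
      smul_apply]
    refine Finset.sum_congr rfl fun w hw => ?_
    rw [hnode k w ((hLb i k w hw).trans (Nat.le_succ _))]

lemma norm_le_one_of_rel {B : Type*} [CStarAlgebra B] {v : B} (h : v * star v = 1 - star v * v) :
    ‖v‖ ≤ 1 := by
  let _ := CStarAlgebra.spectralOrder B
  have _ := CStarAlgebra.spectralOrderedRing B
  have h1 : ‖star v * v‖ ≤ 1 := by
    rw [CStarAlgebra.norm_le_one_iff_of_nonneg _ (star_mul_self_nonneg v), ← sub_nonneg, ← h]
    exact mul_star_self_nonneg v
  rw [CStarRing.norm_star_mul_self] at h1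
  nlinarith [norm_nonneg v]

/-- the span of the words, as a star subalgebra -/
def wordAlg {B : Type*} [Ring B] [StarRing B] [Algebra ℂ B] [StarModule ℂ B] (v : Fin 5 → B) :
    StarSubalgebra ℂ B where
  carrier := Submodule.span ℂ (Set.range (word v))
  mul_mem' := by
    intro x y hx hy
    induction hx using Submodule.span_induction with
    | mem x hx =>
      induction hy using Submodule.span_induction with
      | mem y hy =>
        obtain ⟨w, rfl⟩ := hx
        obtain ⟨w', rfl⟩ := hy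
        exact Submodule.subset_span ⟨w ++ w', word_append _ _ _⟩
      | zero => simp
      | add y z _ _ h1 h2 => rw [mul_add]; exact Submodule.add_mem _ h1 h2
      | smul a y _ h1 => rw [mul_smul_comm]; exact Submodule.smul_mem _ _ h1
    | zero => simp
    | add y z _ _ h1 h2 => rw [add_mul]; exact Submodule.add_mem _ h1 h2
    | smul a y _ h1 => rw [smul_mul_assoc]; exact Submodule.smul_mem _ _ h1
  add_mem' := fun hx hy => Submodule.add_mem _ hx hy
  algebraMap_mem' := fun c => by
    rw [Algebra.algebraMap_eq_smul_one]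
    exact Submodule.smul_mem _ _ (Submodule.subset_span ⟨[], rfl⟩)
  star_mem' := by
    intro x hx
    induction hx using Submodule.span_induction with
    | mem x hx =>
      obtain ⟨w, rfl⟩ := hx
      obtain ⟨w', h⟩ := star_word v w
      exact Submodule.subset_span ⟨w', h.symm⟩
    | zero => simp
    | add y z _ _ h1 h2 => rw [star_add]; exact Submodule.add_mem _ h1 h2
    | smul a y _ h1 => rw [star_smul]; exact Submodule.smul_mem _ _ h1

lemma RC.of_fin {R : Type} [Ring R] (h : ∀ (n m : ℕ) (X : Matrix (Fin m) (Fin n) R)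
    (Y : Matrix (Fin n) (Fin m) R), Y * X = 1 → n ≤ m) : RC R := by
  intro ι κ _ _ _ X Y e
  refine h _ _ (X.submatrix (Fintype.equivFin κ).symm (Fintype.equivFin ι).symm)
    (Y.submatrix (Fintype.equivFin ι).symm (Fintype.equivFin κ).symm) ?_
  rw [Matrix.submatrix_mul_equiv, e, Matrix.submatrix_one_equiv]

lemma rc_closure {B : Type} [CStarAlgebra B] (V : Fin 5 → B)
    (hV : ∀ (n m : ℕ), m < n → ∀ P : Fin m → Fin n → (List Lt →₀ ℂ),
      ∃ (R : Rep) (π : B →⋆ₐ[ℂ] (R.H →L[ℂ] R.H)) (ξ : Fin n → R.H), (∀ j, π (V j) = R.v j) ∧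
        ξ ≠ 0 ∧ ∀ i, ∑ k, Finsupp.linearCombination ℂ (word R.v) (P i k) (ξ k) = 0) :
    RC (wordAlg V).topologicalClosure := by
  refine RC.of_fin fun n m X Y e => ?_
  by_contra hlt
  push Not at hlt
  set C : ℝ := 1 + ∑ k, ∑ i, ‖(Y k i : B)‖ with hC
  have hC0 : 0 < C := by positivity
  have happ : ∀ i k, ∃ p : List Lt →₀ ℂ,
      ‖(X i k : B) - Finsupp.linearCombination ℂ (word V) p‖ ≤ (2 * C)⁻¹ := by
    intro i k
    have h1 : (X i k : B) ∈ closure (wordAlg V : Set B) := (X i k).2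
    obtain ⟨b, hb, hb'⟩ := Metric.mem_closure_iff.1 h1 (2 * C)⁻¹ (by positivity)
    have h2 : b ∈ Submodule.span ℂ (Set.range (word V)) := hb
    rw [← Finsupp.range_linearCombination] at h2
    obtain ⟨p, rfl⟩ := h2
    exact ⟨p, by rw [← dist_eq_norm]; exact hb'.le⟩
  choose P hP using happ
  obtain ⟨R, π, ξ, h1, h2, h3⟩ := hV n m hlt P
  have hπ : ∀ p, π (Finsupp.linearCombination ℂ (word V) p) =
      Finsupp.linearCombination ℂ (word R.v) p := by
    intro p
    simp only [Finsupp.linearCombination_apply, Finsupp.sum, map_sum, map_smul, map_word, h1]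
  have hπn : ∀ b, ‖π b‖ ≤ ‖b‖ := fun b => NonUnitalStarAlgHom.norm_apply_le π b
  have hξ : ∀ k, ξ k = ∑ i, π (Y k i) (∑ k', π ((X i k' : B) -
      Finsupp.linearCombination ℂ (word V) (P i k')) (ξ k')) := by
    intro k
    simp only [map_sub, sub_apply, Finset.sum_sub_distrib, hπ, h3, map_zero, sub_zero,
      Finset.sum_const_zero]
    simp only [map_sum]
    rw [Finset.sum_comm]
    have : ∀ k', ∑ i, π (Y k i) (π (X i k') (ξ k')) = if k = k' then ξ k' else 0 := by
      intro k'
      have h4 := congrArg (fun z : (wordAlg V).topologicalClosure => π (z : B) (ξ k'))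
        (congrFun (congrFun e k) k')
      simp only [Matrix.mul_apply, Matrix.one_apply, AddSubmonoidClass.coe_finsetSum,
        MulMemClass.coe_mul, map_sum, map_mul, sum_apply] at h4
      refine h4.trans ?_
      split_ifs <;> simp
    simp [this]
  have hS : ∑ k, ‖ξ k‖ ≤ (∑ k, ∑ i, ‖(Y k i : B)‖) * ((2 * C)⁻¹ * ∑ k, ‖ξ k‖) := by
    rw [Finset.sum_mul]
    refine Finset.sum_le_sum fun k _ => ?_
    rw [Finset.sum_mul]
    conv_lhs => rw [hξ k]
    refine (norm_sum_le _ _).trans (Finset.sum_le_sum fun i _ => ?_)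
    refine (ContinuousLinearMap.le_opNorm _ _).trans
      (mul_le_mul (hπn _) ?_ (norm_nonneg _) (norm_nonneg _))
    rw [Finset.mul_sum]
    refine (norm_sum_le _ _).trans (Finset.sum_le_sum fun k' _ => ?_)
    exact (ContinuousLinearMap.le_opNorm _ _).trans
      (mul_le_mul_of_nonneg_right ((hπn _).trans (hP i k')) (norm_nonneg _))
  have hS0 : 0 ≤ ∑ k, ‖ξ k‖ := by positivity
  have h5 : (∑ k, ∑ i, ‖(Y k i : B)‖) * ((2 * C)⁻¹ * ∑ k, ‖ξ k‖) ≤ C * ((2 * C)⁻¹ * ∑ k, ‖ξ k‖) :=
    mul_le_mul_of_nonneg_right (by linarith) (by positivity)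
  have h6 : C * ((2 * C)⁻¹ * ∑ k, ‖ξ k‖) = 2⁻¹ * ∑ k, ‖ξ k‖ := by field_simp
  have h7 : ∑ k, ‖ξ k‖ = 0 := by linarith
  rw [Finset.sum_eq_zero_iff_of_nonneg fun _ _ => norm_nonneg _] at h7
  exact h2 (funext fun k => norm_eq_zero.1 (h7 k (Finset.mem_univ k)))

lemma exists_algebra_of {B : Type} [CStarAlgebra B] (V : Fin 5 → B)
    (hV : ∀ (n m : ℕ), m < n → ∀ P : Fin m → Fin n → (List Lt →₀ ℂ),
      ∃ (R : Rep) (π : B →⋆ₐ[ℂ] (R.H →L[ℂ] R.H)) (ξ : Fin n → R.H), (∀ j, π (V j) = R.v j) ∧
        ξ ≠ 0 ∧ ∀ i, ∑ k, Finsupp.linearCombination ℂ (word R.v) (P i k) (ξ k) = 0)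
    (h1 : ∀ j, V j * star (V j) = 1 - star (V j) * V j) (h2 : ‖∑ j, star (V j) * V j‖ ≤ 2) :
    ∃ (A : Type) (_ : CStarAlgebra A) (v : Fin 5 → A), SeparableSpace A ∧
    RC A ∧ (∀ j, v j * star (v j) = 1 - star (v j) * v j) ∧ ‖∑ j, star (v j) * v j‖ ≤ 2 := by
  have hcl : IsClosed ((wordAlg V).topologicalClosure : Set B) :=
    (wordAlg V).isClosed_topologicalClosure
  have hmem : ∀ j, V j ∈ (wordAlg V).topologicalClosure := fun j =>
    (wordAlg V).le_topologicalClosure (Submodule.subset_span ⟨[(j, true)], by simp [word, gen]⟩)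
  refine ⟨(wordAlg V).topologicalClosure, StarSubalgebra.cstarAlgebra _, fun j => ⟨V j, hmem j⟩,
    ?_, rc_closure V hV, fun j => Subtype.ext (h1 j), ?_⟩
  · have h3 : IsSeparable (Set.range (word V)) := (Set.countable_range _).isSeparable
    exact (h3.span (R := ℂ)).closure.separableSpace
  · refine le_trans (le_of_eq ?_) h2
    exact congrArg norm (map_sum (wordAlg V).topologicalClosure.subtype _ _)

theorem exists_algebra : ∃ (A : Type) (_ : CStarAlgebra A) (v : Fin 5 → A), SeparableSpace A ∧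
    RC A ∧ (∀ j, v j * star (v j) = 1 - star (v j) * v j) ∧ ‖∑ j, star (v j) * v j‖ ≤ 2 := by
  let Q := Σ (n : ℕ) (m : ℕ), PLift (m < n) × (Fin m → Fin n → (List Lt →₀ ℂ))
  choose R ξ h1 h2 using fun q : Q => kernel_rep q.1 q.2.1 q.2.2.1.down q.2.2.2
  let B := lp (fun q => (R q).H →L[ℂ] (R q).H) ∞
  let _ : CStarAlgebra B := {}
  let V : Fin 5 → B := fun j => ⟨fun q => (R q).v j, memℓp_infty ⟨1, by
    rintro _ ⟨q, rfl⟩
    exact norm_le_one_of_rel ((R q).rel j)⟩⟩
  let π : ∀ q, B →⋆ₐ[ℂ] ((R q).H →L[ℂ] (R q).H) := fun q =>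
    { toFun := fun b => b q
      map_one' := rfl
      map_mul' := fun _ _ => rfl
      map_zero' := rfl
      map_add' := fun _ _ => rfl
      commutes' := fun _ => rfl
      map_star' := fun _ => rfl }
  refine exists_algebra_of V (fun n m h P =>
    ⟨R ⟨n, m, ⟨h⟩, P⟩, π ⟨n, m, ⟨h⟩, P⟩, ξ ⟨n, m, ⟨h⟩, P⟩, fun j => rfl, h1 ⟨n, m, ⟨h⟩, P⟩,
      h2 ⟨n, m, ⟨h⟩, P⟩⟩) (fun j => ?_) ?_
  · apply lp.ext
    funext q
    exact (R q).rel j
  · refine lp.norm_le_of_forall_le (by norm_num) fun q => ?_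
    have h4 : π q (∑ j, star (V j) * V j) = ∑ j, star ((R q).v j) * (R q).v j := by
      rw [map_sum]
      rfl
    exact (congrArg norm h4).trans_le (R q).bound

end Crest.Agent.H7.Qt
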