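import Crest.Agent.Lead.UFDefs

/-! Row 75, module M2b: gluing bumps. -/

set_option autoImplicit false

namespace Crest.Agent.H7.UF

open Finset Crest.Agent.Lead.UF MeasureTheory

lemma cont_of_lip {f : ℝ → ℝ} {L : ℝ} (h : ∀ x y, |f x - f y| ≤ L * |x - y|) : Continuous f :=
  (LipschitzWith.of_dist_le' (K := L) (fun x y => by simpa [Real.dist_eq] using h x y)).continuous

lemma int_zero_of_zero {f : ℝ → ℝ} {a b : ℝ} (h : ∀ x ∈ Set.uIcc a b, f x = 0) :
    ∫ x in a..b, f x = 0 := by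
  rw [intervalIntegral.integral_congr (g := fun _ => 0) h]; simp

/-- integral of a bump up to a point outside its support is an integer -/
lemma bump_int {f : ℝ → ℝ} (hf : Continuous f) {α β θ : ℝ} (h0 : 0 ≤ α) (hθ : 0 ≤ θ)
    (hs : ∀ x, x ≤ α ∨ β ≤ x → f x = 0) (hz : ∃ z : ℤ, ∫ x in α..β, f x = z)
    (hout : θ ≤ α ∨ β ≤ θ) : ∃ z : ℤ, ∫ x in (0 : ℝ)..θ, f x = z := by
  rcases hout with h | h
  · refine ⟨0, ?_⟩
    rw [int_zero_of_zero]; · simp
    intro x hx
    rw [Set.uIcc_of_le hθ] at hx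
    exact hs x (Or.inl (hx.2.trans h))
  · obtain ⟨z, hz⟩ := hz
    refine ⟨z, ?_⟩
    have h1 : ∫ x in (0 : ℝ)..α, f x = 0 := int_zero_of_zero fun x hx => by
      rw [Set.uIcc_of_le h0] at hx
      exact hs x (Or.inl hx.2)
    have h2 : ∫ x in β..θ, f x = 0 := int_zero_of_zero fun x hx => by
      rw [Set.uIcc_of_le h] at hx
      exact hs x (Or.inr hx.1)
    rw [← intervalIntegral.integral_add_adjacent_intervals (b := α)
      (hf.intervalIntegrable _ _) (hf.intervalIntegrable _ _),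
      ← intervalIntegral.integral_add_adjacent_intervals (a := α) (b := β)
      (hf.intervalIntegrable _ _) (hf.intervalIntegrable _ _), h1, h2, hz]
    ring

lemma slot_int {P : Type} [Fintype P] [DecidableEq P] (B : P → ℝ → ℝ) (α β : P → ℝ)
    (hc : ∀ p, Continuous (B p)) (h0 : ∀ p, 0 ≤ α p)
    (hs : ∀ p x, x ≤ α p ∨ β p ≤ x → B p x = 0)
    (hz : ∀ p, ∃ z : ℤ, ∫ x in (α p)..(β p), B p x = z)
    (hd : ∀ p q, p ≠ q → β p ≤ α q ∨ β q ≤ α p) (p : P) {θ : ℝ} (h1 : α p ≤ θ) (h2 : θ ≤ β p) :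
    ∃ z : ℤ, ∫ x in (0 : ℝ)..θ, ∑ q, B q x = z + ∫ x in (α p)..θ, B p x := by
  have hθ : 0 ≤ θ := (h0 p).trans h1
  have hq : ∀ q, ∃ z : ℤ, q ≠ p → ∫ x in (0 : ℝ)..θ, B q x = z := by
    intro q
    by_cases hqp : q = p
    · exact ⟨0, fun h => absurd hqp h⟩
    · obtain ⟨z, hz'⟩ := bump_int (hc q) (h0 q) hθ (hs q) (hz q) (θ := θ) (by
        rcases hd q p hqp with h | h
        · exact Or.inr (h.trans h1)
        · exact Or.inl (h2.trans h))
      exact ⟨z, fun _ => hz'⟩
  choose z hz' using hq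
  refine ⟨∑ q ∈ univ.erase p, z q, ?_⟩
  rw [intervalIntegral.integral_finsetSum (fun q _ => (hc q).intervalIntegrable _ _),
    ← Finset.sum_erase_add _ _ (Finset.mem_univ p)]
  congr 1
  · push_cast
    exact Finset.sum_congr rfl fun q hq => hz' q (Finset.ne_of_mem_erase hq)
  · have h3 : ∫ x in (0 : ℝ)..(α p), B p x = 0 := int_zero_of_zero fun x hx => by
      rw [Set.uIcc_of_le (h0 p)] at hx
      exact hs p x (Or.inl hx.2)
    rw [← intervalIntegral.integral_add_adjacent_intervals (b := α p)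
      ((hc p).intervalIntegrable _ _) ((hc p).intervalIntegrable _ _), h3, zero_add]

lemma sum_le_of_disj {P : Type} [Fintype P] [DecidableEq P] (B : P → ℝ → ℝ) (α β : P → ℝ)
    {H : ℝ} (hH : 0 ≤ H) (hb : ∀ p x, B p x ≤ H)
    (hs : ∀ p x, x ≤ α p ∨ β p ≤ x → B p x = 0)
    (hd : ∀ p q, p ≠ q → β p ≤ α q ∨ β q ≤ α p) (x : ℝ) : ∑ p, B p x ≤ H := by
  by_cases h : ∃ p, B p x ≠ 0
  · obtain ⟨p, hp⟩ := h
    have hx : α p < x ∧ x < β p := by
      constructor
      · by_contra h'; exact hp (hs p x (Or.inl (not_lt.1 h')))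
      · by_contra h'; exact hp (hs p x (Or.inr (not_lt.1 h')))
    rw [Finset.sum_eq_single p]
    · exact hb p x
    · intro q _ hq
      rcases hd q p hq with h' | h'
      · exact hs q x (Or.inr (by linarith [hx.1]))
      · exact hs q x (Or.inl (by linarith [hx.2]))
    · simp
  · push Not at h
    simp [h, hH]

/-- decomposition of an integral over a tiling of `[0,1)` -/
lemma int_tiling {P : Type} [Fintype P] [DecidableEq P] (α β : P → ℝ) (F : ℝ → ℂ)
    (hF : Continuous F) (h0 : ∀ p, 0 ≤ α p) (hab : ∀ p, α p ≤ β p) (h1 : ∀ p, β p ≤ 1)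
    (hd : ∀ p q, p ≠ q → β p ≤ α q ∨ β q ≤ α p)
    (hcov : ∀ x, 0 ≤ x → x < 1 → ∃ p, α p ≤ x ∧ x < β p) :
    ∫ x in (0 : ℝ)..1, F x = ∑ p, ∫ x in (α p)..(β p), F x := by
  have hI : ∀ a b : ℝ, a ≤ b → ∫ x in a..b, F x = ∫ x in Set.Ico a b, F x := by
    intro a b h
    rw [intervalIntegral.integral_of_le h, integral_Ioc_eq_integral_Ioo,
      integral_Ico_eq_integral_Ioo]
  have hU : Set.Ico (0 : ℝ) 1 = ⋃ p ∈ (univ : Finset P), Set.Ico (α p) (β p) := by
    ext x
    simp only [Set.mem_Ico, Finset.mem_univ, Set.iUnion_true, Set.mem_iUnion]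
    constructor
    · rintro ⟨a, b⟩; exact hcov x a b
    · rintro ⟨p, a, b⟩; exact ⟨(h0 p).trans a, b.trans_le (h1 p)⟩
  rw [hI 0 1 zero_le_one, hU, integral_biUnion_finset]
  · exact Finset.sum_congr rfl fun p _ => (hI _ _ (hab p)).symm
  · intro p _; exact measurableSet_Ico
  · intro p _ q _ hpq
    rw [Function.onFun, Set.disjoint_left]
    intro x hx hx'
    rcases hd p q hpq with h | h
    · linarith [hx.2, hx'.1]
    · linarith [hx.1, hx'.2]
  · intro p _
    exact (hF.integrableOn_Icc (a := α p) (b := β p)).mono_set Set.Ico_subset_Icc_self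

lemma cont_prim {f : ℝ → ℝ} (hf : Continuous f) (a : ℝ) :
    Continuous fun θ => ∫ r in a..θ, f r :=
  intervalIntegral.continuous_primitive (fun _ _ => hf.intervalIntegrable _ _) a

lemma mirror_int {f : ℝ → ℝ} (hf : Continuous f) {α β : ℝ}
    (hz : ∃ z : ℤ, ∫ x in α..β, f x = z) (κ : ℤ) :
    ∫ θ in (1 - β)..(1 - α), e ((∫ r in (1 - β)..θ, f (1 - r)) - κ * θ) =
      (starRingEnd ℂ) (∫ θ in α..β, e ((∫ r in α..θ, f r) - κ * θ)) := by
  obtain ⟨z, hz⟩ := hz
  rw [← intervalIntegral.integral_comp_sub_left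
    (fun θ => e ((∫ r in (1 - β)..θ, f (1 - r)) - κ * θ)) 1]
  have hconj : ∀ F : ℝ → ℂ, (starRingEnd ℂ) (∫ θ in α..β, F θ) =
      ∫ θ in α..β, (starRingEnd ℂ) (F θ) := by
    intro F
    simp only [intervalIntegral, map_sub, integral_conj]
  rw [hconj]
  refine intervalIntegral.integral_congr fun u _ => ?_
  rw [conj_e, intervalIntegral.integral_comp_sub_left f 1]
  have h1 : ∫ x in (1 - (1 - u))..(1 - (1 - β)), f x = z - ∫ r in α..u, f r := by
    rw [sub_sub_cancel, sub_sub_cancel, ← hz, ← intervalIntegral.integral_add_adjacent_intervals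
      (a := α) (b := u) (c := β) (hf.intervalIntegrable _ _) (hf.intervalIntegrable _ _)]
    ring
  rw [h1, ← e_add_int (-((∫ r in α..u, f r) - κ * u)) (z - κ)]
  congr 1
  push_cast; ring

theorem gluing : Gluing := by
  classical
  intro S _ G t ℓ b h L H hG hD hC hL hs hb hz
  obtain ⟨d1, d2, d3⟩ := hD
  have hGr : (0 : ℝ) < G := by exact_mod_cast hG
  have hbc : ∀ s, Continuous (b s) := fun s => cont_of_lip (hL s)
  let α : S × Bool → ℝ := fun p =>
    if p.2 then (t p.1 : ℝ) / G else 1 - ((t p.1 : ℝ) + ℓ p.1) / G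
  let β : S × Bool → ℝ := fun p =>
    if p.2 then ((t p.1 : ℝ) + ℓ p.1) / G else 1 - (t p.1 : ℝ) / G
  let B : S × Bool → ℝ → ℝ := fun p x => if p.2 then b p.1 x else b p.1 (1 - x)
  have hle : ∀ s, ((t s : ℝ) + ℓ s) / G ≤ 1 := fun s => by
    rw [div_le_one hGr]; exact_mod_cast d1 s
  have hα0 : ∀ p, 0 ≤ α p := by
    rintro ⟨s, _ | _⟩
    · simp only [α]; have := hle s; simp; linarith
    · simp only [α]; simp; positivity
  have hαβ : ∀ p, α p ≤ β p := by
    have : ∀ s, (t s : ℝ) / G ≤ ((t s : ℝ) + ℓ s) / G := fun s =>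
      div_le_div_of_nonneg_right (by simp) hGr.le
    rintro ⟨s, _ | _⟩
    · simp only [α, β]; have := this s; simp; linarith
    · simp only [α, β]; have := this s; simpa using this
  have hβ1 : ∀ p, β p ≤ 1 := by
    rintro ⟨s, _ | _⟩
    · simp only [β]; simp; positivity
    · simp only [β]; simpa using hle s
  have hBc : ∀ p, Continuous (B p) := by
    rintro ⟨s, _ | _⟩
    · simp only [B]; exact (hbc s).comp (by fun_prop)
    · simp only [B]; exact hbc s
  have hBs : ∀ p x, x ≤ α p ∨ β p ≤ x → B p x = 0 := by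
    rintro ⟨s, _ | _⟩ x hx
    · simp only [α, β, B] at hx ⊢
      simp only [Bool.false_eq_true, if_false] at hx ⊢
      apply hs
      rcases hx with hx | hx
      · right; linarith
      · left; linarith
    · simp only [α, β, B, if_true] at hx ⊢
      exact hs s x hx
  have hBz : ∀ p, ∃ z : ℤ, ∫ x in (α p)..(β p), B p x = z := by
    rintro ⟨s, _ | _⟩
    · simp only [α, β, B, Bool.false_eq_true, if_false]
      obtain ⟨z, hz'⟩ := hz s
      refine ⟨z, ?_⟩
      rw [intervalIntegral.integral_comp_sub_left (b s) 1, sub_sub_cancel, sub_sub_cancel, hz']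
    · simp only [α, β, B, if_true]
      exact hz s
  have key : ∀ a c : ℕ, a ≤ c → (a : ℝ) / G ≤ (c : ℝ) / G := fun a c h =>
    div_le_div_of_nonneg_right (by exact_mod_cast h) hGr.le
  have key2 : ∀ a c : ℕ, a + c ≤ G → (a : ℝ) / G ≤ 1 - (c : ℝ) / G := fun a c h => by
    rw [le_sub_iff_add_le, ← add_div, div_le_one hGr]; exact_mod_cast h
  have key3 : ∀ a c : ℕ, G ≤ a + c → 1 - (c : ℝ) / G ≤ (a : ℝ) / G := fun a c h => by
    rw [sub_le_iff_le_add, ← add_div, one_le_div hGr]; exact_mod_cast h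
  have hd : ∀ p q, p ≠ q → β p ≤ α q ∨ β q ≤ α p := by
    rintro ⟨s, _ | _⟩ ⟨s', _ | _⟩ hne <;>
      simp only [α, β, Bool.false_eq_true, if_false, if_true]
    · have hs' : s ≠ s' := fun h => hne (by rw [h])
      rcases d2 s s' hs' with h | h
      · right; have := key _ _ h; push_cast at this; linarith
      · left; have := key _ _ h; push_cast at this; linarith
    · rcases d3 s s' with h | h
      · right; have := key2 (t s' + ℓ s') (t s + ℓ s) (by omega); push_cast at this; exact this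
      · left; exact key3 _ _ (by omega)
    · rcases d3 s s' with h | h
      · left; have := key2 (t s + ℓ s) (t s' + ℓ s') (by omega); push_cast at this; exact this
      · right; exact key3 _ _ (by omega)
    · have hs' : s ≠ s' := fun h => hne (by rw [h])
      rcases d2 s s' hs' with h | h
      · left; have := key _ _ h; push_cast at this; exact this
      · right; have := key _ _ h; push_cast at this; exact this
  have hcov : ∀ x, 0 ≤ x → x < 1 → ∃ p, α p ≤ x ∧ x < β p := by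
    intro x hx0 hx1
    have hxG : 0 ≤ x * G := by positivity
    have hn1 : ((⌊x * G⌋₊ : ℕ) : ℝ) ≤ x * G := Nat.floor_le hxG
    have hn2 : x * G < (⌊x * G⌋₊ : ℕ) + 1 := Nat.lt_floor_add_one _
    have hnG : ⌊x * G⌋₊ < G := by
      rw [Nat.floor_lt hxG]; nlinarith
    set n := ⌊x * G⌋₊ with hn
    obtain ⟨s, hs' | hs'⟩ := hC n hnG
    · refine ⟨(s, true), ?_, ?_⟩ <;> simp only [α, β, if_true]
      · rw [div_le_iff₀ hGr]
        have : (t s : ℝ) ≤ n := by exact_mod_cast hs'.1
        linarith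
      · rw [lt_div_iff₀ hGr]
        have : (n : ℝ) + 1 ≤ t s + ℓ s := by exact_mod_cast hs'.2
        linarith
    · refine ⟨(s, false), ?_, ?_⟩ <;> simp only [α, β, Bool.false_eq_true, if_false]
      · rw [sub_le_iff_le_add, ← sub_le_iff_le_add', le_div_iff₀ hGr]
        have h' : G ≤ t s + ℓ s + n := by omega
        have : (G : ℝ) ≤ t s + ℓ s + n := by exact_mod_cast h'
        nlinarith
      · rw [lt_sub_iff_add_lt, ← lt_sub_iff_add_lt', div_lt_iff₀ hGr]
        have h' : t s + n + 1 ≤ G := by omega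
        have : (t s : ℝ) + n + 1 ≤ G := by exact_mod_cast h'
        nlinarith
  have hH : 0 ≤ H := by
    obtain ⟨s, -⟩ := hC 0 hG
    exact (hb s 0).1.trans (hb s 0).2
  have hBb : ∀ p x, 0 ≤ B p x ∧ B p x ≤ H := by
    rintro ⟨s, _ | _⟩ x
    · exact hb s _
    · exact hb s _
  have hsumc : Continuous fun x => ∑ p, B p x := continuous_finsetSum _ fun p _ => hBc p
  have hprim : ∀ θ : ℝ, ∫ r in (0 : ℝ)..θ, ((h : ℝ) + ∑ p, B p r) =
      h * θ + ∫ r in (0 : ℝ)..θ, ∑ p, B p r := by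
    intro θ
    rw [intervalIntegral.integral_add (continuous_const.intervalIntegrable _ _)
      (hsumc.intervalIntegrable _ _)]
    simp [mul_comm]
  refine ⟨fun x => (h : ℝ) + ∑ p, B p x, ?_, ?_, ?_, ?_, ?_⟩
  · intro x y
    have h1 : ∀ p, |B p x - B p y| ≤ L * |x - y| := by
      rintro ⟨s, _ | _⟩
      · have := hL s (1 - x) (1 - y)
        rw [show (1 - x) - (1 - y) = -(x - y) by ring, abs_neg] at this
        exact this
      · exact hL s x y
    calc |((h : ℝ) + ∑ p, B p x) - (h + ∑ p, B p y)| = |∑ p, (B p x - B p y)| := by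
          rw [Finset.sum_sub_distrib]; congr 1; ring
      _ ≤ ∑ p, |B p x - B p y| := Finset.abs_sum_le_sum_abs _ _
      _ ≤ ∑ _p : S × Bool, L * |x - y| := Finset.sum_le_sum fun p _ => h1 p
      _ = 2 * Fintype.card S * L * |x - y| := by
          simp [Finset.card_univ, Fintype.card_prod]; ring
  · simp only [Fintype.sum_prod_type, Fintype.sum_bool, B, if_true, Bool.false_eq_true, if_false,
      sub_zero, sub_self]
    congr 1
    exact Finset.sum_congr rfl fun s _ => add_comm _ _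
  · intro x _
    have h1 : 0 ≤ ∑ p, B p x := Finset.sum_nonneg fun p _ => (hBb p x).1
    have h2 := sum_le_of_disj B α β hH (fun p x => (hBb p x).2) hBs hd x
    constructor <;> simp only <;> linarith
  · have hq : ∀ p, ∃ z : ℤ, ∫ x in (0 : ℝ)..1, B p x = z := fun p =>
      bump_int (hBc p) (hα0 p) zero_le_one (hBs p) (hBz p) (Or.inr (hβ1 p))
    choose z hz' using hq
    refine ⟨h + ∑ p, z p, ?_⟩
    rw [hprim, intervalIntegral.integral_finsetSum (fun q _ => (hBc q).intervalIntegrable _ _)]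
    push_cast
    rw [mul_one]
    congr 1
    exact Finset.sum_congr rfl fun p _ => hz' p
  · intro k
    have hFc : Continuous fun s : ℝ =>
        e ((∫ r in (0 : ℝ)..s, ((h : ℝ) + ∑ p, B p r)) - k * s) :=
      continuous_e.comp ((cont_prim (continuous_const.add hsumc) 0).sub (by fun_prop))
    rw [int_tiling α β _ hFc hα0 hαβ hβ1 hd hcov]
    have hslot : ∀ p, ∫ s in (α p)..(β p),
        e ((∫ r in (0 : ℝ)..s, ((h : ℝ) + ∑ p, B p r)) - k * s) =
        ∫ θ in (α p)..(β p), e ((∫ r in (α p)..θ, B p r) - ((k - h : ℤ) : ℝ) * θ) := by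
      intro p
      refine intervalIntegral.integral_congr fun θ hθ => ?_
      rw [Set.uIcc_of_le (hαβ p)] at hθ
      obtain ⟨z, hz'⟩ := slot_int B α β hBc hα0 hBs hBz hd p hθ.1 hθ.2
      rw [hprim, hz', ← e_add_int ((∫ r in (α p)..θ, B p r) - ((k - h : ℤ) : ℝ) * θ) z]
      congr 1
      push_cast; ring
    simp only [hslot]
    rw [Fintype.sum_prod_type]
    simp only [Fintype.sum_bool, α, β, B, if_true, Bool.false_eq_true, if_false]
    have hm : ∀ s, ∫ θ in (1 - ((t s : ℝ) + ℓ s) / G)..(1 - (t s : ℝ) / G),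
        e ((∫ r in (1 - ((t s : ℝ) + ℓ s) / G)..θ, b s (1 - r)) - ((k - h : ℤ) : ℝ) * θ) =
        (starRingEnd ℂ) (∫ θ in ((t s : ℝ) / G)..(((t s : ℝ) + ℓ s) / G),
          e ((∫ r in ((t s : ℝ) / G)..θ, b s r) - ((k - h : ℤ) : ℝ) * θ)) :=
      fun s => mirror_int (hbc s) (hz s) (k - h)
    simp only [hm]
    rw [Finset.sum_add_distrib, ← map_sum, Complex.add_conj]

end Crest.Agent.H7.UF
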