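import Crest.Agent.H7.UFGlue

/-! Row 75, module M2a: smoothing. -/

set_option autoImplicit false

namespace Crest.Agent.H7.UF

open Finset Crest.Agent.Lead.UF MeasureTheory

/-- Dirichlet kernel -/
noncomputable def D (A : ℕ) (t : ℝ) : ℂ := ∑ a ∈ range A, e (a * t)

lemma norm_D_le (A : ℕ) (t : ℝ) : ‖D A t‖ ≤ A := by
  unfold D
  refine (norm_sum_le _ _).trans (le_of_eq ?_)
  simp

lemma norm_e_sub_one_ge {t : ℝ} (ht : |t| ≤ 1 / 2) : 4 * |t| ≤ ‖e t - 1‖ := by
  unfold e
  have : (2 * Real.pi * t * Complex.I : ℂ) = Complex.I * ((2 * Real.pi * t : ℝ) : ℂ) := by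
    push_cast; ring
  rw [this, Complex.norm_exp_I_mul_ofReal_sub_one]
  have hpi := Real.pi_pos
  have h1 : |2 * Real.pi * t / 2| ≤ Real.pi / 2 := by
    rw [show 2 * Real.pi * t / 2 = Real.pi * t by ring, abs_mul, abs_of_pos hpi]
    nlinarith
  have h2 := Real.mul_abs_le_abs_sin h1
  rw [show 2 * Real.pi * t / 2 = Real.pi * t by ring, abs_mul, abs_of_pos hpi] at h2
  rw [show 2 * Real.pi * t / 2 = Real.pi * t by ring, Real.norm_eq_abs, abs_mul, abs_two]
  have h3 : 2 / Real.pi * (Real.pi * |t|) = 2 * |t| := by field_simp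
  linarith

lemma norm_D_le' (A : ℕ) {t : ℝ} (ht : |t| ≤ 1 / 2) : 2 * |t| * ‖D A t‖ ≤ 1 := by
  have h1 : D A t * (e t - 1) = e t ^ A - 1 := by
    unfold D
    simp only [e_nat_mul]
    exact geom_sum_mul _ _
  have h2 : ‖D A t‖ * ‖e t - 1‖ ≤ 2 := by
    rw [← norm_mul, h1]
    refine (norm_sub_le _ _).trans ?_
    rw [norm_pow, norm_e]; norm_num
  have h3 := norm_e_sub_one_ge ht
  nlinarith [norm_nonneg (D A t)]

lemma int_e_int (z : ℤ) : ∫ t in (-1 / 2 : ℝ)..(1 / 2), e (z * t) = if z = 0 then 1 else 0 := by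
  split_ifs with hz
  · subst hz; simp; norm_num
  · have hz' : (z : ℂ) ≠ 0 := by exact_mod_cast hz
    have hpi : (Real.pi : ℂ) ≠ 0 := by exact_mod_cast Real.pi_ne_zero
    have hd : ∀ t ∈ Set.uIcc (-1 / 2 : ℝ) (1 / 2), HasDerivAt
        (fun t : ℝ => e (z * t) / (2 * Real.pi * Complex.I * z)) (e (z * t)) t := by
      intro t _
      have h1 : HasDerivAt (fun t : ℝ => (z : ℝ) * t) (z : ℝ) t := by
        simpa using (hasDerivAt_id t).const_mul (z : ℝ)
      have h2 := ((hasDerivAt_e ((z : ℝ) * t)).scomp t h1).div_const (2 * Real.pi * Complex.I * z)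
      refine h2.congr_deriv ?_
      rw [Complex.real_smul]
      push_cast
      field_simp
    rw [intervalIntegral.integral_eq_sub_of_hasDerivAt hd
      ((continuous_e.comp (by fun_prop)).intervalIntegrable _ _)]
    have : e (z * (1 / 2 : ℝ)) = e (z * (-1 / 2 : ℝ)) := by
      rw [← e_add_int (z * (-1 / 2 : ℝ)) z]; congr 1; ring
    rw [this, sub_self]

/-- trapezoid multiplier -/
noncomputable def mult (n A k : ℕ) : ℝ :=
  (∑ l ∈ range n, if l ≤ k ∧ k < l + A then (1 : ℝ) else 0) / n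

lemma mult_nonneg (n A k : ℕ) : 0 ≤ mult n A k :=
  div_nonneg (Finset.sum_nonneg fun _ _ => by split_ifs <;> norm_num) (by positivity)

lemma mult_le_one (n A k : ℕ) : mult n A k ≤ 1 := by
  unfold mult
  apply div_le_one_of_le₀ _ (by positivity)
  calc _ ≤ ∑ _l ∈ range n, (1 : ℝ) := Finset.sum_le_sum fun _ _ => by split_ifs <;> norm_num
    _ = n := by simp

lemma mult_eq_one {n A k : ℕ} (hn : 0 < n) (h1 : n ≤ k + 1) (h2 : k < A) : mult n A k = 1 := by
  unfold mult
  rw [Finset.sum_congr rfl (g := fun _ => (1 : ℝ))]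
  · have : (n : ℝ) ≠ 0 := by positivity
    simp [this]
  · intro l hl
    rw [Finset.mem_range] at hl
    rw [if_pos ⟨by omega, by omega⟩]

lemma sum_mult {n A N : ℕ} (hN : n + A ≤ N + 1) (t : ℝ) :
    ∑ k : Fin N, (mult n A k : ℂ) * e ((k : ℕ) * t) = D n t * D A t / n := by
  rw [Fin.sum_univ_eq_sum_range (fun k => (mult n A k : ℂ) * e ((k : ℕ) * t))]
  unfold mult D
  push_cast
  simp only [div_mul_eq_mul_div, ← Finset.sum_div]
  congr 1
  simp only [Finset.sum_mul]
  rw [Finset.sum_comm]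
  refine Finset.sum_congr rfl fun l hl => ?_
  rw [Finset.mem_range] at hl
  have h1 : ∀ k ∈ range N, (((if l ≤ k ∧ k < l + A then (1 : ℝ) else 0 : ℝ)) : ℂ) * e ((k : ℕ) * t)
      = if k ∈ Finset.Ico l (l + A) then e ((k : ℕ) * t) else 0 := by
    intro k _
    simp only [Finset.mem_Ico]
    split_ifs <;> simp
  rw [Finset.sum_congr rfl h1, ← Finset.sum_filter, Finset.filter_mem_eq_inter,
    Finset.inter_eq_right.2, Finset.sum_Ico_eq_sum_range, Finset.mul_sum]
  · rw [Nat.add_sub_cancel_left]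
    refine Finset.sum_congr rfl fun a _ => ?_
    rw [← e_add]; congr 1; push_cast; ring
  · intro k hk
    rw [Finset.mem_Ico] at hk
    rw [Finset.mem_range]; omega

lemma lip_fract {g : ℝ → ℝ} {L : ℝ} (hL : ∀ x y, |g x - g y| ≤ L * |x - y|) (h01 : g 0 = g 1)
    (x y : ℝ) : |g (Int.fract x) - g (Int.fract y)| ≤ L * |x - y| := by
  have hL0 : 0 ≤ L := by
    have := hL 0 1
    have h2 := abs_nonneg (g 0 - g 1)
    simp at this
    exact (abs_nonneg _).trans this
  wlog hxy : x ≤ y generalizing x y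
  · rw [abs_sub_comm, abs_sub_comm x y]; exact this y x (le_of_not_ge hxy)
  by_cases hf : ⌊x⌋ = ⌊y⌋
  · have := hL (Int.fract x) (Int.fract y)
    rwa [show Int.fract x - Int.fract y = x - y by rw [Int.fract, Int.fract, hf]; ring] at this
  · have h1 : ⌊x⌋ + 1 ≤ ⌊y⌋ := by
      have := Int.floor_le_floor hxy
      omega
    have h1' : (⌊x⌋ : ℝ) + 1 ≤ ⌊y⌋ := by exact_mod_cast h1
    have a1 := hL (Int.fract x) 1
    have a2 := hL 0 (Int.fract y)
    rw [abs_sub_comm (Int.fract x) 1, abs_of_nonneg (sub_nonneg.2 (Int.fract_lt_one x).le)] at a1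
    rw [zero_sub, abs_neg, abs_of_nonneg (Int.fract_nonneg y)] at a2
    have a3 : |g (Int.fract x) - g (Int.fract y)| ≤
        |g (Int.fract x) - g 1| + |g 0 - g (Int.fract y)| := by
      rw [h01]; exact abs_sub_le _ _ _
    have a4 : (1 - Int.fract x) + Int.fract y ≤ |x - y| := by
      rw [abs_sub_comm, abs_of_nonneg (sub_nonneg.2 hxy), Int.fract, Int.fract]; linarith
    nlinarith

lemma far_int {F : ℝ → ℂ} {a b c r : ℝ} (hab : a ≤ b) (hc : 0 ≤ c) (hr : 0 < r)
    (h : r ≤ a ∨ b ≤ -r) (hF : ∀ t ∈ Set.Icc a b, ‖F t‖ ≤ c / t ^ 2) :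
    ‖∫ t in a..b, F t‖ ≤ c / r := by
  have hne : ∀ t ∈ Set.Icc a b, t ≠ 0 := by
    intro t ht h0
    rcases h with h | h
    · linarith [ht.1]
    · linarith [ht.2]
  have hcont : ContinuousOn (fun t : ℝ => c / t ^ 2) (Set.uIcc a b) := by
    rw [Set.uIcc_of_le hab]
    exact continuousOn_const.div (by fun_prop) fun t ht => pow_ne_zero _ (hne t ht)
  have h1 := intervalIntegral.norm_integral_le_of_norm_le (f := F) (g := fun t : ℝ => c / t ^ 2)
    (μ := volume) hab (Filter.Eventually.of_forall fun t ht => hF t ⟨ht.1.le, ht.2⟩)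
    hcont.intervalIntegrable
  refine h1.trans ?_
  have hd : ∀ t ∈ Set.uIcc a b, HasDerivAt (fun t : ℝ => -c / t) (c / t ^ 2) t := by
    intro t ht
    rw [Set.uIcc_of_le hab] at ht
    have := ((hasDerivAt_inv (hne t ht)).const_mul (-c))
    refine (this.congr_deriv ?_).congr_of_eventuallyEq (Filter.Eventually.of_forall fun x => ?_)
    · field_simp
    · simp [div_eq_mul_inv]
  rw [intervalIntegral.integral_eq_sub_of_hasDerivAt hd hcont.intervalIntegrable]
  rcases h with h | h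
  · have h2 : c / a ≤ c / r := div_le_div_of_nonneg_left hc hr h
    have h3 : 0 ≤ c / b := div_nonneg hc (by linarith)
    rw [neg_div, neg_div]; linarith
  · have h2 : c / (-b) ≤ c / r := div_le_div_of_nonneg_left hc hr (by linarith)
    have h3 : 0 ≤ c / (-a) := div_nonneg hc (by linarith)
    rw [div_neg] at h2 h3
    rw [neg_div, neg_div]; linarith

/-- main estimate, for a periodic phase derivative -/
lemma main_est {g : ℝ → ℝ} {L : ℝ} (hL : ∀ x y, |g x - g y| ≤ L * |x - y|)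
    {n A g0 : ℕ} (hn : 0 < n) {θ r : ℝ} (hg0 : |g θ - g0| ≤ 1) (hr : 0 < r) (hr2 : r ≤ 1 / 2) :
    ‖∫ t in (-1 / 2 : ℝ)..(1 / 2), (e (∫ s in (0 : ℝ)..(θ - t), g s) -
        e (∫ s in (0 : ℝ)..θ, g s) * e (-(g0 * t))) * (D n t * D A t / n)‖ ≤
      2 * Real.pi * ((L * r + 1) * r) * A * (2 * r) + 2 * (1 / (2 * n) / r) := by
  have hgc := cont_of_lip hL
  have hL0 : 0 ≤ L := by
    have := hL 0 1
    simp at this
    exact (abs_nonneg _).trans this
  have hnr : (0 : ℝ) < n := by exact_mod_cast hn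
  have hDc : ∀ A, Continuous (D A) := fun A =>
    continuous_finsetSum _ fun a _ => continuous_e.comp (by fun_prop)
  obtain ⟨F, hF⟩ : ∃ F : ℝ → ℂ, F = fun t => (e (∫ s in (0 : ℝ)..(θ - t), g s) -
        e (∫ s in (0 : ℝ)..θ, g s) * e (-(g0 * t))) * (D n t * D A t / n) := ⟨_, rfl⟩
  have hFc : Continuous F := by
    rw [hF]
    refine Continuous.mul (Continuous.sub ?_ ?_) (((hDc n).mul (hDc A)).div_const _)
    · exact continuous_e.comp ((cont_prim hgc 0).comp (by fun_prop))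
    · exact continuous_const.mul (continuous_e.comp (by fun_prop))
  have hfar : ∀ t, |t| ≤ 1 / 2 → t ≠ 0 → ‖F t‖ ≤ 1 / (2 * n) / t ^ 2 := by
    intro t ht ht0
    have h1 : ‖e (∫ s in (0 : ℝ)..(θ - t), g s) -
        e (∫ s in (0 : ℝ)..θ, g s) * e (-(g0 * t))‖ ≤ 2 := by
      refine (norm_sub_le _ _).trans ?_
      rw [norm_mul]; simp; norm_num
    have h2 := norm_D_le' n ht
    have h3 := norm_D_le' A ht
    have hta : 0 < |t| := abs_pos.2 ht0
    have h4 : ‖D n t‖ * ‖D A t‖ ≤ 1 / (4 * t ^ 2) := by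
      rw [le_div_iff₀ (by positivity), ← sq_abs t]
      have := mul_le_mul h2 h3 (by positivity) zero_le_one
      nlinarith
    rw [hF]
    simp only
    rw [norm_mul, norm_div, norm_mul, Complex.norm_natCast]
    calc _ ≤ 2 * (1 / (4 * t ^ 2) / n) :=
          mul_le_mul h1 (div_le_div_of_nonneg_right h4 hnr.le) (by positivity) (by norm_num)
      _ = 1 / (2 * n) / t ^ 2 := by field_simp; norm_num
  have hnear : ∀ t ∈ Set.uIoc (-r) r, ‖F t‖ ≤ 2 * Real.pi * ((L * r + 1) * r) * A := by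
    intro t ht
    rw [Set.uIoc_of_le (by linarith)] at ht
    have htr : |t| ≤ r := abs_le.2 ⟨ht.1.le, ht.2⟩
    have h0 : (∫ s in (0 : ℝ)..(θ - t), g s) = (∫ s in (0 : ℝ)..θ, g s) + (-(g0 * t)) +
        ∫ s in θ..(θ - t), (g s - g0) := by
      rw [intervalIntegral.integral_sub (hgc.intervalIntegrable _ _)
        (continuous_const.intervalIntegrable _ _),
        ← intervalIntegral.integral_add_adjacent_intervals (a := 0) (b := θ) (c := θ - t)
        (hgc.intervalIntegrable _ _) (hgc.intervalIntegrable _ _)]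
      simp; ring
    have h1 : ‖∫ s in θ..(θ - t), (g s - g0)‖ ≤ (L * r + 1) * |θ - t - θ| := by
      apply intervalIntegral.norm_integral_le_of_norm_le_const
      intro x hx
      have hx' : |x - θ| ≤ r := by
        have := Set.abs_sub_left_of_mem_uIcc (Set.uIoc_subset_uIcc hx)
        rw [show θ - t - θ = -t by ring, abs_neg] at this
        exact this.trans htr
      rw [Real.norm_eq_abs]
      have a1 := hL x θ
      have a2 := abs_sub_le (g x) (g θ) (g0 : ℝ)
      nlinarith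
    rw [show θ - t - θ = -t by ring, abs_neg, Real.norm_eq_abs] at h1
    have h2 : ‖e (∫ s in (0 : ℝ)..(θ - t), g s) -
        e (∫ s in (0 : ℝ)..θ, g s) * e (-(g0 * t))‖ ≤ 2 * Real.pi * ((L * r + 1) * r) := by
      rw [h0, e_add, e_add, ← mul_sub_one, norm_mul, norm_mul, norm_e, norm_e, one_mul, one_mul]
      refine (norm_e_sub_one_le _).trans ?_
      have : (L * r + 1) * |t| ≤ (L * r + 1) * r :=
        mul_le_mul_of_nonneg_left htr (by positivity)
      exact mul_le_mul_of_nonneg_left (h1.trans this) (by positivity)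
    have h3 : ‖D n t * D A t / n‖ ≤ A := by
      rw [norm_div, norm_mul, Complex.norm_natCast, div_le_iff₀ hnr]
      have := mul_le_mul (norm_D_le n t) (norm_D_le A t) (norm_nonneg _) hnr.le
      linarith
    rw [hF]
    simp only
    rw [norm_mul]
    exact mul_le_mul h2 h3 (norm_nonneg _) (by positivity)
  rw [← hF, ← intervalIntegral.integral_add_adjacent_intervals (b := -r)
    (hFc.intervalIntegrable _ _) (hFc.intervalIntegrable _ _),
    ← intervalIntegral.integral_add_adjacent_intervals (a := -r) (b := r)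
    (hFc.intervalIntegrable _ _) (hFc.intervalIntegrable _ _)]
  have b1 : ‖∫ t in (-1 / 2 : ℝ)..(-r), F t‖ ≤ 1 / (2 * n) / r :=
    far_int (by linarith) (by positivity) hr (Or.inr le_rfl) fun t ht =>
      hfar t (abs_le.2 ⟨by linarith [ht.1], by linarith [ht.2]⟩) (by linarith [ht.2])
  have b2 : ‖∫ t in r..(1 / 2 : ℝ), F t‖ ≤ 1 / (2 * n) / r :=
    far_int hr2 (by positivity) hr (Or.inl le_rfl) fun t ht =>
      hfar t (abs_le.2 ⟨by linarith [ht.1], ht.2⟩) (by linarith [ht.1])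
  have b3 := intervalIntegral.norm_integral_le_of_norm_le_const hnear
  rw [show r - -r = 2 * r by ring, abs_of_pos (by linarith : 0 < 2 * r)] at b3
  have := norm_add_le (∫ t in (-1 / 2 : ℝ)..(-r), F t) ((∫ t in (-r)..r, F t) +
    ∫ t in r..(1 / 2 : ℝ), F t)
  have := norm_add_le (∫ t in (-r)..r, F t) (∫ t in r..(1 / 2 : ℝ), F t)
  linarith

lemma conv_form {g : ℝ → ℝ} (hgc : Continuous g) (hper : Function.Periodic g 1)
    (hz : ∃ z : ℤ, ∫ s in (0 : ℝ)..1, g s = z) {N : ℕ} (m : Fin N → ℝ) (θ : ℝ) :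
    ∑ k : Fin N, (m k : ℂ) *
        (∫ s in (0 : ℝ)..1, e ((∫ r in (0 : ℝ)..s, g r) - (k : ℕ) * s)) * e ((k : ℕ) * θ) =
      ∫ t in (-1 / 2 : ℝ)..(1 / 2), e (∫ s in (0 : ℝ)..(θ - t), g s) *
        ∑ k : Fin N, (m k : ℂ) * e ((k : ℕ) * t) := by
  obtain ⟨z, hz⟩ := hz
  have hP := cont_prim hgc 0
  simp only [Finset.mul_sum]
  rw [intervalIntegral.integral_finsetSum]
  · refine Finset.sum_congr rfl fun k _ => ?_
    have hper' : Function.Periodic
        (fun s : ℝ => e ((∫ r in (0 : ℝ)..s, g r) - (k : ℕ) * s)) 1 := by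
      intro s
      have h1 : ∫ r in (0 : ℝ)..(s + 1), g r = (∫ r in (0 : ℝ)..s, g r) + z := by
        rw [← intervalIntegral.integral_add_adjacent_intervals (a := 0) (b := s) (c := s + 1)
          (hgc.intervalIntegrable _ _) (hgc.intervalIntegrable _ _),
          hper.intervalIntegral_add_eq s 0, zero_add, hz]
      simp only
      rw [h1, ← e_add_int ((∫ r in (0 : ℝ)..s, g r) - (k : ℕ) * s) (z - (k : ℕ))]
      congr 1
      push_cast; ring
    have h2 := hper'.intervalIntegral_add_eq 0 (θ - 1 / 2)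
    rw [zero_add] at h2
    rw [h2]
    have h3 := intervalIntegral.integral_comp_sub_left (a := -1 / 2) (b := 1 / 2)
      (fun s : ℝ => e ((∫ r in (0 : ℝ)..s, g r) - (k : ℕ) * s)) θ
    rw [show θ - 1 / 2 + 1 = θ - -1 / 2 by ring, ← h3, ← intervalIntegral.integral_const_mul,
      ← intervalIntegral.integral_mul_const]
    refine intervalIntegral.integral_congr fun t _ => ?_
    rw [mul_assoc, ← e_add, mul_left_comm, ← e_add]
    congr 2
    ring
  · intro k _
    refine Continuous.intervalIntegrable ?_ _ _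
    exact (continuous_e.comp (hP.comp (by fun_prop))).mul
      (continuous_const.mul (continuous_e.comp (by fun_prop)))

lemma repro {N : ℕ} (m : Fin N → ℝ) (k0 : Fin N) :
    ∫ t in (-1 / 2 : ℝ)..(1 / 2), e (-((k0 : ℕ) * t)) * ∑ k : Fin N, (m k : ℂ) * e ((k : ℕ) * t)
      = m k0 := by
  simp only [Finset.mul_sum]
  rw [intervalIntegral.integral_finsetSum]
  · have h1 : ∀ k : Fin N, ∫ t in (-1 / 2 : ℝ)..(1 / 2),
        e (-((k0 : ℕ) * t)) * ((m k : ℂ) * e ((k : ℕ) * t)) = if k = k0 then (m k : ℂ) else 0 := by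
      intro k
      have h2 := int_e_int (((k : ℕ) : ℤ) - (k0 : ℕ))
      have h3 : ∫ t in (-1 / 2 : ℝ)..(1 / 2),
          e (-((k0 : ℕ) * t)) * ((m k : ℂ) * e ((k : ℕ) * t)) =
          m k * ∫ t in (-1 / 2 : ℝ)..(1 / 2), e (((((k : ℕ) : ℤ) - (k0 : ℕ) : ℤ) : ℝ) * t) := by
        rw [← intervalIntegral.integral_const_mul]
        refine intervalIntegral.integral_congr fun t _ => ?_
        rw [mul_left_comm, ← e_add]
        congr 2
        push_cast; ring
      rw [h3, h2]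
      by_cases hk : k = k0
      · subst hk; simp
      · have : ((k : ℕ) : ℤ) - (k0 : ℕ) ≠ 0 := by
          intro h; apply hk; ext; omega
        simp [hk, this]
    simp only [h1]; simp
  · intro k _
    refine Continuous.intervalIntegrable ?_ _ _
    exact (continuous_e.comp (by fun_prop)).mul
      (continuous_const.mul (continuous_e.comp (by fun_prop)))

theorem smoothing : Smoothing := by
  intro C δ η hδ hη
  -- parameters
  obtain ⟨Λ, hΛ⟩ : ∃ Λ : ℝ, Λ = 4 / (δ * η) := ⟨_, rfl⟩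
  have hΛ0 : 0 < Λ := by rw [hΛ]; positivity
  obtain ⟨K, hK⟩ : ∃ K : ℝ, K = 4 * Real.pi * (|C| * Λ + 1) * Λ ^ 2 := ⟨_, rfl⟩
  have hK0 : 0 ≤ K := by rw [hK]; positivity
  obtain ⟨N₀, hN₀⟩ := exists_nat_ge (max (max (2 * Λ) (1 / δ)) (2 * K / η))
  refine ⟨N₀, fun N hN g hL h01 hb hz => ?_⟩
  have hNr : (N₀ : ℝ) ≤ N := by exact_mod_cast hN
  have hN1 : 2 * Λ ≤ N := ((le_max_left _ _).trans (le_max_left _ _)).trans (hN₀.trans hNr)
  have hN2 : 1 / δ ≤ N := ((le_max_right _ _).trans (le_max_left _ _)).trans (hN₀.trans hNr)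
  have hN3 : 2 * K / η ≤ N := (le_max_right _ _).trans (hN₀.trans hNr)
  have hNpos : (0 : ℝ) < N := by linarith
  have hδN : 1 ≤ δ * N := by rw [div_le_iff₀ hδ] at hN2; linarith
  obtain ⟨n, hn⟩ : ∃ n : ℕ, n = ⌊δ * N⌋₊ := ⟨_, rfl⟩
  have hn1 : (n : ℝ) ≤ δ * N := by rw [hn]; exact Nat.floor_le (by linarith)
  have hn2 : δ * N < n + 1 := by rw [hn]; exact Nat.lt_floor_add_one _
  have hn0 : 0 < n := by rw [hn]; exact Nat.floor_pos.2 hδN
  have hn0' : (1 : ℝ) ≤ n := by exact_mod_cast hn0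
  have hnN : n ≤ N := by
    have := hb 0 ⟨le_rfl, zero_le_one⟩
    have h2 : (n : ℝ) ≤ N := by nlinarith
    exact_mod_cast h2
  refine ⟨fun k => mult n (N + 1 - n) k, fun k => ⟨mult_nonneg _ _ _, mult_le_one _ _ _⟩, ?_⟩
  intro θ hθ
  -- periodise
  obtain ⟨g', hg'⟩ : ∃ g' : ℝ → ℝ, g' = fun x => g (Int.fract x) := ⟨_, rfl⟩
  have hL' : ∀ x y, |g' x - g' y| ≤ C * N * |x - y| := by
    rw [hg']; exact lip_fract hL h01
  have hper : Function.Periodic g' 1 := by
    intro x; rw [hg']; simp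
  have heq : ∀ x ∈ Set.Icc (0 : ℝ) 1, g x = g' x := by
    intro x hx
    rw [hg']
    rcases hx.2.eq_or_lt with h | h
    · subst h; simp [h01]
    · simp only; rw [Int.fract_eq_self.2 ⟨hx.1, h⟩]
  have hint : ∀ s ∈ Set.Icc (0 : ℝ) 1, ∫ r in (0 : ℝ)..s, g r = ∫ r in (0 : ℝ)..s, g' r := by
    intro s hs
    refine intervalIntegral.integral_congr fun x hx => heq x ?_
    rw [Set.uIcc_of_le hs.1] at hx
    exact ⟨hx.1, hx.2.trans hs.2⟩
  have hint2 : ∀ k : Fin N, ∫ s in (0 : ℝ)..1, e ((∫ r in (0 : ℝ)..s, g r) - (k : ℕ) * s) =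
      ∫ s in (0 : ℝ)..1, e ((∫ r in (0 : ℝ)..s, g' r) - (k : ℕ) * s) := by
    intro k
    refine intervalIntegral.integral_congr fun x hx => ?_
    rw [Set.uIcc_of_le zero_le_one] at hx
    rw [hint x hx]
  have hgc := cont_of_lip hL'
  rw [hint 1 ⟨zero_le_one, le_rfl⟩] at hz
  simp only [hint2]
  rw [hint θ hθ, conv_form hgc hper hz]
  obtain ⟨b1, b2⟩ := hb θ hθ
  rw [heq θ hθ] at b1 b2
  obtain ⟨g0, hg0⟩ : ∃ g0 : ℕ, g0 = ⌊g' θ⌋₊ := ⟨_, rfl⟩
  have c1 : (g0 : ℝ) ≤ g' θ := by rw [hg0]; exact Nat.floor_le (by linarith)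
  have c2 : g' θ < g0 + 1 := by rw [hg0]; exact Nat.lt_floor_add_one _
  have c3 : n ≤ g0 + 1 := by
    have : (n : ℝ) ≤ g0 + 1 := by linarith
    exact_mod_cast this
  have c4 : g0 + n ≤ N := by
    have : (g0 : ℝ) + n ≤ N := by nlinarith
    exact_mod_cast this
  have c5 : g0 < N := by omega
  have hrep := repro (fun k : Fin N => mult n (N + 1 - n) k) ⟨g0, c5⟩
  simp only at hrep
  rw [mult_eq_one hn0 c3 (by omega)] at hrep
  have hDc : ∀ A, Continuous (D A) := fun A =>
    continuous_finsetSum _ fun a _ => continuous_e.comp (by fun_prop)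
  have hsm : ∀ t, ∑ k : Fin N, ((mult n (N + 1 - n) k : ℝ) : ℂ) * e ((k : ℕ) * t) =
      D n t * D (N + 1 - n) t / n := fun t => sum_mult (by omega) t
  simp only [hsm] at hrep ⊢
  have hV : Continuous fun t => D n t * D (N + 1 - n) t / n :=
    ((hDc n).mul (hDc _)).div_const _
  have hmain := main_est hL' (A := N + 1 - n) (g0 := g0) hn0 (θ := θ) (r := Λ / N)
    (abs_le.2 ⟨by linarith, by linarith⟩) (by positivity)
    (by rw [div_le_iff₀ hNpos]; linarith)
  have hsplit : (∫ t in (-1 / 2 : ℝ)..(1 / 2), e (∫ s in (0 : ℝ)..(θ - t), g' s) *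
      (D n t * D (N + 1 - n) t / n)) - e (∫ s in (0 : ℝ)..θ, g' s) =
      ∫ t in (-1 / 2 : ℝ)..(1 / 2), (e (∫ s in (0 : ℝ)..(θ - t), g' s) -
        e (∫ s in (0 : ℝ)..θ, g' s) * e (-(g0 * t))) * (D n t * D (N + 1 - n) t / n) := by
    simp only [sub_mul, mul_assoc]
    rw [intervalIntegral.integral_sub, intervalIntegral.integral_const_mul, hrep]
    · simp
    · exact ((continuous_e.comp ((cont_prim hgc 0).comp (by fun_prop))).mul hV).intervalIntegrable
        _ _
    · exact (continuous_const.mul ((continuous_e.comp (by fun_prop)).mul hV)).intervalIntegrable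
        _ _
  rw [hsplit]
  refine hmain.trans ?_
  have hA : ((N + 1 - n : ℕ) : ℝ) ≤ N := by
    have : N + 1 - n ≤ N := by omega
    exact_mod_cast this
  have e1 : 2 * Real.pi * ((C * N * (Λ / N) + 1) * (Λ / N)) * ((N + 1 - n : ℕ) : ℝ) *
      (2 * (Λ / N)) ≤ η / 2 := by
    have f1 : C * N * (Λ / N) + 1 ≤ |C| * Λ + 1 := by
      rw [show C * N * (Λ / N) = C * Λ by field_simp]
      have := mul_le_mul_of_nonneg_right (le_abs_self C) hΛ0.le
      linarith
    calc _ ≤ 2 * Real.pi * ((|C| * Λ + 1) * (Λ / N)) * (N : ℝ) * (2 * (Λ / N)) := by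
          refine mul_le_mul_of_nonneg_right ?_ (by positivity)
          refine mul_le_mul ?_ hA (by positivity) (by positivity)
          exact mul_le_mul_of_nonneg_left (mul_le_mul_of_nonneg_right f1 (by positivity))
            (by positivity)
      _ = K / N := by rw [hK]; field_simp; ring
      _ ≤ η / 2 := by
          rw [div_le_iff₀ hη] at hN3
          rw [div_le_iff₀ hNpos]; linarith
  have e2 : 2 * (1 / (2 * (n : ℝ)) / (Λ / N)) ≤ η / 2 := by
    have f1 : δ * N ≤ 2 * n := by linarith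
    calc _ = N / (n * Λ) := by field_simp
      _ ≤ η / 2 := by
          rw [div_le_iff₀ (by positivity), hΛ]
          rw [show η / 2 * (n * (4 / (δ * η))) = 2 * n / δ by field_simp; ring, le_div_iff₀ hδ]
          linarith
  linarith

end Crest.Agent.H7.UF
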